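import Vale.Agent.P165.FinProb

namespace Vale.Agent.P165

open Finset

variable {α : Type*} [DecidableEq α]

open Classical in
noncomputable def ind (P : Prop) : ℝ := if P then 1 else 0

theorem ind_true {P : Prop} (h : P) : ind P = 1 := by simp [ind, h]
theorem ind_false {P : Prop} (h : ¬ P) : ind P = 0 := by simp [ind, h]
theorem ind_nonneg (P : Prop) : 0 ≤ ind P := by
  by_cases h : P
  · rw [ind_true h]; norm_num
  · rw [ind_false h]
theorem ind_le_one (P : Prop) : ind P ≤ 1 := by
  by_cases h : P
  · rw [ind_true h]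
  · rw [ind_false h]; norm_num
theorem ind_mono {P Q : Prop} (h : P → Q) : ind P ≤ ind Q := by
  by_cases hP : P
  · rw [ind_true hP, ind_true (h hP)]
  · rw [ind_false hP]; exact ind_nonneg Q
theorem ind_and (P Q : Prop) : ind (P ∧ Q) = ind P * ind Q := by
  by_cases hP : P <;> by_cases hQ : Q <;> simp [ind, hP, hQ]
theorem ind_congr {P Q : Prop} (h : P ↔ Q) : ind P = ind Q := by
  rw [propext h]
theorem ind_not (P : Prop) : ind (¬ P) = 1 - ind P := by
  by_cases hP : P <;> simp [ind, hP]
theorem ind_or_le (P Q : Prop) : ind (P ∨ Q) ≤ ind P + ind Q := by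
  by_cases hP : P <;> by_cases hQ : Q <;> simp [ind, hP, hQ]

noncomputable def Pr (p : ℝ) (F : Finset α) (A : Finset α → Prop) : ℝ :=
  Ex p F (fun S => ind (A S))

theorem Pr_insert (p : ℝ) {F : Finset α} {a : α} (ha : a ∉ F) (A : Finset α → Prop) :
    Pr p (insert a F) A = (1 - p) * Pr p F A + p * Pr p F (fun S => A (insert a S)) :=
  Ex_insert p ha _

theorem Pr_mono {p : ℝ} (h0 : 0 ≤ p) (h1 : p ≤ 1) {F : Finset α} {A B : Finset α → Prop}
    (h : ∀ S ⊆ F, A S → B S) : Pr p F A ≤ Pr p F B :=
  Ex_mono h0 h1 (fun S hS => ind_mono (h S hS))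

theorem Pr_congr (p : ℝ) {F : Finset α} {A B : Finset α → Prop}
    (h : ∀ S ⊆ F, (A S ↔ B S)) : Pr p F A = Pr p F B :=
  Ex_congr p (fun S hS => ind_congr (h S hS))

theorem Pr_nonneg {p : ℝ} (h0 : 0 ≤ p) (h1 : p ≤ 1) (F : Finset α) (A : Finset α → Prop) :
    0 ≤ Pr p F A := Ex_nonneg h0 h1 (fun _ _ => ind_nonneg _)

theorem Pr_le_one {p : ℝ} (h0 : 0 ≤ p) (h1 : p ≤ 1) (F : Finset α) (A : Finset α → Prop) :
    Pr p F A ≤ 1 := by
  have := Ex_mono h0 h1 (F := F) (f := fun S => ind (A S)) (g := fun _ => 1)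
    (fun S _ => ind_le_one _)
  rwa [Ex_const] at this

theorem Pr_or_le {p : ℝ} (h0 : 0 ≤ p) (h1 : p ≤ 1) (F : Finset α) (A B : Finset α → Prop) :
    Pr p F (fun S => A S ∨ B S) ≤ Pr p F A + Pr p F B := by
  unfold Pr
  rw [← Ex_add]
  exact Ex_mono h0 h1 (fun S _ => ind_or_le _ _)

theorem Pr_exists_le {ι : Type*} {p : ℝ} (h0 : 0 ≤ p) (h1 : p ≤ 1) (F : Finset α)
    (s : Finset ι) (A : ι → Finset α → Prop) :
    Pr p F (fun S => ∃ i ∈ s, A i S) ≤ ∑ i ∈ s, Pr p F (A i) := by
  unfold Pr
  rw [← Ex_sum]
  apply Ex_mono h0 h1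
  intro S _
  by_cases h : ∃ i ∈ s, A i S
  · obtain ⟨i, hi, hA⟩ := h
    calc ind (∃ i ∈ s, A i S) ≤ 1 := ind_le_one _
      _ = ind (A i S) := (ind_true hA).symm
      _ ≤ ∑ i ∈ s, ind (A i S) :=
        Finset.single_le_sum (f := fun i => ind (A i S)) (fun j _ => ind_nonneg _) hi
  · rw [ind_false h]
    exact Finset.sum_nonneg (fun j _ => ind_nonneg _)

def DisjOcc (A B : Finset α → Prop) (S : Finset α) : Prop :=
  ∃ S₁ S₂ : Finset α, S₁ ⊆ S ∧ S₂ ⊆ S ∧ Disjoint S₁ S₂ ∧ A S₁ ∧ B S₂

theorem DisjOcc.mono {A B : Finset α → Prop} : Monotone (DisjOcc A B) := by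
  intro S T hST h
  obtain ⟨S₁, S₂, h1, h2, h3⟩ := h
  exact ⟨S₁, S₂, h1.trans hST, h2.trans hST, h3⟩

theorem DisjOcc.imp {A B A' B' : Finset α → Prop} {S : Finset α} (hA : ∀ T ⊆ S, A T → A' T)
    (hB : ∀ T ⊆ S, B T → B' T) (h : DisjOcc A B S) : DisjOcc A' B' S := by
  obtain ⟨S₁, S₂, h1, h2, h3, h4, h5⟩ := h
  exact ⟨S₁, S₂, h1, h2, h3, hA _ h1 h4, hB _ h2 h5⟩

theorem bk {p : ℝ} (h0 : 0 ≤ p) (h1 : p ≤ 1) (F : Finset α) {A B : Finset α → Prop}
    (hA : Monotone A) (hB : Monotone B) :
    Pr p F (DisjOcc A B) ≤ Pr p F A * Pr p F B := by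
  induction F using Finset.induction_on generalizing A B with
  | empty =>
    unfold Pr
    rw [Ex_empty, Ex_empty, Ex_empty, ← ind_and]
    apply ind_mono
    rintro ⟨S₁, S₂, h1, h2, h3, h4, h5⟩
    rw [Finset.subset_empty.1 h1] at h4
    rw [Finset.subset_empty.1 h2] at h5
    exact ⟨h4, h5⟩
  | insert a F ha ih =>
    have hA1 : Monotone (fun S : Finset α => A (insert a S)) := by
      intro S T hST
      exact hA (Finset.insert_subset_insert a hST)
    have hB1 : Monotone (fun S : Finset α => B (insert a S)) := by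
      intro S T hST
      exact hB (Finset.insert_subset_insert a hST)
    have i1 := ih hA hB
    have i2 := ih hA1 hB
    have i3 := ih hA hB1
    have i4 := ih hA1 hB1
    rw [Pr_insert p ha, Pr_insert p ha, Pr_insert p ha]
    have hq : 0 ≤ 1 - p := by linarith
    have key : (1 - p) * Pr p F (DisjOcc A B) + p * Pr p F (fun S => DisjOcc A B (insert a S)) ≤
        (1 - p) * (1 - p) * Pr p F (DisjOcc A B) +
        p * (1 - p) * Pr p F (DisjOcc (fun S => A (insert a S)) B) +
        p * (1 - p) * Pr p F (DisjOcc A (fun S => B (insert a S))) +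
        p * p * Pr p F (DisjOcc (fun S => A (insert a S)) (fun S => B (insert a S))) := by
      unfold Pr
      simp only [← Ex_mul_left, ← Ex_add]
      apply Ex_mono h0 h1
      intro S hS
      have haS : a ∉ S := fun h => ha (hS h)
      have r1 : DisjOcc A B S → DisjOcc (fun S => A (insert a S)) B S := fun h =>
        DisjOcc.imp (fun T _ => hA (Finset.subset_insert a T)) (fun T _ hT => hT) h
      have r2 : DisjOcc A B S → DisjOcc A (fun S => B (insert a S)) S := fun h =>
        DisjOcc.imp (fun T _ hT => hT) (fun T _ => hB (Finset.subset_insert a T)) h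
      have r3 : DisjOcc (fun S => A (insert a S)) B S →
          DisjOcc (fun S => A (insert a S)) (fun S => B (insert a S)) S := fun h =>
        DisjOcc.imp (fun T _ hT => hT) (fun T _ => hB (Finset.subset_insert a T)) h
      have r4 : DisjOcc A (fun S => B (insert a S)) S →
          DisjOcc (fun S => A (insert a S)) (fun S => B (insert a S)) S := fun h =>
        DisjOcc.imp (fun T _ => hA (Finset.subset_insert a T)) (fun T _ hT => hT) h
      have r5 : DisjOcc A B (insert a S) → DisjOcc (fun S => A (insert a S)) B S ∨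
          DisjOcc A (fun S => B (insert a S)) S := by
        rintro ⟨S₁, S₂, h1, h2, h3, h4, h5⟩
        by_cases ha2 : a ∈ S₂
        · right
          have ha1 : a ∉ S₁ := Finset.disjoint_right.1 h3 ha2
          refine ⟨S₁, S₂.erase a, ?_, ?_, ?_, h4, ?_⟩
          · exact (Finset.subset_insert_iff_of_notMem ha1).1 h1
          · exact Finset.subset_insert_iff.1 h2
          · exact Finset.disjoint_of_subset_right (Finset.erase_subset _ _) h3
          · simpa [Finset.insert_erase ha2] using h5
        · left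
          refine ⟨S₁.erase a, S₂, ?_, ?_, ?_, ?_, h5⟩
          · exact Finset.subset_insert_iff.1 h1
          · exact (Finset.subset_insert_iff_of_notMem ha2).1 h2
          · exact Finset.disjoint_of_subset_left (Finset.erase_subset _ _) h3
          · exact hA (Finset.insert_erase_subset a S₁ |> fun _ => by
              intro x hx
              by_cases hxa : x = a
              · simp [hxa]
              · simp [hxa, hx]) h4
      by_cases c1 : DisjOcc A B S
      · have c2 := r1 c1
        have c3 := r2 c1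
        have c4 := r3 c2
        rw [ind_true c1, ind_true c2, ind_true c3, ind_true c4]
        have := ind_le_one (DisjOcc A B (insert a S))
        nlinarith [mul_le_mul_of_nonneg_left this h0]
      · rw [ind_false c1]
        by_cases c5 : DisjOcc A B (insert a S)
        · rw [ind_true c5]
          rcases r5 c5 with c2 | c3
          · have c4 := r3 c2
            rw [ind_true c2, ind_true c4]
            have := ind_nonneg (DisjOcc A (fun S => B (insert a S)) S)
            nlinarith [mul_nonneg (mul_nonneg h0 hq) this]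
          · have c4 := r4 c3
            rw [ind_true c3, ind_true c4]
            have := ind_nonneg (DisjOcc (fun S => A (insert a S)) B S)
            nlinarith [mul_nonneg (mul_nonneg h0 hq) this]
        · rw [ind_false c5]
          have t1 := ind_nonneg (DisjOcc (fun S => A (insert a S)) B S)
          have t2 := ind_nonneg (DisjOcc A (fun S => B (insert a S)) S)
          have t3 := ind_nonneg (DisjOcc (fun S => A (insert a S)) (fun S => B (insert a S)) S)
          have := mul_nonneg (mul_nonneg h0 hq) t1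
          have := mul_nonneg (mul_nonneg h0 hq) t2
          have := mul_nonneg (mul_nonneg h0 h0) t3
          linarith
    refine key.trans ?_
    have j1 := mul_le_mul_of_nonneg_left i1 (mul_nonneg hq hq)
    have j2 := mul_le_mul_of_nonneg_left i2 (mul_nonneg h0 hq)
    have j3 := mul_le_mul_of_nonneg_left i3 (mul_nonneg h0 hq)
    have j4 := mul_le_mul_of_nonneg_left i4 (mul_nonneg h0 h0)
    nlinarith [j1, j2, j3, j4]

end Vale.Agent.P165
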