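import Vale.Agent.P165.Walks

namespace Vale.Agent.P165

open Finset SimpleGraph

variable {V : Type*} [DecidableEq V]

def nbF (nb : V → Finset V) (F : Finset (Sym2 V)) (x : V) : Finset V :=
  (nb x).filter (fun y => s(x, y) ∈ F)

omit [DecidableEq V] in
theorem wk_mono {nb nb' : V → Finset V} (h : ∀ x, nb x ⊆ nb' x) (n : ℕ) (x y : V) :
    wk nb n x y ≤ wk nb' n x y := by
  induction n generalizing x with
  | zero => exact le_refl _
  | succ n ih =>
    calc wk nb (n + 1) x y = ∑ z ∈ nb x, wk nb n z y := rfl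
      _ ≤ ∑ z ∈ nb x, wk nb' n z y := Finset.sum_le_sum (fun z _ => ih z)
      _ ≤ ∑ z ∈ nb' x, wk nb' n z y :=
        Finset.sum_le_sum_of_subset_of_nonneg (h x) (fun z _ _ => wk_nonneg nb' n z y)

theorem sq_sum_le (n : ℕ) (b β : ℕ → ℝ) (hb : ∀ k, 0 ≤ b k)
    (hβ : ∀ k, ∑ l ∈ (Finset.range n).filter (fun l => k ≤ l), b l ≤ β k) :
    (∑ k ∈ Finset.range n, b k) ^ 2 ≤ 2 * ∑ k ∈ Finset.range n, b k * β k := by
  have e1 : (∑ k ∈ Finset.range n, b k) ^ 2 =
      ∑ k ∈ Finset.range n, ∑ l ∈ Finset.range n, b k * b l := by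
    rw [sq, Finset.sum_mul_sum]
  have e2 : ∑ k ∈ Finset.range n, ∑ l ∈ Finset.range n, b k * b l ≤
      ∑ k ∈ Finset.range n, ∑ l ∈ Finset.range n,
        ((if k ≤ l then b k * b l else 0) + (if l ≤ k then b k * b l else 0)) := by
    apply Finset.sum_le_sum; intro k _
    apply Finset.sum_le_sum; intro l _
    have : 0 ≤ b k * b l := mul_nonneg (hb k) (hb l)
    rcases le_total k l with h | h
    · rw [if_pos h]
      split_ifs <;> linarith
    · rw [if_pos h]
      split_ifs <;> linarith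
  have e3 : ∑ k ∈ Finset.range n, ∑ l ∈ Finset.range n, (if k ≤ l then b k * b l else 0) =
      ∑ k ∈ Finset.range n, b k * ∑ l ∈ (Finset.range n).filter (fun l => k ≤ l), b l := by
    apply Finset.sum_congr rfl; intro k _
    rw [Finset.mul_sum, Finset.sum_filter]
  have e4 : ∑ k ∈ Finset.range n, ∑ l ∈ Finset.range n, (if l ≤ k then b k * b l else 0) =
      ∑ k ∈ Finset.range n, b k * ∑ l ∈ (Finset.range n).filter (fun l => k ≤ l), b l := by
    rw [← e3, Finset.sum_comm]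
    apply Finset.sum_congr rfl; intro k _
    apply Finset.sum_congr rfl; intro l _
    rw [mul_comm (b l) (b k)]
  have e5 : ∑ k ∈ Finset.range n, b k * ∑ l ∈ (Finset.range n).filter (fun l => k ≤ l), b l ≤
      ∑ k ∈ Finset.range n, b k * β k :=
    Finset.sum_le_sum (fun k _ => mul_le_mul_of_nonneg_left (hβ k) (hb k))
  rw [e1]
  refine e2.trans ?_
  simp only [Finset.sum_add_distrib]
  rw [e3, e4]
  linarith

section
variable {p : ℝ} (h0 : 0 ≤ p) (h1 : p ≤ 1) {nb : V → Finset V} {F : Finset (Sym2 V)}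
  (hF : ∀ x y, s(x, y) ∈ F → y ∈ nb x) {W : Finset V} (hW : verts F ⊆ W)

theorem nbF_subset (x : V) : nbF nb F x ⊆ nb x := Finset.filter_subset _ _

omit [DecidableEq V] in
theorem mem_nbF [DecidableEq V] {x y : V} : y ∈ nbF nb F x ↔ y ∈ nb x ∧ s(x, y) ∈ F := by
  simp [nbF]

include hW in
theorem nbF_mem_W {x y : V} (h : y ∈ nbF nb F x) : y ∈ W :=
  hW (mem_verts.2 ⟨s(x, y), (mem_nbF.1 h).2, by simp⟩)

include h0 hW in
theorem iter_bound {κ : ℝ} (hκ0 : 0 ≤ κ) {X : V → ℝ}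
    (hκ : ∀ x ∈ W, p * ∑ y ∈ nbF nb F x, X y ≤ (1 + κ) * X x) (n : ℕ) (x : V) (hx : x ∈ W) :
    p ^ n * ∑ u ∈ W, wk (nbF nb F) n x u * X u ≤ (1 + κ) ^ n * X x := by
  induction n generalizing x with
  | zero =>
    rw [Finset.sum_eq_single x]
    · have : wk (nbF nb F) 0 x x = 1 := ind_true rfl
      rw [this]; simp
    · intro u _ hu
      have : wk (nbF nb F) 0 x u = 0 := ind_false (fun h => hu h.symm)
      rw [this]; simp
    · intro h; exact absurd hx h
  | succ n ih =>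
    have e1 : p ^ (n + 1) * ∑ u ∈ W, wk (nbF nb F) (n + 1) x u * X u =
        p * ∑ z ∈ nbF nb F x, p ^ n * ∑ u ∈ W, wk (nbF nb F) n z u * X u := by
      have : ∑ u ∈ W, wk (nbF nb F) (n + 1) x u * X u =
          ∑ z ∈ nbF nb F x, ∑ u ∈ W, wk (nbF nb F) n z u * X u := by
        rw [Finset.sum_comm]
        apply Finset.sum_congr rfl
        intro u _
        have : wk (nbF nb F) (n + 1) x u = ∑ z ∈ nbF nb F x, wk (nbF nb F) n z u := rfl
        rw [this, Finset.sum_mul]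
      rw [this, ← Finset.mul_sum, pow_succ]
      ring
    rw [e1]
    calc p * ∑ z ∈ nbF nb F x, p ^ n * ∑ u ∈ W, wk (nbF nb F) n z u * X u
        ≤ p * ∑ z ∈ nbF nb F x, (1 + κ) ^ n * X z :=
          mul_le_mul_of_nonneg_left
            (Finset.sum_le_sum (fun z hz => ih z (nbF_mem_W hW hz))) h0
      _ = (1 + κ) ^ n * (p * ∑ z ∈ nbF nb F x, X z) := by
          rw [← Finset.mul_sum]; ring
      _ ≤ (1 + κ) ^ n * ((1 + κ) * X x) :=
          mul_le_mul_of_nonneg_left (hκ x hx) (by positivity)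
      _ = (1 + κ) ^ (n + 1) * X x := by rw [pow_succ]; ring

/-- the error constant -/
noncomputable def kap (p Δ z κ : ℝ) : ℝ :=
  p ^ 2 * Δ / (1 - z) + ((1 + κ) * (p + p ^ 2 * Δ / (1 - z)) +
    p ^ 2 * Δ / (1 - z) * ((1 + κ) ^ 2 / (1 - z * (1 + κ))))

include h0 h1 hF hW in
theorem boot_step (hirr : ∀ x, x ∉ nb x) {Δ σ κ : ℝ} (hΔ : 0 ≤ Δ) (hσ : 0 ≤ σ)
    (hwk : ∀ n x y, wk nb (n + 2) x y ≤ Δ * σ ^ n) (hκ0 : 0 ≤ κ)
    (hz1 : p * σ * (1 + κ) < 1)
    (hκ : ∀ x ∈ W, p * ∑ y ∈ nbF nb F x, chiW p F W y ≤ (1 + κ) * chiW p F W x)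
    (x : V) (hx : x ∈ W) :
    p * ∑ y ∈ nbF nb F x, chiW p F W y ≤ (1 + kap p Δ (p * σ) κ) * chiW p F W x - 1 := by
  set z := p * σ with hzdef
  have hz0 : 0 ≤ z := mul_nonneg h0 hσ
  have hzlt : z < 1 := by nlinarith
  have hzpos : 0 < 1 - z := by linarith
  have hzκ : 0 < 1 - z * (1 + κ) := by linarith
  set X := fun u => chiW p F W u with hX
  have hXnn : ∀ u, 0 ≤ X u := fun u => Finset.sum_nonneg (fun v _ => tau_nonneg h0 h1 F u v)
  set n := F.card + 1 with hn
  -- walks in F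
  set a := fun k u v => wk (nbF nb F) k u v with ha
  have hann : ∀ k u v, 0 ≤ a k u v := fun k u v => wk_nonneg _ k u v
  have hsub : ∀ u, nbF nb F u ⊆ nb u := fun u => nbF_subset u
  have ha2 : ∀ k u v, a (k + 2) u v ≤ Δ * σ ^ k := fun k u v =>
    (wk_mono hsub (k + 2) u v).trans (hwk k u v)
  have ha1 : ∀ u v, a 1 u v ≤ 1 := fun u v => wk_one_le _ u v
  have ha1' : ∀ u, a 1 u u = 0 := by
    intro u
    have : a 1 u u = ∑ y ∈ nbF nb F u, wk (nbF nb F) 0 y u := rfl
    rw [this]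
    apply Finset.sum_eq_zero
    intro y hy
    apply ind_false
    rintro rfl
    exact hirr y (hsub y hy)
  -- Green function bound of tau
  have htau : ∀ y u, tau p F y u ≤ ∑ k ∈ Finset.range n, a k y u * p ^ k := by
    intro y u
    apply tau_le_walks h0 h1 (nbF nb F) F.card F (le_refl _)
    intro s t hst
    exact mem_nbF.2 ⟨hF s t hst, hst⟩
  set N := nbF nb F x with hN
  set b : V → ℕ → ℝ := fun u k => a (k + 1) x u * p ^ (k + 1) with hb
  have hbnn : ∀ u k, 0 ≤ b u k := fun u k => mul_nonneg (hann _ _ _) (pow_nonneg h0 _)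
  have hG : ∀ u, p * ∑ y ∈ N, tau p F y u ≤ ∑ k ∈ Finset.range n, b u k := by
    intro u
    calc p * ∑ y ∈ N, tau p F y u ≤ p * ∑ y ∈ N, ∑ k ∈ Finset.range n, a k y u * p ^ k :=
          mul_le_mul_of_nonneg_left (Finset.sum_le_sum (fun y _ => htau y u)) h0
      _ = ∑ k ∈ Finset.range n, b u k := by
          rw [Finset.sum_comm, Finset.mul_sum]
          apply Finset.sum_congr rfl
          intro k _
          have : b u k = (∑ y ∈ N, a k y u) * p ^ (k + 1) := rfl
          rw [this, ← Finset.sum_mul, pow_succ]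
          ring
  have hGnn : ∀ u, 0 ≤ p * ∑ y ∈ N, tau p F y u := fun u =>
    mul_nonneg h0 (Finset.sum_nonneg (fun y _ => tau_nonneg h0 h1 F y u))
  -- bounds for b
  have hb1 : ∀ u k, b u (k + 1) ≤ p ^ 2 * Δ * z ^ k := by
    intro u k
    have h2 : b u (k + 1) = a (k + 2) x u * p ^ (k + 2) := rfl
    rw [h2]
    calc a (k + 2) x u * p ^ (k + 2) ≤ (Δ * σ ^ k) * p ^ (k + 2) :=
          mul_le_mul_of_nonneg_right (ha2 k x u) (pow_nonneg h0 _)
      _ = p ^ 2 * Δ * z ^ k := by rw [hzdef, mul_pow, pow_add]; ring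
  have hb0 : ∀ u, b u 0 ≤ p := by
    intro u
    have : b u 0 = a 1 x u * p ^ 1 := rfl
    rw [this, pow_one]
    calc a 1 x u * p ≤ 1 * p := mul_le_mul_of_nonneg_right (ha1 x u) h0
      _ = p := one_mul p
  have hpΔ : 0 ≤ p ^ 2 * Δ := by positivity
  -- term 1
  have T1 : p * ∑ y ∈ N, tau p F y x ≤ p ^ 2 * Δ / (1 - z) := by
    refine (hG x).trans ?_
    rw [hn, Finset.sum_range_succ']
    have : b x 0 = 0 := by
      have : b x 0 = a 1 x x * p ^ 1 := rfl
      rw [this, ha1', zero_mul]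
    rw [this, add_zero]
    calc ∑ k ∈ Finset.range F.card, b x (k + 1) ≤ ∑ k ∈ Finset.range F.card, p ^ 2 * Δ * z ^ k :=
          Finset.sum_le_sum (fun k _ => hb1 x k)
      _ = p ^ 2 * Δ * ∑ k ∈ Finset.range F.card, z ^ k := by rw [Finset.mul_sum]
      _ ≤ p ^ 2 * Δ * (1 / (1 - z)) := mul_le_mul_of_nonneg_left (geom_le hz0 hzlt _) hpΔ
      _ = _ := by ring
  -- tail bounds
  set β : ℕ → ℝ := fun k => if k = 0 then p + p ^ 2 * Δ / (1 - z)
    else p ^ 2 * Δ / (1 - z) * z ^ (k - 1) with hβ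
  have hc : 0 ≤ p ^ 2 * Δ / (1 - z) := by positivity
  have htail : ∀ u k, ∑ l ∈ (Finset.range n).filter (fun l => k + 1 ≤ l), b u l ≤
      p ^ 2 * Δ / (1 - z) * z ^ k := by
    intro u k
    have hsub2 : (Finset.range n).filter (fun l => k + 1 ≤ l) ⊆
        (Finset.range n).image (fun m => m + (k + 1)) := by
      intro l hl
      rw [Finset.mem_filter, Finset.mem_range] at hl
      rw [Finset.mem_image]
      exact ⟨l - (k + 1), Finset.mem_range.2 (by omega), by omega⟩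
    calc ∑ l ∈ (Finset.range n).filter (fun l => k + 1 ≤ l), b u l
        ≤ ∑ l ∈ (Finset.range n).image (fun m => m + (k + 1)), b u l :=
          Finset.sum_le_sum_of_subset_of_nonneg hsub2 (fun l _ _ => hbnn u l)
      _ = ∑ m ∈ Finset.range n, b u (m + (k + 1)) := by
          rw [Finset.sum_image]
          intro s _ t _ hst
          simpa using hst
      _ ≤ ∑ m ∈ Finset.range n, p ^ 2 * Δ * z ^ k * z ^ m := by
          apply Finset.sum_le_sum
          intro m _
          have : m + (k + 1) = (m + k) + 1 := by ring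
          rw [this]
          refine (hb1 u (m + k)).trans (le_of_eq ?_)
          rw [pow_add]; ring
      _ = p ^ 2 * Δ * z ^ k * ∑ m ∈ Finset.range n, z ^ m := by rw [Finset.mul_sum]
      _ ≤ p ^ 2 * Δ * z ^ k * (1 / (1 - z)) :=
          mul_le_mul_of_nonneg_left (geom_le hz0 hzlt _) (by positivity)
      _ = _ := by ring
  have hβle : ∀ u k, ∑ l ∈ (Finset.range n).filter (fun l => k ≤ l), b u l ≤ β k := by
    intro u k
    rcases k with _ | k
    · have e : β 0 = p + p ^ 2 * Δ / (1 - z) := by simp [hβ]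
      rw [e]
      have : (Finset.range n).filter (fun l => 0 ≤ l) = Finset.range n := by
        apply Finset.filter_true_of_mem; intro _ _; exact Nat.zero_le _
      rw [this, hn, Finset.sum_range_succ']
      have : ∑ k ∈ Finset.range F.card, b u (k + 1) ≤ p ^ 2 * Δ / (1 - z) := by
        calc ∑ k ∈ Finset.range F.card, b u (k + 1)
            ≤ ∑ k ∈ Finset.range F.card, p ^ 2 * Δ * z ^ k :=
              Finset.sum_le_sum (fun k _ => hb1 u k)
          _ = p ^ 2 * Δ * ∑ k ∈ Finset.range F.card, z ^ k := by rw [Finset.mul_sum]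
          _ ≤ p ^ 2 * Δ * (1 / (1 - z)) := mul_le_mul_of_nonneg_left (geom_le hz0 hzlt _) hpΔ
          _ = _ := by ring
      have := hb0 u
      linarith
    · have e : β (k + 1) = p ^ 2 * Δ / (1 - z) * z ^ k := by simp [hβ]
      rw [e]
      exact htail u k
  have hβnn : ∀ k, 0 ≤ β k := by
    intro k
    simp only [hβ]
    split_ifs <;> positivity
  -- term 2
  have T2 : (p ^ 2 / 2) * (∑ y ∈ N, ∑ y' ∈ N, ∑ u ∈ W, tau p F y u * tau p F u y' * X u) ≤
      ((1 + κ) * (p + p ^ 2 * Δ / (1 - z)) +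
        p ^ 2 * Δ / (1 - z) * ((1 + κ) ^ 2 / (1 - z * (1 + κ)))) * X x := by
    have e1 : (p ^ 2 / 2) * (∑ y ∈ N, ∑ y' ∈ N, ∑ u ∈ W, tau p F y u * tau p F u y' * X u) =
        (1 / 2) * ∑ u ∈ W, (p * ∑ y ∈ N, tau p F y u) ^ 2 * X u := by
      have : ∑ y ∈ N, ∑ y' ∈ N, ∑ u ∈ W, tau p F y u * tau p F u y' * X u =
          ∑ u ∈ W, (∑ y ∈ N, tau p F y u) ^ 2 * X u := by
        have s1 : ∀ y ∈ N, ∑ y' ∈ N, ∑ u ∈ W, tau p F y u * tau p F u y' * X u =
            ∑ u ∈ W, ∑ y' ∈ N, tau p F y u * tau p F u y' * X u := by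
          intro y _; exact Finset.sum_comm
        rw [Finset.sum_congr rfl s1, Finset.sum_comm]
        apply Finset.sum_congr rfl
        intro u _
        rw [sq, Finset.sum_mul_sum, Finset.sum_mul]
        apply Finset.sum_congr rfl
        intro y _
        rw [Finset.sum_mul]
        apply Finset.sum_congr rfl
        intro y' _
        rw [tau_comm p F u y']
      rw [this, Finset.mul_sum, Finset.mul_sum]
      apply Finset.sum_congr rfl
      intro u _; ring
    rw [e1]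
    have e2 : ∀ u ∈ W, (p * ∑ y ∈ N, tau p F y u) ^ 2 * X u ≤
        2 * ∑ k ∈ Finset.range n, β k * (b u k * X u) := by
      intro u _
      have h3 : (p * ∑ y ∈ N, tau p F y u) ^ 2 ≤ (∑ k ∈ Finset.range n, b u k) ^ 2 :=
        pow_le_pow_left₀ (hGnn u) (hG u) 2
      have h4 := sq_sum_le n (b u) β (hbnn u) (hβle u)
      calc (p * ∑ y ∈ N, tau p F y u) ^ 2 * X u
          ≤ (2 * ∑ k ∈ Finset.range n, b u k * β k) * X u :=
            mul_le_mul_of_nonneg_right (h3.trans h4) (hXnn u)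
        _ = _ := by
            rw [mul_assoc, Finset.sum_mul]
            congr 1
            apply Finset.sum_congr rfl
            intro k _; ring
    have e3 : ∑ u ∈ W, (p * ∑ y ∈ N, tau p F y u) ^ 2 * X u ≤
        2 * ∑ k ∈ Finset.range n, β k * ∑ u ∈ W, b u k * X u := by
      refine (Finset.sum_le_sum e2).trans (le_of_eq ?_)
      rw [← Finset.mul_sum, Finset.sum_comm]
      congr 1
      apply Finset.sum_congr rfl
      intro k _
      rw [Finset.mul_sum]
    have e4 : ∀ k, ∑ u ∈ W, b u k * X u ≤ (1 + κ) ^ (k + 1) * X x := by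
      intro k
      have := iter_bound h0 hW hκ0 hκ (k + 1) x hx
      refine le_trans (le_of_eq ?_) this
      rw [Finset.mul_sum]
      apply Finset.sum_congr rfl
      intro u _
      simp only [hb, ha]; ring
    have e5 : ∑ k ∈ Finset.range n, β k * ∑ u ∈ W, b u k * X u ≤
        ∑ k ∈ Finset.range n, β k * (1 + κ) ^ (k + 1) * X x := by
      apply Finset.sum_le_sum
      intro k _
      rw [mul_assoc]
      exact mul_le_mul_of_nonneg_left (e4 k) (hβnn k)
    have e6 : ∑ k ∈ Finset.range n, β k * (1 + κ) ^ (k + 1) ≤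
        (1 + κ) * (p + p ^ 2 * Δ / (1 - z)) +
        p ^ 2 * Δ / (1 - z) * ((1 + κ) ^ 2 / (1 - z * (1 + κ))) := by
      rw [hn, Finset.sum_range_succ']
      have g0 : β 0 * (1 + κ) ^ (0 + 1) = (1 + κ) * (p + p ^ 2 * Δ / (1 - z)) := by
        simp [hβ]; ring
      rw [g0]
      have hzκ0 : 0 ≤ z * (1 + κ) := by positivity
      have g1 : ∑ k ∈ Finset.range F.card, β (k + 1) * (1 + κ) ^ (k + 1 + 1) ≤
          p ^ 2 * Δ / (1 - z) * ((1 + κ) ^ 2 / (1 - z * (1 + κ))) := by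
        calc ∑ k ∈ Finset.range F.card, β (k + 1) * (1 + κ) ^ (k + 1 + 1)
            = ∑ k ∈ Finset.range F.card,
              (p ^ 2 * Δ / (1 - z) * (1 + κ) ^ 2) * (z * (1 + κ)) ^ k := by
              apply Finset.sum_congr rfl
              intro k _
              simp only [hβ, Nat.add_eq_zero_iff, one_ne_zero, and_false, if_false,
                Nat.add_sub_cancel]
              have hmp : (z * (1 + κ)) ^ k = z ^ k * (1 + κ) ^ k := mul_pow _ _ _
              rw [hmp, pow_succ, pow_succ]; ring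
          _ = (p ^ 2 * Δ / (1 - z) * (1 + κ) ^ 2) * ∑ k ∈ Finset.range F.card,
              (z * (1 + κ)) ^ k := by rw [Finset.mul_sum]
          _ ≤ (p ^ 2 * Δ / (1 - z) * (1 + κ) ^ 2) * (1 / (1 - z * (1 + κ))) :=
              mul_le_mul_of_nonneg_left (geom_le hzκ0 hz1 _) (by positivity)
          _ = _ := by ring
      linarith
    calc (1 / 2) * ∑ u ∈ W, (p * ∑ y ∈ N, tau p F y u) ^ 2 * X u
        ≤ (1 / 2) * (2 * ∑ k ∈ Finset.range n, β k * ∑ u ∈ W, b u k * X u) := by linarith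
      _ = ∑ k ∈ Finset.range n, β k * ∑ u ∈ W, b u k * X u := by ring
      _ ≤ ∑ k ∈ Finset.range n, β k * (1 + κ) ^ (k + 1) * X x := e5
      _ = (∑ k ∈ Finset.range n, β k * (1 + κ) ^ (k + 1)) * X x := by rw [Finset.sum_mul]
      _ ≤ _ := mul_le_mul_of_nonneg_right e6 (hXnn x)
  have main := chi_ineq h0 h1 (F := F) (o := x) (N := N) (W := W) (U := W)
    (fun y hy => (mem_nbF.1 hy).2) (fun h => hirr x (hsub x h)) hx hW
  have T1' := mul_le_mul_of_nonneg_right T1 (hXnn x)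
  have hXx : X x = chiW p F W x := rfl
  have main' : 1 + p * ∑ y ∈ N, X y - p * (∑ y ∈ N, tau p F y x) * X x -
      (p ^ 2 / 2) * (∑ y ∈ N, ∑ y' ∈ N, ∑ u ∈ W, tau p F y u * tau p F u y' * X u)
      ≤ X x := main
  have hk : (1 + kap p Δ z κ) * X x - 1 = X x + p ^ 2 * Δ / (1 - z) * X x +
      ((1 + κ) * (p + p ^ 2 * Δ / (1 - z)) +
        p ^ 2 * Δ / (1 - z) * ((1 + κ) ^ 2 / (1 - z * (1 + κ)))) * X x - 1 := by
    unfold kap; ring
  have goal' : p * ∑ y ∈ N, X y ≤ (1 + kap p Δ z κ) * X x - 1 := by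
    rw [hk]; linarith
  exact goal'

end

end Vale.Agent.P165
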