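import Mathlib.Combinatorics.SimpleGraph.Basic

namespace Vale.Agent.P165

/-- The `n`-fold Cartesian power of `G`: two `n`-tuples are adjacent when they differ in exactly
one coordinate, and the two entries there are adjacent in `G`. -/
def cartPow {V : Type*} (G : SimpleGraph V) (n : ℕ) : SimpleGraph (Fin n → V) where
  Adj x y := ∃ i, G.Adj (x i) (y i) ∧ ∀ j, j ≠ i → x j = y j
  symm := ⟨fun _ _ h => h.elim fun i hi => ⟨i, hi.1.symm, fun j hj => (hi.2 j hj).symm⟩⟩
  loopless := ⟨fun _ h => h.elim fun _ hi => G.irrefl hi.1⟩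

end Vale.Agent.P165
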