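import Vale.Agent.P165.PowersMain

namespace Vale.Agent.P165

open Finset SimpleGraph

variable {V : Type*}

theorem ncard_boundary [DecidableEq V] {G : SimpleGraph V} {nb : V → Finset V}
    (hnb : ∀ x y, y ∈ nb x ↔ G.Adj x y) (A : Finset V) :
    {w | w ∉ (A : Set V) ∧ ∃ v ∈ (A : Set V), G.Adj v w}.ncard = ((A.biUnion nb) \ A).card := by
  have h : {w | w ∉ (A : Set V) ∧ ∃ v ∈ (A : Set V), G.Adj v w} =
      (((A.biUnion nb) \ A : Finset V) : Set V) := by
    ext w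
    simp only [Set.mem_setOf_eq, Finset.coe_sdiff, Finset.coe_biUnion, Set.mem_diff,
      Set.mem_iUnion, Finset.mem_coe, exists_prop]
    constructor
    · rintro ⟨h1, v, hv, h2⟩
      exact ⟨⟨v, hv, (hnb v w).2 h2⟩, h1⟩
    · rintro ⟨⟨v, hv, h2⟩, h1⟩
      exact ⟨h1, v, hv, (hnb v w).1 h2⟩
  rw [h, Set.ncard_coe_finset]

theorem vert_of_nonamenable [DecidableEq V] {G : SimpleGraph V} {nb : V → Finset V}
    (hnb : ∀ x y, y ∈ nb x ↔ G.Adj x y) (hna : IsNonamenable G) :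
    ∃ h : ℝ, 0 < h ∧ ∀ A : Finset V, h * A.card ≤ (((A.biUnion nb) \ A).card : ℝ) := by
  obtain ⟨h, hh, hA⟩ := hna
  refine ⟨h, hh, fun A => ?_⟩
  have := hA (A : Set V) A.finite_toSet
  rw [ncard_boundary hnb A, Set.ncard_coe_finset] at this
  exact this

theorem qt_of_isQuasiTransitive {G : SimpleGraph V} {nb : V → Finset V}
    (hnb : ∀ x y, y ∈ nb x ↔ G.Adj x y) (hqt : IsQuasiTransitive G) : QT nb := by
  obtain ⟨R, hR, h⟩ := hqt
  refine ⟨hR.toFinset, fun x => ?_⟩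
  obtain ⟨r, hr, φ, hφ⟩ := h x
  refine ⟨r, hR.mem_toFinset.2 hr, φ.toEquiv, fun x y => ?_, hφ⟩
  rw [hnb, hnb]
  exact φ.map_adj_iff

theorem powers_final [Infinite V] {G : SimpleGraph V} (hconn : G.Connected)
    (hlf : ∀ v, (G.neighborSet v).Finite) (hqt : IsQuasiTransitive G) (hna : IsNonamenable G) :
    ∃ k₀ : ℕ, ∀ k ≥ k₀, pc (powerGraph G k) < pu (powerGraph G k) := by
  classical
  have hnb : ∀ x y, y ∈ (fun v => (hlf v).toFinset) x ↔ G.Adj x y := by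
    intro x y
    show y ∈ (hlf x).toFinset ↔ _
    rw [Set.Finite.mem_toFinset]
    exact Iff.rfl
  obtain ⟨h, hh, hvert⟩ := vert_of_nonamenable hnb hna
  exact powers_main hconn hnb (qt_of_isQuasiTransitive hnb hqt) hh hvert

end Vale.Agent.P165
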