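import Vale.Agent.P165.Sandwich
import Vale.Agent.P165.Translate

namespace Vale.Agent.P165

open Finset SimpleGraph

theorem exists_nb {V : Type*} {G : SimpleGraph V} (hlf : ∀ v, (G.neighborSet v).Finite) :
    ∃ nb : V → Finset V, ∀ x y, y ∈ nb x ↔ G.Adj x y := by
  refine ⟨fun v => (hlf v).toFinset, fun x y => ?_⟩
  show y ∈ (hlf x).toFinset ↔ _
  rw [Set.Finite.mem_toFinset]
  exact Iff.rfl

theorem card_nb {V : Type*} {G : SimpleGraph V} {nb : V → Finset V}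
    (hnb : ∀ x y, y ∈ nb x ↔ G.Adj x y) (x : V) : (nb x).card = (G.neighborSet x).ncard := by
  rw [← Set.ncard_coe_finset]
  congr 1
  ext y
  exact (hnb x y).trans Iff.rfl

theorem ncard_edge_boundary {V : Type*} [DecidableEq V] {G : SimpleGraph V} {nb : V → Finset V}
    (hnb : ∀ x y, y ∈ nb x ↔ G.Adj x y) (A : Finset V) :
    ({e : V × V | e.1 ∈ (A : Set V) ∧ e.2 ∉ (A : Set V) ∧ G.Adj e.1 e.2}.ncard : ℝ) =
      ∑ x ∈ A, ((nb x \ A).card : ℝ) := by
  have h : {e : V × V | e.1 ∈ (A : Set V) ∧ e.2 ∉ (A : Set V) ∧ G.Adj e.1 e.2} =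
      ((A.biUnion (fun x => (nb x \ A).image (fun y => (x, y))) : Finset (V × V)) :
        Set (V × V)) := by
    ext ⟨a, b⟩
    simp only [Set.mem_setOf_eq, Finset.mem_coe, Finset.mem_biUnion, Finset.mem_image,
      Finset.mem_sdiff, Prod.mk.injEq]
    constructor
    · rintro ⟨h1, h2, h3⟩
      exact ⟨a, h1, b, ⟨(hnb a b).2 h3, h2⟩, rfl, rfl⟩
    · rintro ⟨a', h1, b', ⟨h3, h2⟩, rfl, rfl⟩
      exact ⟨h1, h2, (hnb _ _).1 h3⟩
  rw [h, Set.ncard_coe_finset, Finset.card_biUnion]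
  · push_cast
    apply Finset.sum_congr rfl
    intro x _
    rw [Finset.card_image_of_injective _ (fun a b hab => (Prod.mk.inj hab).2)]
  · intro x _ y _ hxy
    rw [Function.onFun, Finset.disjoint_left]
    intro e he he'
    obtain ⟨u, _, rfl⟩ := Finset.mem_image.1 he
    obtain ⟨v, _, hv⟩ := Finset.mem_image.1 he'
    exact hxy (Prod.mk.inj hv).1.symm

/-- isoperimetric criterion -/
theorem iso_final {V : Type*} [Infinite V] {G : SimpleGraph V} (hconn : G.Connected)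
    (hlf : ∀ v, (G.neighborSet v).Finite) {Δ κ ε : ℝ} (hκ0 : 0 < κ) (hε0 : 0 < ε)
    (hΔ : ∀ v, ((G.neighborSet v).ncard : ℝ) ≤ Δ)
    (hdens : ∀ x y, κ * Δ ≤ ({z | G.Adj x z ∧ ∃ φ : G ≃g G, φ y = z}.ncard : ℝ))
    (hiso : ∀ A : Set V, A.Finite →
      ε * Δ * (A.ncard : ℝ) ≤ ({e : V × V | e.1 ∈ A ∧ e.2 ∉ A ∧ G.Adj e.1 e.2}.ncard : ℝ))
    (hbig : 4608 ≤ Δ * κ ^ 8 * ε ^ 6) : pc G < pu G := by
  classical
  obtain ⟨nb, hnb⟩ := exists_nb hlf
  obtain ⟨o⟩ := hconn.nonempty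
  have hΔpos : 0 < Δ := by
    by_contra h
    push Not at h
    have : Δ * κ ^ 8 * ε ^ 6 ≤ 0 :=
      mul_nonpos_of_nonpos_of_nonneg (mul_nonpos_of_nonpos_of_nonneg h (by positivity))
        (by positivity)
    linarith
  have hcardle : ∀ x, ((nb x).card : ℝ) ≤ Δ := fun x => by
    rw [card_nb hnb]; exact hΔ x
  -- density in terms of finsets
  have hd : ∀ x y, κ * Δ ≤
      (((nb x).filter (fun z => ∃ ψ : V ≃ V, IsAut nb ψ ∧ ψ y = z)).card : ℝ) := by
    intro x y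
    refine (hdens x y).trans (Nat.cast_le.2 ?_)
    rw [← Set.ncard_coe_finset]
    apply Set.ncard_le_ncard _ (Finset.finite_toSet _)
    rintro z ⟨hz, φ, hφ⟩
    rw [Finset.mem_coe, Finset.mem_filter]
    refine ⟨(hnb x z).2 hz, φ.toEquiv, ?_, hφ⟩
    intro a b
    rw [hnb, hnb]
    exact φ.map_adj_iff
  have hmin : ∀ x, κ * Δ ≤ ((nb x).card : ℝ) := by
    intro x
    exact (hd x x).trans (Nat.cast_le.2 (Finset.card_le_card (Finset.filter_subset _ _)))
  have hκ1 : κ ≤ 1 := by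
    have := (hmin o).trans (hcardle o)
    nlinarith
  have hQT : QT nb := by
    refine ⟨nb o, fun x => ?_⟩
    have h1 : (0 : ℝ) < (((nb o).filter (fun z => ∃ ψ : V ≃ V, IsAut nb ψ ∧ ψ x = z)).card : ℝ) :=
      lt_of_lt_of_le (by positivity) (hd o x)
    obtain ⟨z, hz⟩ := Finset.card_pos.1 (Nat.cast_pos.1 h1)
    rw [Finset.mem_filter] at hz
    obtain ⟨hz, ψ, hψ, hψx⟩ := hz
    refine ⟨z, hz, ψ.symm, ?_, by rw [← hψx]; simp⟩
    intro a b
    have := hψ (ψ.symm a) (ψ.symm b)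
    simpa using this.symm
  have hisoF : ∀ A : Finset V, ε * Δ * A.card ≤ ∑ x ∈ A, ((nb x \ A).card : ℝ) := by
    intro A
    have := hiso (A : Set V) A.finite_toSet
    rw [ncard_edge_boundary hnb, Set.ncard_coe_finset] at this
    exact this
  have hε1 : ε ≤ 1 := by
    have h1 := hisoF {o}
    rw [Finset.card_singleton, Finset.sum_singleton] at h1
    have h2 : ((nb o \ {o}).card : ℝ) ≤ Δ :=
      (Nat.cast_le.2 (Finset.card_le_card Finset.sdiff_subset)).trans (hcardle o)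
    push_cast at h1
    nlinarith
  exact iso_general hconn hnb (exh_bl hconn hnb o) hQT hκ0 hκ1 hε0 hε1 hcardle hmin hisoF
    (ratio_dens hκ0 hΔpos (fun ψ => IsAut nb ψ) (fun ψ h => h) hd) hbig

end Vale.Agent.P165
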