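import Mathlib.Combinatorics.SimpleGraph.Walk.Counting
import Mathlib.Analysis.SpecialFunctions.Pow.Real
import Mathlib.Order.LiminfLimsup

namespace Vale.Agent.P165

variable {V : Type*}

/-- Number of walks of length `n` from `x` to `y` in `G`. -/
noncomputable def walkCount (G : SimpleGraph V) (n : ℕ) (x y : V) : ℕ :=
  {w : G.Walk x y | w.length = n}.ncard

/-- Spectral radius of simple random walk on a `D`-regular graph: `limsup_n p_n(x,x)^(1/n)`,
where `p_n(x,x)` is the number of closed walks of length `n` at `x` divided by `D^n`. -/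
noncomputable def rwRadius (G : SimpleGraph V) (D : ℕ) (x : V) : ℝ :=
  Filter.limsup (fun n : ℕ => ((walkCount G n x x : ℝ) / (D : ℝ) ^ n) ^ ((1 : ℝ) / n))
    Filter.atTop

end Vale.Agent.P165
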