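import Vale.Agent.P165.Rayleigh
import Vale.Agent.P165.SpecDefs
import Vale.Agent.P165.Translate

namespace Vale.Agent.P165

open Finset SimpleGraph

theorem wk_eq_walkCount {V : Type*} [DecidableEq V] {G : SimpleGraph V}
    (hlf : ∀ v, (G.neighborSet v).Finite) {nb : V → Finset V}
    (hnb : ∀ x y, y ∈ nb x ↔ G.Adj x y) (n : ℕ) (x y : V) :
    wk nb n x y = (walkCount G n x y : ℝ) := by
  classical
  letI : LocallyFinite G := fun v => (hlf v).fintype
  have hcount : ∀ n x y, walkCount G n x y = (G.finsetWalkLength n x y).card := by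
    intro n x y
    unfold walkCount
    rw [← coe_finsetWalkLength_eq, Set.ncard_coe_finset]
  have hcard : ∀ n x y, wk nb n x y = ((G.finsetWalkLength n x y).card : ℝ) := by
    intro n
    induction n with
    | zero =>
      intro x y
      by_cases h : x = y
      · subst h
        simp [wk, ind, finsetWalkLength]
      · simp [wk, ind, finsetWalkLength, h]
    | succ n ih =>
      intro x y
      have e : wk nb (n + 1) x y = ∑ z ∈ nb x, wk nb n z y := rfl
      rw [e]
      simp only [finsetWalkLength]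
      rw [Finset.card_biUnion]
      · simp only [Finset.card_map]
        push_cast
        have h1 : ∑ z ∈ nb x, ((G.finsetWalkLength n z y).card : ℝ) =
            ∑ z : G.neighborSet x, ((G.finsetWalkLength n z y).card : ℝ) :=
          Finset.sum_subtype (nb x) (fun z => (hnb x z).trans Iff.rfl)
            (fun z => ((G.finsetWalkLength n z y).card : ℝ))
        rw [Finset.sum_congr rfl (fun z _ => ih z y), h1]
      · rintro ⟨x', hx⟩ - ⟨y', hy⟩ - hxy
        rw [Function.onFun, disjoint_iff_inf_le]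
        intro p hp
        simp only [inf_eq_inter, mem_inter, mem_map] at hp
        obtain ⟨⟨px, _, rfl⟩, ⟨py, hpy, hp⟩⟩ := hp
        cases hp
        simp at hxy
  rw [hcount, hcard]

theorem wk_le_pow {V : Type*} {nb : V → Finset V} {D : ℝ} (hD0 : 0 ≤ D)
    (hD : ∀ x, ((nb x).card : ℝ) ≤ D) (n : ℕ) (x y : V) : wk nb n x y ≤ D ^ n := by
  induction n generalizing x with
  | zero => exact ind_le_one _
  | succ n ih =>
    have e : wk nb (n + 1) x y = ∑ z ∈ nb x, wk nb n z y := rfl
    rw [e]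
    calc ∑ z ∈ nb x, wk nb n z y ≤ ∑ _z ∈ nb x, D ^ n := Finset.sum_le_sum (fun z _ => ih z)
      _ = ((nb x).card : ℝ) * D ^ n := by rw [Finset.sum_const, nsmul_eq_mul]
      _ ≤ D * D ^ n := mul_le_mul_of_nonneg_right (hD x) (pow_nonneg hD0 n)
      _ = D ^ (n + 1) := by rw [pow_succ]; ring

theorem rwRadius_nonneg {V : Type*} [DecidableEq V] {G : SimpleGraph V}
    (hlf : ∀ v, (G.neighborSet v).Finite) {nb : V → Finset V}
    (hnb : ∀ x y, y ∈ nb x ↔ G.Adj x y) {D : ℕ} (hDpos : 0 < D)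
    (hD : ∀ x, ((nb x).card : ℝ) ≤ D) (o : V) :
    Filter.IsBoundedUnder (· ≤ ·) Filter.atTop
      (fun n : ℕ => ((walkCount G n o o : ℝ) / (D : ℝ) ^ n) ^ ((1 : ℝ) / n)) ∧
      0 ≤ rwRadius G D o := by
  have hb : Filter.IsBoundedUnder (· ≤ ·) Filter.atTop
      (fun n : ℕ => ((walkCount G n o o : ℝ) / (D : ℝ) ^ n) ^ ((1 : ℝ) / n)) := by
    refine ⟨1, ?_⟩
    rw [Filter.eventually_map]
    filter_upwards with n
    apply Real.rpow_le_one (by positivity)
    · rw [div_le_one (by positivity), ← wk_eq_walkCount hlf hnb]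
      exact wk_le_pow (Nat.cast_nonneg _) hD n o o
    · positivity
  refine ⟨hb, ?_⟩
  apply Filter.le_limsup_of_frequently_le _ hb
  apply Filter.Frequently.of_forall
  intro n
  positivity

/-- eventual bound for closed walks -/
theorem closed_bound {V : Type*} [DecidableEq V] {G : SimpleGraph V}
    (hlf : ∀ v, (G.neighborSet v).Finite) {nb : V → Finset V}
    (hnb : ∀ x y, y ∈ nb x ↔ G.Adj x y) {D : ℕ} (hDpos : 0 < D)
    (hD : ∀ x, ((nb x).card : ℝ) ≤ D) (o : V) {σ : ℝ} (hσ : rwRadius G D o * D < σ) :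
    ∃ N, ∀ n ≥ N, wk nb n o o ≤ σ ^ n := by
  obtain ⟨hb, h0⟩ := rwRadius_nonneg hlf hnb hDpos hD o
  have hDr : (0 : ℝ) < D := by exact_mod_cast hDpos
  have h1 : rwRadius G D o < σ / D := by rw [lt_div_iff₀ hDr]; exact hσ
  have h2 := Filter.eventually_lt_of_limsup_lt h1 hb
  rw [Filter.eventually_atTop] at h2
  obtain ⟨N, hN⟩ := h2
  refine ⟨max N 1, fun n hn => ?_⟩
  have hn1 : 1 ≤ n := (le_max_right _ _).trans hn
  have h3 := hN n ((le_max_left _ _).trans hn)
  have h4 : 0 ≤ (walkCount G n o o : ℝ) / (D : ℝ) ^ n := by positivity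
  have h5 : (walkCount G n o o : ℝ) / (D : ℝ) ^ n =
      (((walkCount G n o o : ℝ) / (D : ℝ) ^ n) ^ ((1 : ℝ) / n)) ^ n := by
    rw [one_div]
    exact (Real.rpow_inv_natCast_pow h4 (by omega)).symm
  have h6 : (walkCount G n o o : ℝ) / (D : ℝ) ^ n ≤ (σ / D) ^ n := by
    rw [h5]
    exact pow_le_pow_left₀ (by positivity) h3.le n
  rw [div_pow, div_le_div_iff_of_pos_right (by positivity)] at h6
  rw [wk_eq_walkCount hlf hnb]
  exact h6

/-- the spectral criterion -/
theorem spectral_final {V : Type*} [Infinite V] {G : SimpleGraph V} (hconn : G.Connected)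
    (hlf : ∀ v, (G.neighborSet v).Finite) (hqt : IsQuasiTransitive G) (D : ℕ)
    (hreg : ∀ v, (G.neighborSet v).ncard = D) (o : V)
    (hbig : 72 ≤ (D : ℝ) * (1 - rwRadius G D o) ^ 3) : pc G < pu G := by
  classical
  obtain ⟨nb, hnb⟩ : ∃ nb : V → Finset V, ∀ x y, y ∈ nb x ↔ G.Adj x y := by
    refine ⟨fun v => (hlf v).toFinset, fun x y => ?_⟩
    show y ∈ (hlf x).toFinset ↔ _
    rw [Set.Finite.mem_toFinset]
    exact Iff.rfl
  have hcard : ∀ x, (nb x).card = D := by
    intro x
    rw [← hreg x, ← Set.ncard_coe_finset]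
    congr 1
    ext y
    exact (hnb x y).trans Iff.rfl
  have hcardR : ∀ x, ((nb x).card : ℝ) = (D : ℝ) := fun x => by rw [hcard]
  have hDpos : 0 < D := by
    rcases Nat.eq_zero_or_pos D with h | h
    · rw [h] at hbig
      norm_num at hbig
    · exact h
  obtain ⟨_, hρ0⟩ := rwRadius_nonneg hlf hnb hDpos (fun x => (hcardR x).le) o
  have hρ1 : rwRadius G D o < 1 := by
    by_contra hcon
    push Not at hcon
    have h1 : (1 - rwRadius G D o) ^ 3 ≤ 0 := by
      have : 0 ≤ (rwRadius G D o - 1) ^ 3 := pow_nonneg (by linarith) 3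
      nlinarith [this]
    have h2 : (D : ℝ) * (1 - rwRadius G D o) ^ 3 ≤ 0 :=
      mul_nonpos_of_nonneg_of_nonpos (Nat.cast_nonneg _) h1
    linarith
  refine regular_criterion hconn hnb (exh_bl hconn hnb o) (qt_of_isQuasiTransitive hnb hqt)
    hcardR hρ0 hρ1 hbig ?_
  intro U f hf
  have hc0 : 0 ≤ ip U f f := Finset.sum_nonneg (fun x _ => mul_self_nonneg _)
  apply le_of_forall_pos_le_add
  intro e he
  have hσ : rwRadius G D o * D < rwRadius G D o * D + e / (ip U f f + 1) := by
    have : 0 < e / (ip U f f + 1) := by positivity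
    linarith
  obtain ⟨N, hN⟩ := closed_bound hlf hnb hDpos (fun x => (hcardR x).le) o hσ
  have hσ0 : 0 < rwRadius G D o * D + e / (ip U f f + 1) := by
    have : 0 ≤ rwRadius G D o * D := mul_nonneg hρ0 (Nat.cast_nonneg _)
    linarith
  have h1 := quad_of_closed hconn hnb (nb_symm hnb) hσ0 o N hN U f hf
  have h2 : e / (ip U f f + 1) * ip U f f ≤ e := by
    rw [div_mul_eq_mul_div, div_le_iff₀ (by positivity)]
    nlinarith
  calc ip U f (opT nb U f) ≤ (rwRadius G D o * D + e / (ip U f f + 1)) * ip U f f := h1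
    _ = rwRadius G D o * D * ip U f f + e / (ip U f f + 1) * ip U f f := by ring
    _ ≤ _ := by linarith

end Vale.Agent.P165
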