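import Vale.Agent.P165.CartDefs
import Vale.Agent.P165.SpecMain
import Vale.Agent.P165.IsoFinal

namespace Vale.Agent.P165

open Finset SimpleGraph

variable {V : Type*} [DecidableEq V]

/-- neighbours in the Cartesian power -/
def nbC (nb : V → Finset V) (n : ℕ) (x : Fin n → V) : Finset (Fin n → V) :=
  Finset.univ.biUnion (fun i => (nb (x i)).image (fun z => Function.update x i z))

theorem mem_nbC {G : SimpleGraph V} {nb : V → Finset V}
    (hnb : ∀ x y, y ∈ nb x ↔ G.Adj x y) (n : ℕ) (x y : Fin n → V) :
    y ∈ nbC nb n x ↔ (cartPow G n).Adj x y := by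
  unfold nbC
  rw [Finset.mem_biUnion]
  constructor
  · rintro ⟨i, _, h⟩
    obtain ⟨z, hz, rfl⟩ := Finset.mem_image.1 h
    refine ⟨i, ?_, ?_⟩
    · rw [Function.update_self]; exact (hnb _ _).1 hz
    · intro j hj
      rw [Function.update_of_ne hj]
  · rintro ⟨i, h1, h2⟩
    refine ⟨i, Finset.mem_univ _, Finset.mem_image.2 ⟨y i, (hnb _ _).2 h1, ?_⟩⟩
    funext j
    by_cases hj : j = i
    · subst hj; simp
    · rw [Function.update_of_ne hj, h2 j hj]

theorem sum_nbC {G : SimpleGraph V} {nb : V → Finset V}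
    (hnb : ∀ x y, y ∈ nb x ↔ G.Adj x y) (n : ℕ) (x : Fin n → V) (F : (Fin n → V) → ℝ) :
    ∑ y ∈ nbC nb n x, F y = ∑ i, ∑ z ∈ nb (x i), F (Function.update x i z) := by
  unfold nbC
  rw [Finset.sum_biUnion]
  · apply Finset.sum_congr rfl
    intro i _
    rw [Finset.sum_image]
    intro a _ b _ hab
    have := congrFun hab i
    simpa using this
  · intro i _ j _ hij
    rw [Function.onFun, Finset.disjoint_left]
    intro y hy hy'
    obtain ⟨z, hz, rfl⟩ := Finset.mem_image.1 hy
    obtain ⟨w, hw, h⟩ := Finset.mem_image.1 hy'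
    have h1 := congrFun h i
    rw [Function.update_of_ne hij, Function.update_self] at h1
    have h2 := (hnb _ _).1 hz
    rw [← h1] at h2
    exact G.irrefl h2

/-- averaging over one coordinate -/
theorem sum_avg {n : ℕ} (S : Finset V) (i : Fin n) (F : (Fin n → V) → ℝ) :
    ∑ x ∈ Fintype.piFinset (fun _ : Fin n => S), ∑ a ∈ S, F (Function.update x i a) =
      (S.card : ℝ) * ∑ x ∈ Fintype.piFinset (fun _ : Fin n => S), F x := by
  rw [← Finset.sum_product']
  have h1 : (S.card : ℝ) * ∑ x ∈ Fintype.piFinset (fun _ : Fin n => S), F x =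
      ∑ q ∈ (Fintype.piFinset (fun _ : Fin n => S)) ×ˢ S, F q.1 := by
    rw [Finset.sum_product, Finset.mul_sum]
    apply Finset.sum_congr rfl
    intro x _
    show (S.card : ℝ) * F x = ∑ _y ∈ S, F x
    rw [Finset.sum_const, nsmul_eq_mul]
  rw [h1]
  refine Finset.sum_bij' (fun q _ => (Function.update q.1 i q.2, q.1 i))
    (fun q _ => (Function.update q.1 i q.2, q.1 i)) ?_ ?_ ?_ ?_ ?_
  · rintro ⟨x, a⟩ hq
    rw [Finset.mem_product, Fintype.mem_piFinset] at hq
    rw [Finset.mem_product, Fintype.mem_piFinset]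
    refine ⟨fun j => ?_, hq.1 i⟩
    show Function.update x i a j ∈ S
    by_cases hj : j = i
    · subst hj; simpa using hq.2
    · rw [Function.update_of_ne hj]; exact hq.1 j
  · rintro ⟨x, a⟩ hq
    rw [Finset.mem_product, Fintype.mem_piFinset] at hq
    rw [Finset.mem_product, Fintype.mem_piFinset]
    refine ⟨fun j => ?_, hq.1 i⟩
    show Function.update x i a j ∈ S
    by_cases hj : j = i
    · subst hj; simpa using hq.2
    · rw [Function.update_of_ne hj]; exact hq.1 j
  · rintro ⟨x, a⟩ _
    simp
  · rintro ⟨x, a⟩ _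
    simp
  · rintro ⟨x, a⟩ _
    rfl

/-- quadratic form on the Cartesian power -/
theorem quad_cart {G : SimpleGraph V} {nb : V → Finset V}
    (hnb : ∀ x y, y ∈ nb x ↔ G.Adj x y) (o : V) {s : ℝ}
    (hQ : ∀ (U : Finset V) (f : V → ℝ), (∀ x, 0 ≤ f x) → ip U f (opT nb U f) ≤ s * ip U f f)
    (n : ℕ) (U : Finset (Fin n → V)) (f : (Fin n → V) → ℝ) (hf : ∀ x, 0 ≤ f x) :
    ip U f (opT (nbC nb n) U f) ≤ (n * s) * ip U f f := by
  obtain ⟨g, hg⟩ : ∃ g : (Fin n → V) → ℝ, ∀ x, g x = if x ∈ U then f x else 0 :=
    ⟨_, fun _ => rfl⟩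
  have hg0 : ∀ x, 0 ≤ g x := by
    intro x; rw [hg]; split_ifs
    · exact hf x
    · exact le_refl _
  obtain ⟨S, hS⟩ : ∃ S : Finset V, S = insert o (U.biUnion (fun x => Finset.univ.image x)) :=
    ⟨_, rfl⟩
  have hScard : (0 : ℝ) < S.card := by
    rw [Nat.cast_pos, Finset.card_pos, hS]; exact ⟨o, Finset.mem_insert_self _ _⟩
  have hUS : U ⊆ Fintype.piFinset (fun _ : Fin n => S) := by
    intro x hx
    rw [Fintype.mem_piFinset]
    intro i
    rw [hS]
    exact Finset.mem_insert_of_mem (Finset.mem_biUnion.2 ⟨x, hx, Finset.mem_image.2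
      ⟨i, Finset.mem_univ _, rfl⟩⟩)
  have hgB : ∀ x, x ∉ Fintype.piFinset (fun _ : Fin n => S) → g x = 0 := by
    intro x hx
    rw [hg, if_neg (fun h => hx (hUS h))]
  have e1 : ip U f (opT (nbC nb n) U f) =
      ∑ x ∈ Fintype.piFinset (fun _ : Fin n => S), g x * ∑ y ∈ nbC nb n x, g y := by
    unfold ip opT
    rw [← Finset.sum_subset hUS]
    · apply Finset.sum_congr rfl
      intro x hx
      rw [hg x, if_pos hx]
      congr 1
      rw [← Finset.sum_filter_add_sum_filter_not (nbC nb n x) (fun y => y ∈ U) g]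
      have h2 : ∑ y ∈ (nbC nb n x).filter (fun y => ¬ y ∈ U), g y = 0 := by
        apply Finset.sum_eq_zero
        intro y hy
        rw [hg, if_neg (Finset.mem_filter.1 hy).2]
      rw [h2, add_zero, Finset.filter_mem_eq_inter]
      apply Finset.sum_congr rfl
      intro y hy
      rw [hg, if_pos (Finset.mem_inter.1 hy).2]
    · intro x _ hx
      rw [hg, if_neg hx, zero_mul]
  have e2 : ip U f f = ∑ x ∈ Fintype.piFinset (fun _ : Fin n => S), g x * g x := by
    unfold ip
    rw [← Finset.sum_subset hUS]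
    · apply Finset.sum_congr rfl
      intro x hx
      rw [hg x, if_pos hx]
    · intro x _ hx
      rw [hg, if_neg hx, zero_mul]
  rw [e1, e2]
  have e3 : ∑ x ∈ Fintype.piFinset (fun _ : Fin n => S), g x * ∑ y ∈ nbC nb n x, g y =
      ∑ i, ∑ x ∈ Fintype.piFinset (fun _ : Fin n => S),
        g x * ∑ z ∈ nb (x i), g (Function.update x i z) := by
    rw [Finset.sum_comm]
    apply Finset.sum_congr rfl
    intro x _
    rw [sum_nbC hnb, Finset.mul_sum]
  rw [e3]
  have key : ∀ i : Fin n, ∑ x ∈ Fintype.piFinset (fun _ : Fin n => S),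
      g x * ∑ z ∈ nb (x i), g (Function.update x i z) ≤
      s * ∑ x ∈ Fintype.piFinset (fun _ : Fin n => S), g x * g x := by
    intro i
    have h1 := sum_avg S i (fun x => g x * ∑ z ∈ nb (x i), g (Function.update x i z))
    have h2 := sum_avg S i (fun x => g x * g x)
    have h3 : ∑ x ∈ Fintype.piFinset (fun _ : Fin n => S), ∑ a ∈ S,
        (fun x => g x * ∑ z ∈ nb (x i), g (Function.update x i z)) (Function.update x i a) ≤
        s * ∑ x ∈ Fintype.piFinset (fun _ : Fin n => S), ∑ a ∈ S,
          (fun x => g x * g x) (Function.update x i a) := by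
      rw [Finset.mul_sum]
      apply Finset.sum_le_sum
      intro x hx
      have hxS := Fintype.mem_piFinset.1 hx
      have h4 := hQ S (fun a => g (Function.update x i a)) (fun a => hg0 _)
      unfold ip opT at h4
      refine le_trans (le_of_eq ?_) h4
      apply Finset.sum_congr rfl
      intro a _
      simp only [Function.update_self, Function.update_idem]
      congr 1
      rw [← Finset.sum_filter_add_sum_filter_not (nb a) (fun z => z ∈ S)]
      have h5 : ∑ z ∈ (nb a).filter (fun z => ¬ z ∈ S), g (Function.update x i z) = 0 := by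
        apply Finset.sum_eq_zero
        intro z hz
        apply hgB
        intro hmem
        have := Fintype.mem_piFinset.1 hmem i
        rw [Function.update_self] at this
        exact (Finset.mem_filter.1 hz).2 this
      rw [h5, add_zero, Finset.filter_mem_eq_inter]
    rw [h1, h2] at h3
    have h6 : (S.card : ℝ) * ∑ x ∈ Fintype.piFinset (fun _ : Fin n => S),
        g x * ∑ z ∈ nb (x i), g (Function.update x i z) ≤
        (S.card : ℝ) * (s * ∑ x ∈ Fintype.piFinset (fun _ : Fin n => S), g x * g x) := by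
      calc _ ≤ _ := h3
        _ = _ := by ring
    exact le_of_mul_le_mul_left h6 hScard
  calc _ ≤ ∑ _i : Fin n, s * ∑ x ∈ Fintype.piFinset (fun _ : Fin n => S), g x * g x :=
        Finset.sum_le_sum (fun i _ => key i)
    _ = _ := by
        rw [Finset.sum_const, Finset.card_univ, Fintype.card_fin, nsmul_eq_mul]; ring

omit [DecidableEq V] in
theorem cart_connected {G : SimpleGraph V} (hconn : G.Connected) (n : ℕ) :
    (cartPow G n).Connected := by
  classical
  haveI := hconn.nonempty
  have hstep : ∀ (x : Fin n → V) (i : Fin n) (b : V),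
      (cartPow G n).Reachable x (Function.update x i b) := by
    intro x i b
    obtain ⟨w⟩ := hconn.preconnected (x i) b
    have : ∀ (a c : V), G.Walk a c → ∀ y : Fin n → V, y i = a →
        (cartPow G n).Reachable y (Function.update y i c) := by
      intro a c w
      induction w with
      | nil =>
        intro y hy
        rw [← hy, Function.update_eq_self]
      | @cons u v z h p ih =>
        intro y hy
        have h1 : (cartPow G n).Adj y (Function.update y i v) := by
          refine ⟨i, ?_, ?_⟩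
          · rw [Function.update_self, hy]; exact h
          · intro j hj
            rw [Function.update_of_ne hj]
        have h2 := ih (Function.update y i v) (Function.update_self _ _ _)
        rw [Function.update_idem] at h2
        exact h1.reachable.trans h2
    exact this _ _ w x rfl
  refine ⟨?_⟩
  intro x y
  have hall : ∀ T : Finset (Fin n),
      (cartPow G n).Reachable x (fun j => if j ∈ T then y j else x j) := by
    intro T
    induction T using Finset.induction_on with
    | empty => simp only [Finset.notMem_empty, if_false]; exact SimpleGraph.Reachable.refl _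
    | insert i T hi ih =>
      have h1 := hstep (fun j => if j ∈ T then y j else x j) i (y i)
      have h2 : Function.update (fun j => if j ∈ T then y j else x j) i (y i) =
          (fun j => if j ∈ insert i T then y j else x j) := by
        funext j
        by_cases hj : j = i
        · subst hj; simp
        · rw [Function.update_of_ne hj]
          simp [Finset.mem_insert, hj]
      rw [h2] at h1
      exact ih.trans h1
  have := hall Finset.univ
  simpa using this

theorem qt_cart {nb : V → Finset V} {G : SimpleGraph V}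
    (hnb : ∀ x y, y ∈ nb x ↔ G.Adj x y) (hqt : QT nb) (n : ℕ) : QT (nbC nb n) := by
  obtain ⟨R, hR⟩ := hqt
  refine ⟨Fintype.piFinset (fun _ => R), fun x => ?_⟩
  choose r hr φ hφ hx using hR
  refine ⟨fun i => r (x i), Fintype.mem_piFinset.2 (fun i => hr (x i)),
    Equiv.piCongrRight (fun i => φ (x i)), ?_, ?_⟩
  · intro a b
    rw [mem_nbC hnb, mem_nbC hnb]
    constructor
    · rintro ⟨i, h1, h2⟩
      refine ⟨i, ?_, fun j hj => ?_⟩
      · have h3 := (hnb _ _).2 h1
        exact (hnb _ _).1 ((hφ (x i) (a i) (b i)).1 h3)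
      · exact (φ (x j)).injective (h2 j hj)
    · rintro ⟨i, h1, h2⟩
      refine ⟨i, ?_, fun j hj => ?_⟩
      · exact (hnb _ _).1 ((hφ (x i) (a i) (b i)).2 ((hnb _ _).2 h1))
      · show φ (x j) (a j) = φ (x j) (b j)
        rw [h2 j hj]
  · funext i
    exact hx (x i)

/-- core statement for Cartesian powers -/
theorem cart_core [Infinite V] {G : SimpleGraph V} (hconn : G.Connected) {nb : V → Finset V}
    (hnb : ∀ x y, y ∈ nb x ↔ G.Adj x y) (hqt : QT nb) {D ρ : ℝ}
    (hD : ∀ x, ((nb x).card : ℝ) = D) (hρ0 : 0 ≤ ρ) (hρ1 : ρ < 1)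
    (hQ : ∀ (U : Finset V) (f : V → ℝ), (∀ x, 0 ≤ f x) → ip U f (opT nb U f) ≤
      (ρ * D) * ip U f f) (n : ℕ) (hbig : 72 ≤ (n * D) * (1 - ρ) ^ 3) :
    pc (cartPow G n) < pu (cartPow G n) := by
  obtain ⟨o⟩ := hconn.nonempty
  have hn : n ≠ 0 := by
    rintro rfl
    norm_num at hbig
  haveI : Nonempty (Fin n) := ⟨⟨0, Nat.pos_of_ne_zero hn⟩⟩
  haveI : Infinite (Fin n → V) := Function.infinite_of_right
  have hDn : ∀ x, ((nbC nb n x).card : ℝ) = n * D := by
    intro x
    have h1 := sum_nbC hnb n x (fun _ => 1)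
    simp only [Finset.sum_const, nsmul_eq_mul, mul_one] at h1
    rw [h1]
    simp [hD]
  refine regular_criterion (cart_connected hconn n) (mem_nbC hnb n)
    (exh_bl (cart_connected hconn n) (mem_nbC hnb n) (fun _ => o)) (qt_cart hnb hqt n)
    hDn hρ0 hρ1 hbig ?_
  intro U f hf
  have := quad_cart hnb o hQ n U f hf
  calc _ ≤ _ := this
    _ = _ := by ring

end Vale.Agent.P165
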