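import Vale.Agent.P165.Spec

namespace Vale.Agent.P165

open Finset

variable {V : Type*} [DecidableEq V]

/-- co-area inequality -/
theorem coarea {nb : V → Finset V} {h : ℝ}
    (hiso : ∀ A : Finset V, h * A.card ≤ ∑ x ∈ A, ((nb x \ A).card : ℝ))
    (n : ℕ) (U : Finset V) (u : V → ℝ) (hu : ∀ x, 0 ≤ u x) (hU : ∀ x, x ∉ U → u x = 0)
    (hn : (U.filter (fun x => 0 < u x)).card ≤ n) :
    h * ∑ x ∈ U, u x ≤ ∑ x ∈ U, ∑ z ∈ nb x, max (u x - u z) 0 := by
  induction n generalizing u with
  | zero =>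
    have h0 : ∀ x ∈ U, u x = 0 := by
      intro x hx
      by_contra hne
      have : x ∈ U.filter (fun x => 0 < u x) :=
        Finset.mem_filter.2 ⟨hx, lt_of_le_of_ne (hu x) (Ne.symm hne)⟩
      have := Finset.card_pos.2 ⟨x, this⟩
      omega
    rw [Finset.sum_eq_zero h0, mul_zero]
    apply Finset.sum_nonneg; intro x _
    apply Finset.sum_nonneg; intro z _
    exact le_max_right _ _
  | succ n ih =>
    set A := U.filter (fun x => 0 < u x) with hA
    rcases A.eq_empty_or_nonempty with hAe | hAne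
    · have h0 : ∀ x ∈ U, u x = 0 := by
        intro x hx
        by_contra hne
        have : x ∈ A := Finset.mem_filter.2 ⟨hx, lt_of_le_of_ne (hu x) (Ne.symm hne)⟩
        rw [hAe] at this
        exact absurd this (Finset.notMem_empty _)
      rw [Finset.sum_eq_zero h0, mul_zero]
      apply Finset.sum_nonneg; intro x _
      apply Finset.sum_nonneg; intro z _
      exact le_max_right _ _
    · obtain ⟨a, haA, hmin⟩ := Finset.exists_min_image A u hAne
      set m := u a with hm
      have hmpos : 0 < m := (Finset.mem_filter.1 haA).2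
      have hAsub : A ⊆ U := Finset.filter_subset _ _
      have hnotA : ∀ x, x ∉ A → u x = 0 := by
        intro x hx
        by_cases hxU : x ∈ U
        · by_contra hne
          exact hx (Finset.mem_filter.2 ⟨hxU, lt_of_le_of_ne (hu x) (Ne.symm hne)⟩)
        · exact hU x hxU
      set v := fun x => u x - (if x ∈ A then m else 0) with hv
      have hv0 : ∀ x, 0 ≤ v x := by
        intro x
        simp only [hv]
        split_ifs with hx
        · linarith [hmin x hx]
        · rw [sub_zero]; exact hu x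
      have hvnA : ∀ x, x ∉ A → v x = 0 := by
        intro x hx
        simp only [hv, if_neg hx, sub_zero]
        exact hnotA x hx
      have hvU : ∀ x, x ∉ U → v x = 0 := fun x hx => hvnA x (fun h2 => hx (hAsub h2))
      have hcard : (U.filter (fun x => 0 < v x)).card ≤ n := by
        have hsub : U.filter (fun x => 0 < v x) ⊆ A.erase a := by
          intro x hx
          rw [Finset.mem_filter] at hx
          rw [Finset.mem_erase]
          have hxA : x ∈ A := by
            by_contra h2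
            have := hvnA x h2
            linarith [hx.2]
          refine ⟨?_, hxA⟩
          rintro rfl
          have : v x = 0 := by simp only [hv, if_pos hxA]; rw [hm]; ring
          linarith [hx.2]
        have := Finset.card_le_card hsub
        rw [Finset.card_erase_of_mem haA] at this
        omega
      have hih := ih v hv0 hvU hcard
      have hpt : ∀ x ∈ U, ∑ z ∈ nb x, max (u x - u z) 0 =
          (if x ∈ A then m * ((nb x \ A).card : ℝ) else 0) + ∑ z ∈ nb x, max (v x - v z) 0 := by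
        intro x _
        by_cases hx : x ∈ A
        · rw [if_pos hx]
          have e1 : m * ((nb x \ A).card : ℝ) = ∑ z ∈ nb x, (if z ∈ A then 0 else m) := by
            rw [Finset.sum_ite]
            simp only [Finset.sum_const_zero, Finset.sum_const, nsmul_eq_mul, zero_add]
            rw [mul_comm]
            congr 2
            congr 1
            ext z
            simp [Finset.mem_sdiff]
          rw [e1, ← Finset.sum_add_distrib]
          apply Finset.sum_congr rfl
          intro z _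
          by_cases hz : z ∈ A
          · rw [if_pos hz]
            simp only [hv, if_pos hx, if_pos hz]
            rw [zero_add]
            congr 1; ring
          · rw [if_neg hz, hvnA z hz, hnotA z hz]
            have h1 : 0 ≤ v x := hv0 x
            have h2 : v x = u x - m := by simp only [hv, if_pos hx]
            rw [sub_zero, sub_zero, max_eq_left (hu x), max_eq_left h1, h2]
            ring
        · rw [if_neg hx, hnotA x hx, hvnA x hx, zero_add]
          have e1 : ∀ z ∈ nb x, max (0 - u z) 0 = 0 := by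
            intro z _
            rw [max_eq_right]; linarith [hu z]
          have e2 : ∀ z ∈ nb x, max (0 - v z) 0 = 0 := by
            intro z _
            rw [max_eq_right]; linarith [hv0 z]
          rw [Finset.sum_eq_zero e1, Finset.sum_eq_zero e2]
      rw [Finset.sum_congr rfl hpt, Finset.sum_add_distrib]
      have e3 : ∑ x ∈ U, (if x ∈ A then m * ((nb x \ A).card : ℝ) else 0) =
          m * ∑ x ∈ A, ((nb x \ A).card : ℝ) := by
        rw [← Finset.sum_filter, Finset.mul_sum]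
        apply Finset.sum_congr _ (fun _ _ => rfl)
        ext x
        simp only [Finset.mem_filter]
        exact ⟨fun h => h.2, fun h => ⟨hAsub h, h⟩⟩
      have e4 : ∑ x ∈ U, u x = m * A.card + ∑ x ∈ U, v x := by
        have : ∀ x ∈ U, u x = (if x ∈ A then m else 0) + v x := by
          intro x _
          simp only [hv]; ring
        rw [Finset.sum_congr rfl this, Finset.sum_add_distrib]
        congr 1
        rw [← Finset.sum_filter]
        have : U.filter (fun x => x ∈ A) = A := by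
          ext x
          simp only [Finset.mem_filter]
          exact ⟨fun h => h.2, fun h => ⟨hAsub h, h⟩⟩
        rw [this]; simp [mul_comm]
      rw [e3, e4, mul_add]
      have := mul_le_mul_of_nonneg_left (hiso A) hmpos.le
      linarith

/-- Cheeger inequality for the energy -/
theorem cheeger {nb : V → Finset V} {h D : ℝ} (hh : 0 < h)
    (hD : ∀ x, ((nb x).card : ℝ) ≤ D)
    (hiso : ∀ A : Finset V, h * A.card ≤ ∑ x ∈ A, ((nb x \ A).card : ℝ))
    (hDpos : 0 < D)
    (U : Finset V) (g : V → ℝ) (hg : ∀ x, 0 ≤ g x) (hU : ∀ x, x ∉ U → g x = 0) :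
    h ^ 2 / (4 * D) * ∑ x ∈ U, g x ^ 2 ≤
      ∑ x ∈ U, ∑ z ∈ nb x, (max (g x - g z) 0) ^ 2 := by
  have h1 := coarea hiso (U.filter (fun x => 0 < g x ^ 2)).card U (fun x => g x ^ 2)
    (fun x => sq_nonneg _) (fun x hx => by rw [hU x hx]; ring) (le_refl _)
  set t := 4 * D / h with ht
  have htpos : 0 < t := by positivity
  have h2 : ∀ x ∈ U, ∑ z ∈ nb x, max (g x ^ 2 - g z ^ 2) 0 ≤
      (t / 2) * ∑ z ∈ nb x, (max (g x - g z) 0) ^ 2 + (2 * D / t) * g x ^ 2 := by
    intro x _
    have h3 : ∀ z ∈ nb x, max (g x ^ 2 - g z ^ 2) 0 ≤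
        (t / 2) * (max (g x - g z) 0) ^ 2 + (2 / t) * g x ^ 2 := by
      intro z _
      rcases le_total (g x) (g z) with hle | hle
      · have e1 : max (g x ^ 2 - g z ^ 2) 0 = 0 := by
          rw [max_eq_right]
          have := pow_le_pow_left₀ (hg x) hle 2
          linarith
        rw [e1]; positivity
      · have e1 : max (g x - g z) 0 = g x - g z := max_eq_left (by linarith)
        have e2 : max (g x ^ 2 - g z ^ 2) 0 = (g x - g z) * (g x + g z) := by
          rw [max_eq_left]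
          · ring
          · have := pow_le_pow_left₀ (hg z) hle 2
            linarith
        rw [e1, e2]
        set a := g x - g z with ha
        have ha0 : 0 ≤ a := by linarith
        have h5 : a * (g x + g z) ≤ a * (2 * g x) :=
          mul_le_mul_of_nonneg_left (by linarith) ha0
        refine h5.trans ?_
        have h6 : 0 ≤ (t * a - 2 * g x) ^ 2 / (2 * t) := by positivity
        have h7 : (t * a - 2 * g x) ^ 2 / (2 * t) =
            t / 2 * a ^ 2 + 2 / t * g x ^ 2 - a * (2 * g x) := by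
          field_simp
          ring
        linarith
    refine (Finset.sum_le_sum h3).trans ?_
    rw [Finset.sum_add_distrib, ← Finset.mul_sum, Finset.sum_const, nsmul_eq_mul]
    have : ((nb x).card : ℝ) * (2 / t * g x ^ 2) ≤ D * (2 / t * g x ^ 2) :=
      mul_le_mul_of_nonneg_right (hD x) (by positivity)
    have e : D * (2 / t * g x ^ 2) = 2 * D / t * g x ^ 2 := by ring
    linarith
  have h8 := h1.trans (Finset.sum_le_sum h2)
  rw [Finset.sum_add_distrib, ← Finset.mul_sum, ← Finset.mul_sum] at h8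
  have e1 : 2 * D / t = h / 2 := by rw [ht]; field_simp; ring
  have e2 : t / 2 = 2 * D / h := by rw [ht]; field_simp; ring
  rw [e1, e2] at h8
  set G2 := ∑ x ∈ U, g x ^ 2 with hG2
  set E := ∑ x ∈ U, ∑ z ∈ nb x, (max (g x - g z) 0) ^ 2 with hE
  have h9 : h / 2 * G2 ≤ 2 * D / h * E := by linarith
  have h10 := mul_le_mul_of_nonneg_left h9 (show 0 ≤ h / (2 * D) by positivity)
  calc h ^ 2 / (4 * D) * G2 = h / (2 * D) * (h / 2 * G2) := by field_simp; ring
    _ ≤ h / (2 * D) * (2 * D / h * E) := h10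
    _ = E := by field_simp

/-- quadratic form bound from isoperimetry, with a positive supersolution -/
theorem quad_of_iso {nb : V → Finset V} (hsymm : ∀ x y, y ∈ nb x → x ∈ nb y) {h D s m M : ℝ}
    (hh : 0 < h) (hD : ∀ x, ((nb x).card : ℝ) ≤ D) (hDpos : 0 < D)
    (hiso : ∀ A : Finset V, h * A.card ≤ ∑ x ∈ A, ((nb x \ A).card : ℝ))
    (hs : 0 < s) (hm : 0 < m) {φ : V → ℝ} (hφm : ∀ x, m ≤ φ x) (hφM : ∀ x, φ x ≤ M)
    (hsup : ∀ x, s * ∑ z ∈ nb x, φ z ≤ φ x)
    (U : Finset V) (f : V → ℝ) (hf : ∀ x, 0 ≤ f x) :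
    ip U f (opT nb U f) ≤ (1 / s - m ^ 2 / M ^ 2 * (h ^ 2 / (4 * D))) * ip U f f := by
  have hφpos : ∀ x, 0 < φ x := fun x => lt_of_lt_of_le hm (hφm x)
  set g := fun x => if x ∈ U then f x / φ x else 0 with hg
  have hg0 : ∀ x, 0 ≤ g x := by
    intro x; simp only [hg]
    split_ifs
    · exact div_nonneg (hf x) (hφpos x).le
    · exact le_refl _
  have hgU : ∀ x, x ∉ U → g x = 0 := fun x hx => by simp only [hg, if_neg hx]
  have hfg : ∀ x ∈ U, f x = φ x * g x := by
    intro x hx
    simp only [hg, if_pos hx]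
    rw [mul_div_cancel₀ _ (ne_of_gt (hφpos x))]
  -- symmetric sums
  have hswap : ∀ F : V → V → ℝ, ∑ x ∈ U, ∑ z ∈ nb x ∩ U, F x z =
      ∑ x ∈ U, ∑ z ∈ nb x ∩ U, F z x := by
    intro F
    apply Finset.sum_comm'
    intro x z
    simp only [Finset.mem_inter]
    constructor
    · rintro ⟨h1, h2, h3⟩; exact ⟨⟨hsymm _ _ h2, h1⟩, h3⟩
    · rintro ⟨⟨h1, h2⟩, h3⟩; exact ⟨h2, hsymm _ _ h1, h3⟩
  have e1 : ip U f (opT nb U f) = ∑ x ∈ U, ∑ z ∈ nb x ∩ U, φ x * φ z * (g x * g z) := by
    unfold ip opT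
    apply Finset.sum_congr rfl; intro x hx
    rw [Finset.mul_sum]
    apply Finset.sum_congr rfl; intro z hz
    rw [hfg x hx, hfg z (Finset.mem_inter.1 hz).2]
    ring
  have hpt : ∀ a b : ℝ, a * b = 1 / 2 * a ^ 2 + 1 / 2 * b ^ 2 - 1 / 2 * (max (a - b) 0) ^ 2 -
      1 / 2 * (max (b - a) 0) ^ 2 := by
    intro a b
    rcases le_total a b with hab | hab
    · rw [max_eq_right (by linarith : a - b ≤ 0), max_eq_left (by linarith : 0 ≤ b - a)]; ring
    · rw [max_eq_left (by linarith : 0 ≤ a - b), max_eq_right (by linarith : b - a ≤ 0)]; ring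
  have e2 : ip U f (opT nb U f) = ∑ x ∈ U, ∑ z ∈ nb x ∩ U, φ x * φ z * g x ^ 2 -
      ∑ x ∈ U, ∑ z ∈ nb x ∩ U, φ x * φ z * (max (g x - g z) 0) ^ 2 := by
    rw [e1]
    have a1 : ∑ x ∈ U, ∑ z ∈ nb x ∩ U, φ x * φ z * (g x * g z) =
        1 / 2 * ∑ x ∈ U, ∑ z ∈ nb x ∩ U, φ x * φ z * g x ^ 2 +
        1 / 2 * ∑ x ∈ U, ∑ z ∈ nb x ∩ U, φ x * φ z * g z ^ 2 -
        1 / 2 * ∑ x ∈ U, ∑ z ∈ nb x ∩ U, φ x * φ z * (max (g x - g z) 0) ^ 2 -
        1 / 2 * ∑ x ∈ U, ∑ z ∈ nb x ∩ U, φ x * φ z * (max (g z - g x) 0) ^ 2 := by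
      simp only [Finset.mul_sum]
      rw [← Finset.sum_add_distrib, ← Finset.sum_sub_distrib, ← Finset.sum_sub_distrib]
      apply Finset.sum_congr rfl; intro x _
      rw [← Finset.sum_add_distrib, ← Finset.sum_sub_distrib, ← Finset.sum_sub_distrib]
      apply Finset.sum_congr rfl; intro z _
      rw [hpt (g x) (g z)]
      ring
    have a2 : ∑ x ∈ U, ∑ z ∈ nb x ∩ U, φ x * φ z * g z ^ 2 =
        ∑ x ∈ U, ∑ z ∈ nb x ∩ U, φ x * φ z * g x ^ 2 := by
      rw [hswap (fun x z => φ x * φ z * g z ^ 2)]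
      apply Finset.sum_congr rfl; intro x _
      apply Finset.sum_congr rfl; intro z _
      ring
    have a3 : ∑ x ∈ U, ∑ z ∈ nb x ∩ U, φ x * φ z * (max (g z - g x) 0) ^ 2 =
        ∑ x ∈ U, ∑ z ∈ nb x ∩ U, φ x * φ z * (max (g x - g z) 0) ^ 2 := by
      rw [hswap (fun x z => φ x * φ z * (max (g z - g x) 0) ^ 2)]
      apply Finset.sum_congr rfl; intro x _
      apply Finset.sum_congr rfl; intro z _
      ring
    rw [a1, a2, a3]; ring
  -- split neighbours
  have hsplit : ∀ (x : V) (F : V → ℝ), ∑ z ∈ nb x, F z =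
      ∑ z ∈ nb x ∩ U, F z + ∑ z ∈ nb x \ U, F z := by
    intro x F
    rw [← Finset.sum_union (Finset.disjoint_left.2 (fun a h1 h2 =>
      (Finset.mem_sdiff.1 h2).2 (Finset.mem_inter.1 h1).2))]
    congr 1
    ext a
    simp only [Finset.mem_union, Finset.mem_inter, Finset.mem_sdiff]
    tauto
  have e3 : ∑ x ∈ U, ∑ z ∈ nb x ∩ U, φ x * φ z * g x ^ 2 ≤
      1 / s * ip U f f - ∑ x ∈ U, ∑ z ∈ nb x \ U, φ x * φ z * g x ^ 2 := by
    unfold ip
    rw [Finset.mul_sum, ← Finset.sum_sub_distrib]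
    apply Finset.sum_le_sum
    intro x hx
    have b1 : ∑ z ∈ nb x, φ x * φ z * g x ^ 2 ≤ 1 / s * (f x * f x) := by
      have : ∑ z ∈ nb x, φ x * φ z * g x ^ 2 = φ x * g x ^ 2 * ∑ z ∈ nb x, φ z := by
        rw [Finset.mul_sum]
        apply Finset.sum_congr rfl; intro z _; ring
      rw [this, hfg x hx]
      have h2 : ∑ z ∈ nb x, φ z ≤ 1 / s * φ x := by
        rw [one_div, ← div_eq_inv_mul, le_div_iff₀ hs, mul_comm]
        exact hsup x
      calc φ x * g x ^ 2 * ∑ z ∈ nb x, φ z ≤ φ x * g x ^ 2 * (1 / s * φ x) :=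
            mul_le_mul_of_nonneg_left h2 (mul_nonneg (hφpos x).le (sq_nonneg _))
        _ = _ := by ring
    rw [hsplit] at b1
    linarith
  have e4 : ∑ x ∈ U, ∑ z ∈ nb x ∩ U, φ x * φ z * (max (g x - g z) 0) ^ 2 +
      ∑ x ∈ U, ∑ z ∈ nb x \ U, φ x * φ z * g x ^ 2 =
      ∑ x ∈ U, ∑ z ∈ nb x, φ x * φ z * (max (g x - g z) 0) ^ 2 := by
    rw [← Finset.sum_add_distrib]
    apply Finset.sum_congr rfl; intro x _
    rw [hsplit x (fun z => φ x * φ z * (max (g x - g z) 0) ^ 2)]
    congr 1
    apply Finset.sum_congr rfl; intro z hz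
    rw [hgU z (Finset.mem_sdiff.1 hz).2, sub_zero, max_eq_left (hg0 x)]
  have e5 : m ^ 2 * ∑ x ∈ U, ∑ z ∈ nb x, (max (g x - g z) 0) ^ 2 ≤
      ∑ x ∈ U, ∑ z ∈ nb x, φ x * φ z * (max (g x - g z) 0) ^ 2 := by
    simp only [Finset.mul_sum]
    apply Finset.sum_le_sum; intro x _
    apply Finset.sum_le_sum; intro z _
    apply mul_le_mul_of_nonneg_right _ (sq_nonneg _)
    rw [sq]
    exact mul_le_mul (hφm x) (hφm z) hm.le (hφpos x).le
  have e6 := cheeger hh hD hiso hDpos U g hg0 hgU
  rcases U.eq_empty_or_nonempty with hUe | ⟨x₀, _⟩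
  · subst hUe
    simp [ip]
  have hMpos : 0 < M := lt_of_lt_of_le (hφpos x₀) (hφM x₀)
  have e7 : ip U f f / M ^ 2 ≤ ∑ x ∈ U, g x ^ 2 := by
    rw [div_le_iff₀ (by positivity)]
    unfold ip
    rw [Finset.sum_mul]
    apply Finset.sum_le_sum; intro x hx
    rw [hfg x hx]
    have : φ x ^ 2 ≤ M ^ 2 := pow_le_pow_left₀ (hφpos x).le (hφM x) 2
    calc φ x * g x * (φ x * g x) = g x ^ 2 * φ x ^ 2 := by ring
      _ ≤ g x ^ 2 * M ^ 2 := mul_le_mul_of_nonneg_left this (sq_nonneg _)
  have e8 : h ^ 2 / (4 * D) * (ip U f f / M ^ 2) ≤ h ^ 2 / (4 * D) * ∑ x ∈ U, g x ^ 2 :=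
    mul_le_mul_of_nonneg_left e7 (by positivity)
  have e9 := mul_le_mul_of_nonneg_left (e8.trans e6) (show 0 ≤ m ^ 2 by positivity)
  have e10 : m ^ 2 * (h ^ 2 / (4 * D) * (ip U f f / M ^ 2)) =
      m ^ 2 / M ^ 2 * (h ^ 2 / (4 * D)) * ip U f f := by ring
  rw [e10] at e9
  rw [sub_mul]
  linarith

end Vale.Agent.P165
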