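import Vale.Agent.P165.Graph

namespace Vale.Agent.P165

open Finset SimpleGraph

variable {V : Type*} [DecidableEq V]

noncomputable def tau (p : ℝ) (F : Finset (Sym2 V)) (x y : V) : ℝ :=
  Pr p F (fun S => Conn S x y)

noncomputable def chiW (p : ℝ) (F : Finset (Sym2 V)) (W : Finset V) (x : V) : ℝ :=
  ∑ v ∈ W, tau p F x v

theorem tau_nonneg {p : ℝ} (h0 : 0 ≤ p) (h1 : p ≤ 1) (F : Finset (Sym2 V)) (x y : V) :
    0 ≤ tau p F x y := Pr_nonneg h0 h1 _ _

theorem tau_le_one {p : ℝ} (h0 : 0 ≤ p) (h1 : p ≤ 1) (F : Finset (Sym2 V)) (x y : V) :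
    tau p F x y ≤ 1 := Pr_le_one h0 h1 _ _

theorem tau_comm (p : ℝ) (F : Finset (Sym2 V)) (x y : V) : tau p F x y = tau p F y x :=
  Pr_congr p (fun _ _ => ⟨Conn.symm, Conn.symm⟩)

theorem tau_self (p : ℝ) (F : Finset (Sym2 V)) (x : V) : tau p F x x = 1 := by
  unfold tau Pr
  rw [Ex_congr p (g := fun _ => 1) (fun S _ => ind_true (Conn.refl S x)), Ex_const]

theorem Pr_mono_set {p : ℝ} (h0 : 0 ≤ p) (h1 : p ≤ 1) {F F' : Finset (Sym2 V)} (hF : F ⊆ F')
    {A : Finset (Sym2 V) → Prop} (hA : Monotone A) : Pr p F A ≤ Pr p F' A :=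
  Ex_mono_set h0 h1 hF (fun _ _ hST => ind_mono (hA hST))

theorem Pr_mono_p {p q : ℝ} (h0 : 0 ≤ p) (hpq : p ≤ q) (h1 : q ≤ 1) {F : Finset (Sym2 V)}
    {A : Finset (Sym2 V) → Prop} (hA : Monotone A) : Pr p F A ≤ Pr q F A :=
  Ex_mono_p h0 hpq h1 (fun _ _ hST => ind_mono (hA hST))

theorem tau_mono {p : ℝ} (h0 : 0 ≤ p) (h1 : p ≤ 1) {F F' : Finset (Sym2 V)} (hF : F ⊆ F')
    (x y : V) : tau p F x y ≤ tau p F' x y :=
  Pr_mono_set h0 h1 hF (Conn.monotone x y)

theorem chiW_mono {p : ℝ} (h0 : 0 ≤ p) (h1 : p ≤ 1) {F F' : Finset (Sym2 V)} (hF : F ⊆ F')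
    {W W' : Finset V} (hW : W ⊆ W') (x : V) : chiW p F W x ≤ chiW p F' W' x := by
  unfold chiW
  calc ∑ v ∈ W, tau p F x v ≤ ∑ v ∈ W, tau p F' x v :=
        Finset.sum_le_sum (fun v _ => tau_mono h0 h1 hF x v)
    _ ≤ ∑ v ∈ W', tau p F' x v :=
        Finset.sum_le_sum_of_subset_of_nonneg hW (fun v _ _ => tau_nonneg h0 h1 F' x v)

theorem Ex_subset_event {α : Type*} [DecidableEq α] (p : ℝ) {F K : Finset α} (hK : K ⊆ F) :
    Ex p F (fun S => ind (K ⊆ S)) = p ^ K.card := by
  rw [Ex_restrict p hK]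
  · unfold Ex
    rw [Finset.sum_eq_single K]
    · beta_reduce
      rw [ind_true (Finset.Subset.refl K)]; simp
    · intro S hS hne
      beta_reduce
      rw [ind_false]
      · ring
      · intro h
        exact hne (Finset.Subset.antisymm (Finset.mem_powerset.1 hS) h)
    · intro h
      exact absurd (Finset.mem_powerset.2 (Finset.Subset.refl K)) h
  · intro S _
    apply ind_congr
    constructor
    · intro h
      exact Finset.subset_inter h (Finset.Subset.refl K)
    · intro h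
      exact h.trans Finset.inter_subset_left

theorem off_inter_off {o : V} {S F : Finset (Sym2 V)} (hS : S ⊆ F) :
    off o (S ∩ off o F) = off o S := by
  ext e
  simp only [mem_off, Finset.mem_inter]
  constructor
  · rintro ⟨⟨h1, _⟩, h3⟩; exact ⟨h1, h3⟩
  · rintro ⟨h1, h3⟩; exact ⟨⟨h1, hS h1, h3⟩, h3⟩

theorem off_of_subset_off {o : V} {S F : Finset (Sym2 V)} (hS : S ⊆ off o F) :
    off o S = S := by
  ext e
  rw [mem_off]
  exact ⟨fun h => h.1, fun h => ⟨h, (mem_off.1 (hS h)).2⟩⟩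

theorem Pr_off (p : ℝ) (F : Finset (Sym2 V)) (o : V) (B : Finset (Sym2 V) → Prop) :
    Pr p F (fun S => B (off o S)) = Pr p (off o F) B := by
  unfold Pr
  rw [Ex_restrict p (off_subset o F)]
  · apply Ex_congr
    intro S hS
    beta_reduce
    rw [off_of_subset_off hS]
  · intro S hS
    beta_reduce
    rw [off_inter_off hS]

theorem Pr_star (p : ℝ) {F K : Finset (Sym2 V)} {o : V} (hK : K ⊆ F) (hKo : ∀ e ∈ K, o ∈ e)
    (B : Finset (Sym2 V) → Prop) :
    Pr p F (fun S => K ⊆ S ∧ B (off o S)) = p ^ K.card * Pr p (off o F) B := by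
  have hd : Disjoint K (off o F) := by
    rw [Finset.disjoint_left]
    intro e he he2
    exact (mem_off.1 he2).2 (hKo e he)
  rw [← Pr_off p F o B]
  unfold Pr
  rw [← Ex_subset_event p hK, ← Ex_indep p hK (off_subset o F) hd]
  · apply Ex_congr
    intro S _
    rw [ind_and]
  · intro S _
    apply ind_congr
    constructor
    · intro h
      exact Finset.subset_inter h (Finset.Subset.refl K)
    · intro h
      exact h.trans Finset.inter_subset_left
  · intro S hS
    beta_reduce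
    rw [off_inter_off hS]

theorem bonferroni_point {ι : Type*} [DecidableEq ι] (N : Finset ι) (P : ι → Prop) (C : Prop)
    (h : ∀ i ∈ N, P i → C) :
    ∑ i ∈ N, ind (P i) - (1 / 2) * ∑ i ∈ N, ∑ j ∈ N.erase i, ind (P i ∧ P j) ≤ ind C := by
  classical
  have e1 : ∑ i ∈ N, ind (P i) = ((N.filter P).card : ℝ) := by
    rw [Finset.card_filter]
    push_cast
    apply Finset.sum_congr rfl
    intro i _
    by_cases hi : P i
    · rw [ind_true hi]; simp [hi]
    · rw [ind_false hi]; simp [hi]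
  have e2 : ∑ i ∈ N, ∑ j ∈ N.erase i, ind (P i ∧ P j) =
      ((N.filter P).card : ℝ) ^ 2 - ((N.filter P).card : ℝ) := by
    have e3 : ∀ i ∈ N, ∑ j ∈ N.erase i, ind (P i ∧ P j) =
        ind (P i) * ((N.filter P).card : ℝ) - ind (P i) := by
      intro i hi
      have : ∑ j ∈ N, ind (P i ∧ P j) = ind (P i) * ((N.filter P).card : ℝ) := by
        rw [← e1, Finset.mul_sum]
        apply Finset.sum_congr rfl
        intro j _
        rw [ind_and]
      rw [← this, ← Finset.add_sum_erase N _ hi]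
      have : ind (P i ∧ P i) = ind (P i) := ind_congr (and_self_iff)
      rw [this]; ring
    rw [Finset.sum_congr rfl e3, Finset.sum_sub_distrib, ← Finset.sum_mul, e1]
    ring
  rw [e1, e2]
  rcases Nat.eq_zero_or_pos (N.filter P).card with h0 | h0
  · rw [h0]; simpa using ind_nonneg C
  · obtain ⟨i, hi⟩ := Finset.card_pos.1 h0
    rw [Finset.mem_filter] at hi
    rw [ind_true (h i hi.1 hi.2)]
    set n := (N.filter P).card
    rcases Nat.lt_or_ge n 2 with h2 | h2
    · have : n = 1 := by omega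
      rw [this]; norm_num
    · have h3 : (2 : ℝ) ≤ (n : ℝ) := by exact_mod_cast h2
      nlinarith

section
variable {p : ℝ} (h0 : 0 ≤ p) (h1 : p ≤ 1) {F : Finset (Sym2 V)} {o : V} {N : Finset V}
include h0 h1

theorem tau_off_ge (y v : V) :
    tau p F y v - tau p F y o * tau p F o v ≤ tau p (off o F) y v := by
  have e1 : tau p (off o F) y v = Pr p F (fun S => Conn (off o S) y v) :=
    (Pr_off p F o (fun S => Conn S y v)).symm
  have e2 : tau p F y v ≤ Pr p F (fun S => Conn (off o S) y v) +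
      Pr p F (DisjOcc (fun T => Conn T y o) (fun T => Conn T o v)) :=
    (Pr_mono h0 h1 (fun S _ h => conn_off_or o h)).trans (Pr_or_le h0 h1 F _ _)
  have e3 := bk h0 h1 F (Conn.monotone y o) (Conn.monotone o v)
  rw [e1]
  unfold tau at *
  linarith

theorem tau_star_ge (hN : ∀ y ∈ N, s(o, y) ∈ F) (hNo : o ∉ N) (v : V) :
    p * ∑ y ∈ N, tau p (off o F) y v -
      (p ^ 2 / 2) * ∑ y ∈ N, ∑ y' ∈ N.erase y,
        Pr p (off o F) (fun S => Conn S y v ∧ Conn S y' v) ≤ tau p F o v := by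
  have key : Ex p F (fun S => ∑ y ∈ N, ind ({s(o, y)} ⊆ S ∧ Conn (off o S) y v)
      - (1 / 2) * ∑ y ∈ N, ∑ y' ∈ N.erase y,
        ind ({s(o, y), s(o, y')} ⊆ S ∧ (Conn (off o S) y v ∧ Conn (off o S) y' v))) ≤
      tau p F o v := by
    apply Ex_mono h0 h1
    intro S _
    have := bonferroni_point N (fun y => {s(o, y)} ⊆ S ∧ Conn (off o S) y v) (Conn S o v) (by
      rintro y _ ⟨h2, h3⟩
      rw [Finset.singleton_subset_iff] at h2
      exact (Conn.of_mem h2).trans (Conn.mono (off_subset o S) h3))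
    refine le_trans (le_of_eq ?_) this
    congr 2
    apply Finset.sum_congr rfl
    intro y _
    apply Finset.sum_congr rfl
    intro y' _
    apply ind_congr
    simp only [Finset.insert_subset_iff, Finset.singleton_subset_iff]
    tauto
  refine le_trans (le_of_eq ?_) key
  rw [Ex_sub, Ex_mul_left, Ex_sum, Ex_sum]
  have e1 : ∀ y ∈ N, Ex p F (fun S => ind ({s(o, y)} ⊆ S ∧ Conn (off o S) y v)) =
      p * tau p (off o F) y v := by
    intro y hy
    have := Pr_star p (F := F) (K := {s(o, y)}) (o := o) (by simpa using hN y hy) (by simp)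
      (fun S => Conn S y v)
    unfold Pr at this
    rw [this]
    simp [tau, Pr]
  have e2 : ∀ y ∈ N, ∀ y' ∈ N.erase y, Ex p F (fun S => ind ({s(o, y), s(o, y')} ⊆ S ∧
      (Conn (off o S) y v ∧ Conn (off o S) y' v))) =
      p ^ 2 * Pr p (off o F) (fun S => Conn S y v ∧ Conn S y' v) := by
    intro y hy y' hy'
    have hne : y' ≠ y := Finset.ne_of_mem_erase hy'
    have hy'N := Finset.mem_of_mem_erase hy'
    have := Pr_star p (F := F) (K := {s(o, y), s(o, y')}) (o := o)
      (by
        intro e he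
        simp only [Finset.mem_insert, Finset.mem_singleton] at he
        rcases he with rfl | rfl
        · exact hN y hy
        · exact hN y' hy'N)
      (by
        intro e he
        simp only [Finset.mem_insert, Finset.mem_singleton] at he
        rcases he with rfl | rfl <;> simp)
      (fun S => Conn S y v ∧ Conn S y' v)
    unfold Pr at this
    rw [this]
    have hc : ({s(o, y), s(o, y')} : Finset (Sym2 V)).card = 2 := by
      apply Finset.card_pair
      intro h
      rw [Sym2.eq_iff] at h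
      rcases h with ⟨_, h⟩ | ⟨h, h'⟩
      · exact hne h.symm
      · exact hNo (h ▸ hy'N)
    rw [hc]
    rfl
  rw [Finset.sum_congr rfl e1]
  have e3 : ∑ y ∈ N, Ex p F (fun S => ∑ y' ∈ N.erase y, ind ({s(o, y), s(o, y')} ⊆ S ∧
      (Conn (off o S) y v ∧ Conn (off o S) y' v))) =
      ∑ y ∈ N, ∑ y' ∈ N.erase y, p ^ 2 * Pr p (off o F) (fun S => Conn S y v ∧ Conn S y' v) := by
    apply Finset.sum_congr rfl
    intro y hy
    rw [Ex_sum]
    exact Finset.sum_congr rfl (e2 y hy)
  rw [e3, ← Finset.mul_sum]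
  simp only [← Finset.mul_sum]
  ring

end

omit [DecidableEq V] in
theorem walk_end_mem {S : Set (Sym2 V)} {x y : V} (w : (SimpleGraph.fromEdgeSet S).Walk x y) :
    y = x ∨ ∃ e ∈ S, y ∈ e := by
  induction w with
  | nil => exact Or.inl rfl
  | @cons a b c hadj w ih =>
    right
    rcases ih with h | h
    · rw [sym2_adj_fromEdgeSet] at hadj
      exact ⟨s(a, b), hadj.1, by rw [h]; simp⟩
    · exact h

def verts (F : Finset (Sym2 V)) : Finset V := F.biUnion Sym2.toFinset

theorem mem_verts {F : Finset (Sym2 V)} {v : V} : v ∈ verts F ↔ ∃ e ∈ F, v ∈ e := by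
  simp [verts]

theorem conn_mem_verts {S F : Finset (Sym2 V)} (hS : S ⊆ F) {x y : V} (h : Conn S x y) :
    y ∈ insert x (verts F) := by
  obtain ⟨w⟩ := h
  rcases walk_end_mem w with h | ⟨e, he, hy⟩
  · rw [h]; exact Finset.mem_insert_self _ _
  · exact Finset.mem_insert_of_mem (mem_verts.2 ⟨e, hS (by exact_mod_cast he), hy⟩)

section
variable {p : ℝ} (h0 : 0 ≤ p) (h1 : p ≤ 1) (F : Finset (Sym2 V))
include h0 h1

theorem three_point (y y' v : V) :
    Pr p F (fun S => Conn S y v ∧ Conn S y' v) ≤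
      ∑ u ∈ insert y (verts F), tau p F y u * (tau p F u y' * tau p F u v) := by
  have e1 : Pr p F (fun S => Conn S y v ∧ Conn S y' v) ≤
      Pr p F (fun S => ∃ u ∈ insert y (verts F), DisjOcc (fun T => Conn T y u)
        (DisjOcc (fun T => Conn T u y') (fun T => Conn T u v)) S) := by
    apply Pr_mono h0 h1
    rintro S hS ⟨h2, h3⟩
    obtain ⟨u, hu, hd⟩ := tree_graph (h2.trans h3.symm) h2
    exact ⟨u, conn_mem_verts hS hu, hd⟩
  refine e1.trans ((Pr_exists_le h0 h1 F _ _).trans ?_)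
  apply Finset.sum_le_sum
  intro u _
  refine (bk h0 h1 F (Conn.monotone y u) DisjOcc.mono).trans ?_
  apply mul_le_mul_of_nonneg_left _ (Pr_nonneg h0 h1 _ _)
  exact bk h0 h1 F (Conn.monotone u y') (Conn.monotone u v)

end

/-- the one step lower bound for the susceptibility -/
theorem chi_ineq {p : ℝ} (h0 : 0 ≤ p) (h1 : p ≤ 1) {F : Finset (Sym2 V)} {o : V}
    {N W U : Finset V} (hN : ∀ y ∈ N, s(o, y) ∈ F) (hNo : o ∉ N) (ho : o ∈ W)
    (hU : verts F ⊆ U) :
    1 + p * ∑ y ∈ N, chiW p F W y - p * (∑ y ∈ N, tau p F y o) * chiW p F W o -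
      (p ^ 2 / 2) * (∑ y ∈ N, ∑ y' ∈ N, ∑ u ∈ U, tau p F y u * tau p F u y' * chiW p F W u)
      ≤ chiW p F W o := by
  have hyU : ∀ y ∈ N, insert y (verts F) ⊆ U := by
    intro y hy
    apply Finset.insert_subset _ hU
    exact hU (mem_verts.2 ⟨s(o, y), hN y hy, by simp⟩)
  have tnn := fun x y => tau_nonneg h0 h1 F x y
  -- pointwise bound
  have pt : ∀ v ∈ W, (if v = o then 1 else 0) +
      (p * ∑ y ∈ N, (tau p F y v - tau p F y o * tau p F o v) -
      (p ^ 2 / 2) * ∑ y ∈ N, ∑ y' ∈ N,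
        ∑ u ∈ U, tau p F y u * tau p F u y' * tau p F u v) ≤
      tau p F o v := by
    intro v _
    have hpair : ∀ y ∈ N, ∀ y' ∈ N.erase y,
        Pr p (off o F) (fun S => Conn S y v ∧ Conn S y' v) ≤
        ∑ u ∈ U, tau p F y u * tau p F u y' * tau p F u v := by
      intro y hy y' _
      have e1 : Pr p (off o F) (fun S => Conn S y v ∧ Conn S y' v) ≤
          Pr p F (fun S => Conn S y v ∧ Conn S y' v) := by
        apply Pr_mono_set h0 h1 (off_subset o F)
        intro S T hST h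
        exact ⟨Conn.mono hST h.1, Conn.mono hST h.2⟩
      refine e1.trans ((three_point h0 h1 F y y' v).trans ?_)
      calc ∑ u ∈ insert y (verts F), tau p F y u * (tau p F u y' * tau p F u v)
          ≤ ∑ u ∈ U, tau p F y u * (tau p F u y' * tau p F u v) := by
            apply Finset.sum_le_sum_of_subset_of_nonneg (hyU y hy)
            intro u _ _
            exact mul_nonneg (tnn _ _) (mul_nonneg (tnn _ _) (tnn _ _))
        _ = _ := by
            apply Finset.sum_congr rfl
            intro u _; ring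
    have hsum : ∑ y ∈ N, ∑ y' ∈ N.erase y, Pr p (off o F) (fun S => Conn S y v ∧ Conn S y' v) ≤
        ∑ y ∈ N, ∑ y' ∈ N,
        ∑ u ∈ U, tau p F y u * tau p F u y' * tau p F u v := by
      apply Finset.sum_le_sum
      intro y hy
      refine (Finset.sum_le_sum (fun y' hy' => hpair y hy y' hy')).trans ?_
      apply Finset.sum_le_sum_of_subset_of_nonneg (Finset.erase_subset y N)
      intro y' _ _
      apply Finset.sum_nonneg; intro u _
      exact mul_nonneg (mul_nonneg (tnn _ _) (tnn _ _)) (tnn _ _)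
    have hsum0 : 0 ≤ ∑ y ∈ N, ∑ y' ∈ N,
        ∑ u ∈ U, tau p F y u * tau p F u y' * tau p F u v := by
      apply Finset.sum_nonneg; intro y _
      apply Finset.sum_nonneg; intro y' _
      apply Finset.sum_nonneg; intro u _
      exact mul_nonneg (mul_nonneg (tnn _ _) (tnn _ _)) (tnn _ _)
    by_cases hv : v = o
    · subst hv
      rw [if_pos rfl, tau_self]
      have : ∑ y ∈ N, (tau p F y v - tau p F y v * 1) = 0 := by
        apply Finset.sum_eq_zero; intro y _; ring
      rw [this]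
      have : 0 ≤ p ^ 2 / 2 := by positivity
      nlinarith [mul_nonneg this hsum0]
    · rw [if_neg hv, zero_add]
      refine le_trans ?_ (tau_star_ge h0 h1 hN hNo v)
      have s1 : ∑ y ∈ N, (tau p F y v - tau p F y o * tau p F o v) ≤
          ∑ y ∈ N, tau p (off o F) y v :=
        Finset.sum_le_sum (fun y _ => tau_off_ge h0 h1 y v)
      have s2 := mul_le_mul_of_nonneg_left s1 h0
      have s3 := mul_le_mul_of_nonneg_left hsum (show 0 ≤ p ^ 2 / 2 by positivity)
      linarith
  have tot := Finset.sum_le_sum pt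
  rw [Finset.sum_add_distrib, Finset.sum_ite_eq' W o, if_pos ho, Finset.sum_sub_distrib,
    ← Finset.mul_sum, ← Finset.mul_sum] at tot
  have t1 : ∑ v ∈ W, ∑ y ∈ N, (tau p F y v - tau p F y o * tau p F o v) =
      ∑ y ∈ N, chiW p F W y - (∑ y ∈ N, tau p F y o) * chiW p F W o := by
    rw [Finset.sum_comm, Finset.sum_mul, ← Finset.sum_sub_distrib]
    apply Finset.sum_congr rfl
    intro y _
    rw [Finset.sum_sub_distrib, ← Finset.mul_sum]
    rfl
  have t2 : ∑ v ∈ W, ∑ y ∈ N, ∑ y' ∈ N,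
        ∑ u ∈ U, tau p F y u * tau p F u y' * tau p F u v =
      ∑ y ∈ N, ∑ y' ∈ N, ∑ u ∈ U, tau p F y u * tau p F u y' * chiW p F W u := by
    rw [Finset.sum_comm]
    apply Finset.sum_congr rfl
    intro y _
    rw [Finset.sum_comm]
    apply Finset.sum_congr rfl
    intro y' _
    rw [Finset.sum_comm]
    apply Finset.sum_congr rfl
    intro u _
    rw [← Finset.mul_sum]
    rfl
  rw [t1, t2] at tot
  have : chiW p F W o = ∑ v ∈ W, tau p F o v := rfl
  rw [← this] at tot
  nlinarith [tot]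

end Vale.Agent.P165
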