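import Vale.Agent.P165.Engine
import Vale.Agent.P165.Cheeger

namespace Vale.Agent.P165

open Finset SimpleGraph

variable {V : Type*} [DecidableEq V]

theorem num_z {δ z κ : ℝ} (hδ0 : 0 < δ) (hδ1 : δ ≤ 1) (hz : z = (1 + δ / 3) * (1 - δ))
    (hκ : κ = δ / 4) : 2 / 3 * δ ≤ 1 - z ∧ 5 / 12 * δ ≤ 1 - z * (1 + κ) := by
  subst hz hκ
  constructor
  · nlinarith [sq_nonneg δ]
  · nlinarith [sq_nonneg δ, mul_nonneg hδ0.le (sq_nonneg δ)]

theorem num_kap {δ B p Δ z κ : ℝ} (hδ0 : 0 < δ) (hδ1 : δ ≤ 1) (hB0 : 0 < B) (hp0 : 0 < p)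
    (hΔ : 0 < Δ) (hκ : κ = δ / 4) (hBδ : 72 * B ≤ δ ^ 3) (hpB : p ≤ 4 / 3 * B)
    (hp2 : p ^ 2 * Δ ≤ 16 / 9 * B) (hz1 : 2 / 3 * δ ≤ 1 - z)
    (hzκ : 5 / 12 * δ ≤ 1 - z * (1 + κ)) : kap p Δ z κ ≤ κ := by
  have hz1pos : 0 < 1 - z := by
    have : 0 < 2 / 3 * δ := by positivity
    linarith
  have hzκpos : 0 < 1 - z * (1 + κ) := by
    have : 0 < 5 / 12 * δ := by positivity
    linarith
  have hκ0 : 0 ≤ κ := by rw [hκ]; positivity
  have a1 : p ^ 2 * Δ / (1 - z) ≤ 8 / 3 * B / δ := by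
    calc p ^ 2 * Δ / (1 - z) ≤ 16 / 9 * B / (1 - z) :=
          div_le_div_of_nonneg_right hp2 hz1pos.le
      _ ≤ 16 / 9 * B / (2 / 3 * δ) := by
          apply div_le_div_of_nonneg_left (by positivity) (by positivity) hz1
      _ = 8 / 3 * B / δ := by field_simp; ring
  have a2 : (1 + κ) ≤ 5 / 4 := by rw [hκ]; linarith
  have a3 : (1 + κ) ^ 2 / (1 - z * (1 + κ)) ≤ 15 / 4 / δ := by
    calc (1 + κ) ^ 2 / (1 - z * (1 + κ)) ≤ (5 / 4) ^ 2 / (1 - z * (1 + κ)) := by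
          apply div_le_div_of_nonneg_right _ hzκpos.le
          exact pow_le_pow_left₀ (by linarith) a2 2
      _ ≤ (5 / 4) ^ 2 / (5 / 12 * δ) := by
          apply div_le_div_of_nonneg_left (by positivity) (by positivity) hzκ
      _ = 15 / 4 / δ := by field_simp; ring
  have a4 : 0 ≤ p ^ 2 * Δ / (1 - z) := by positivity
  have a5 : 0 ≤ (1 + κ) ^ 2 / (1 - z * (1 + κ)) := by positivity
  have a6 : (1 + κ) * (p + p ^ 2 * Δ / (1 - z)) ≤ 5 / 4 * (4 / 3 * B + 8 / 3 * B / δ) := by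
    apply mul_le_mul a2 (by linarith) (by positivity) (by norm_num)
  have a7 : p ^ 2 * Δ / (1 - z) * ((1 + κ) ^ 2 / (1 - z * (1 + κ))) ≤
      8 / 3 * B / δ * (15 / 4 / δ) := mul_le_mul a1 a3 a5 (by positivity)
  have a8 : kap p Δ z κ ≤ 8 / 3 * B / δ + (5 / 4 * (4 / 3 * B + 8 / 3 * B / δ) +
      8 / 3 * B / δ * (15 / 4 / δ)) := by
    unfold kap
    exact add_le_add a1 (add_le_add a6 a7)
  have a9 : 8 / 3 * B / δ + (5 / 4 * (4 / 3 * B + 8 / 3 * B / δ) +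
      8 / 3 * B / δ * (15 / 4 / δ)) = B * (10 + 6 * δ + 5 / 3 * δ ^ 2) / δ ^ 2 := by
    field_simp; ring
  rw [a9] at a8
  refine a8.trans ?_
  rw [hκ, div_le_iff₀ (by positivity)]
  have a10 : 10 + 6 * δ + 5 / 3 * δ ^ 2 ≤ 18 := by
    have : δ ^ 2 ≤ 1 := pow_le_one₀ hδ0.le hδ1
    linarith
  calc B * (10 + 6 * δ + 5 / 3 * δ ^ 2) ≤ B * 18 := mul_le_mul_of_nonneg_left a10 hB0.le
    _ ≤ δ / 4 * δ ^ 2 := by
        have : δ / 4 * δ ^ 2 = δ ^ 3 / 4 := by ring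
        rw [this]; linarith

theorem num_w {Δ w δ : ℝ} (hδ0 : 0 < δ) (hδ1 : δ ≤ 1) (hw0 : 0 < w) (hwΔ : w ≤ Δ)
    (hbig : 72 * Δ ≤ w ^ 2 * δ ^ 3) : 72 ≤ w := by
  have hδ3 : δ ^ 3 ≤ 1 := pow_le_one₀ hδ0.le hδ1
  have h1 : w ^ 2 * δ ^ 3 ≤ w ^ 2 * 1 := mul_le_mul_of_nonneg_left hδ3 (sq_nonneg w)
  have h2 : 72 * w ≤ w * w := by
    calc 72 * w ≤ 72 * Δ := by linarith
      _ ≤ w ^ 2 * 1 := hbig.trans h1
      _ = w * w := by ring
  exact le_of_mul_le_mul_right h2 hw0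

/-- numerical form of the engine -/
theorem criterion [Infinite V] {G : SimpleGraph V} (hconn : G.Connected) {nb : V → Finset V}
    (hnb : ∀ x y, y ∈ nb x ↔ G.Adj x y) {L : ℕ → Finset V} (hL : Exh L) (hqt : QT nb)
    {Δ w δ : ℝ} (hδ0 : 0 < δ) (hδ1 : δ ≤ 1) (hw0 : 0 < w) (hwΔ : w ≤ Δ)
    (hbig : 72 * Δ ≤ w ^ 2 * δ ^ 3)
    (hwk : ∀ n x y, wk nb (n + 2) x y ≤ Δ * (w * (1 - δ)) ^ n) (o : V)
    (hgrow : ∀ M : ℝ, ∃ n, M < ((1 + δ / 15) / w) ^ n * tw nb n o) : pc G < pu G := by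
  have hΔ : 0 < Δ := lt_of_lt_of_le hw0 hwΔ
  have hw72 : 72 ≤ w := num_w hδ0 hδ1 hw0 hwΔ hbig
  obtain ⟨p, hp⟩ : ∃ p, p = (1 + δ / 3) / w := ⟨_, rfl⟩
  obtain ⟨κ, hκ⟩ : ∃ κ, κ = δ / 4 := ⟨_, rfl⟩
  obtain ⟨B, hB⟩ : ∃ B, B = Δ / w ^ 2 := ⟨_, rfl⟩
  have hB0 : 0 < B := by rw [hB]; positivity
  have hBδ : 72 * B ≤ δ ^ 3 := by
    rw [hB, ← mul_div_assoc, div_le_iff₀ (by positivity), mul_comm (δ ^ 3)]
    exact hbig
  have hp0 : 0 < p := by rw [hp]; positivity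
  have hc : 1 + δ / 3 ≤ 4 / 3 := by linarith
  have hp1 : p < 1 := by
    rw [hp, div_lt_one hw0]; linarith
  have hpB : p ≤ 4 / 3 * B := by
    have h1 : 1 / w ≤ B := by
      rw [hB, div_le_div_iff₀ hw0 (by positivity)]
      calc 1 * w ^ 2 = w * w := by ring
        _ ≤ Δ * w := mul_le_mul_of_nonneg_right hwΔ hw0.le
    calc p = (1 + δ / 3) * (1 / w) := by rw [hp]; ring
      _ ≤ 4 / 3 * B := mul_le_mul hc h1 (by positivity) (by norm_num)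
  have hp2 : p ^ 2 * Δ ≤ 16 / 9 * B := by
    have h1 : p ^ 2 * Δ = (1 + δ / 3) ^ 2 * B := by
      rw [hp, hB]; field_simp
    rw [h1]
    have : (1 + δ / 3) ^ 2 ≤ (4 / 3) ^ 2 := pow_le_pow_left₀ (by positivity) hc 2
    apply mul_le_mul_of_nonneg_right _ hB0.le
    linarith
  have hz : p * (w * (1 - δ)) = (1 + δ / 3) * (1 - δ) := by
    rw [hp]; field_simp
  obtain ⟨hz1, hzκ⟩ := num_z hδ0 hδ1 hz hκ
  have hκ0 : 0 ≤ κ := by rw [hκ]; positivity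
  have hkap : kap p Δ (p * (w * (1 - δ))) κ ≤ κ :=
    num_kap hδ0 hδ1 hB0 hp0 hΔ hκ hBδ hpB hp2 hz1 hzκ
  have hzκ' : p * (w * (1 - δ)) * (1 + κ) < 1 := by
    have : 0 < 5 / 12 * δ := by positivity
    linarith
  refine engine hconn hnb hL hqt hΔ.le (mul_nonneg hw0.le (by linarith)) hwk hp0 hp1 hκ0
    hzκ' hkap o ?_
  intro M
  obtain ⟨n, hn⟩ := hgrow M
  refine ⟨n, lt_of_lt_of_le hn ?_⟩
  apply mul_le_mul_of_nonneg_right _ (tw_nonneg nb n o)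
  apply pow_le_pow_left₀ (by positivity)
  rw [hp, hκ, div_div, div_le_div_iff₀ (by positivity) (by positivity)]
  have h1 : (1 + δ / 15) * (1 + δ / 4) ≤ 1 + δ / 3 := by nlinarith
  calc (1 + δ / 15) * (w * (1 + δ / 4)) = w * ((1 + δ / 15) * (1 + δ / 4)) := by ring
    _ ≤ w * (1 + δ / 3) := mul_le_mul_of_nonneg_left h1 hw0.le
    _ = (1 + δ / 3) * w := by ring

omit [DecidableEq V] in
theorem tw_const {nb : V → Finset V} {D : ℝ} (hD : ∀ x, ((nb x).card : ℝ) = D) (n : ℕ) (x : V) :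
    tw nb n x = D ^ n := by
  induction n generalizing x with
  | zero => simp [tw]
  | succ n ih =>
    have e : tw nb (n + 1) x = ∑ z ∈ nb x, tw nb n z := rfl
    rw [e, Finset.sum_congr rfl (fun z _ => ih z), Finset.sum_const, nsmul_eq_mul, hD, pow_succ]
    ring

/-- regular quasi-transitive graphs with a spectral gap -/
theorem regular_criterion [Infinite V] {G : SimpleGraph V} (hconn : G.Connected)
    {nb : V → Finset V} (hnb : ∀ x y, y ∈ nb x ↔ G.Adj x y) {L : ℕ → Finset V} (hL : Exh L)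
    (hqt : QT nb) {D ρ : ℝ} (hD : ∀ x, ((nb x).card : ℝ) = D) (hρ0 : 0 ≤ ρ) (hρ1 : ρ < 1)
    (hbig : 72 ≤ D * (1 - ρ) ^ 3)
    (hQ : ∀ (U : Finset V) (f : V → ℝ), (∀ x, 0 ≤ f x) → ip U f (opT nb U f) ≤
      (ρ * D) * ip U f f) : pc G < pu G := by
  have hδ0 : 0 < 1 - ρ := by linarith
  have hδ3 : (1 - ρ) ^ 3 ≤ 1 := pow_le_one₀ hδ0.le (by linarith)
  have hDpos : 0 < D := by
    by_contra h
    push Not at h
    have : D * (1 - ρ) ^ 3 ≤ 0 := mul_nonpos_of_nonpos_of_nonneg h (by positivity)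
    linarith
  have hD72 : 72 ≤ D := by nlinarith
  obtain ⟨o⟩ := hconn.nonempty
  -- avoid zero spectral bound
  have hwk : ∀ n x y, wk nb (n + 2) x y ≤ D * (D * (1 - (1 - ρ))) ^ n := by
    intro n x y
    rcases eq_or_lt_of_le hρ0 with h | h
    · -- rho = 0 is impossible, but handle by a limiting argument
      have key : ∀ e : ℝ, 0 < e → wk nb (n + 2) x y ≤ D * e ^ n := by
        intro e he
        apply wk_le_of_quad (nb_symm hnb) he (fun x => le_of_eq (hD x))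
        intro U f hf
        refine (hQ U f hf).trans ?_
        have : 0 ≤ ip U f f := Finset.sum_nonneg (fun x _ => mul_self_nonneg _)
        rw [← h, zero_mul]
        nlinarith
      have h2 : Filter.Tendsto (fun e : ℝ => D * e ^ n) (nhdsWithin 0 (Set.Ioi 0))
          (nhds (D * 0 ^ n)) := by
        apply Filter.Tendsto.mono_left _ nhdsWithin_le_nhds
        exact ((continuous_const.mul (continuous_pow n)).tendsto 0)
      have h3 : D * (D * (1 - (1 - ρ))) ^ n = D * 0 ^ n := by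
        rw [← h]; congr 2; ring
      rw [h3]
      apply ge_of_tendsto h2
      filter_upwards [self_mem_nhdsWithin] with e he
      exact key e he
    · have e1 : D * (1 - (1 - ρ)) = ρ * D := by ring
      rw [e1]
      exact wk_le_of_quad (nb_symm hnb) (by positivity) (fun x => le_of_eq (hD x)) hQ n x y
  refine criterion hconn hnb hL hqt (Δ := D) (w := D) (δ := 1 - ρ) hδ0 (by linarith) hDpos
    (le_refl _) (by nlinarith) hwk o ?_
  intro M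
  have h1 : ∀ n, ((1 + (1 - ρ) / 15) / D) ^ n * tw nb n o = (1 + (1 - ρ) / 15) ^ n := by
    intro n
    rw [tw_const hD, div_pow, div_mul_cancel₀]
    positivity
  obtain ⟨n, hn⟩ := pow_unbounded_of_one_lt M (show 1 < 1 + (1 - ρ) / 15 by linarith)
  exact ⟨n, by rw [h1]; exact hn⟩

end Vale.Agent.P165
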