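import Vale.Agent.P165.Sharp

namespace Vale.Agent.P165

open Finset SimpleGraph Topology

variable {V : Type*} [DecidableEq V]

/-- probability that o is connected to the outside of L -/
noncomputable def theta (p : ℝ) (nb : V → Finset V) (L : Finset V) (o : V) : ℝ :=
  Pr p (eTouch nb L) (Esc L o)

theorem pivotal_eq (p : ℝ) (E : Finset (Sym2 V)) {A : Finset (Sym2 V) → Prop} (hA : Monotone A)
    {e : Sym2 V} (he : e ∈ E) :
    (1 - p) * Ex p (E.erase e) (fun S => ind (A (insert e S)) - ind (A S)) =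
      Ex p E (fun S => ind (¬ A S ∧ A (insert e S))) := by
  conv_rhs => rw [← Finset.insert_erase he]
  rw [Ex_insert p (Finset.notMem_erase e E)]
  have e1 : Ex p (E.erase e) (fun S => ind (¬ A (insert e S) ∧ A (insert e (insert e S)))) = 0 := by
    rw [Ex_congr p (g := fun _ => 0), Ex_const]
    intro S _
    apply ind_false
    rw [Finset.insert_idem]
    tauto
  rw [e1, mul_zero, add_zero]
  congr 1
  apply Ex_congr
  intro S _
  by_cases h1 : A S
  · have h2 : A (insert e S) := hA (Finset.subset_insert e S) h1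
    rw [ind_true h1, ind_true h2, ind_false (by tauto)]; ring
  · rw [ind_false h1, sub_zero]
    apply ind_congr
    tauto

section
variable {nb : V → Finset V} (hsymm : ∀ x y, y ∈ nb x → x ∈ nb y) {L : Finset V} {o : V}
  (ho : o ∈ L)
include hsymm

theorem pivotal_pairs (S : Finset (Sym2 V)) :
    ind (¬ Esc L o S) * (∑ a ∈ calS L S, ∑ _b ∈ nb a \ calS L S,
      ind (Conn (inside (calS L S) S) o a)) ≤
    ∑ e ∈ eTouch nb L, ind (¬ Esc L o S ∧ Esc L o (insert e S)) := by
  by_cases hE : Esc L o S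
  · rw [ind_false (fun h => h hE), zero_mul]
    exact Finset.sum_nonneg (fun _ _ => ind_nonneg _)
  · rw [ind_true hE, one_mul]
    set T := calS L S with hT
    rw [Finset.sum_sigma' T (fun a => nb a \ T)
      (fun a _ => ind (Conn (inside T S) o a))]
    have hinj : Set.InjOn (fun x : (Σ _ : V, V) => s(x.1, x.2))
        ((T.sigma (fun a => nb a \ T) : Finset (Σ _ : V, V)) : Set (Σ _ : V, V)) := by
      rintro ⟨a, b⟩ h1 ⟨a', b'⟩ h2 h3
      simp only [Finset.coe_sigma, Set.mem_sigma_iff, Finset.mem_coe, Finset.mem_sdiff] at h1 h2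
      simp only [Sym2.eq_iff] at h3
      rcases h3 with ⟨rfl, rfl⟩ | ⟨rfl, rfl⟩
      · rfl
      · exact absurd h1.1 h2.2.2
    calc ∑ x ∈ T.sigma (fun a => nb a \ T), ind (Conn (inside T S) o x.1)
        ≤ ∑ x ∈ T.sigma (fun a => nb a \ T),
          ind (¬ Esc L o S ∧ Esc L o (insert s(x.1, x.2) S)) := by
          apply Finset.sum_le_sum
          rintro ⟨a, b⟩ hx
          rw [Finset.mem_sigma, Finset.mem_sdiff] at hx
          apply ind_mono
          intro hc
          refine ⟨hE, ?_⟩
          have haL : a ∈ L := (mem_calS.1 hx.1).1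
          have hoa : Conn (insert s(a, b) S) o a :=
            Conn.mono ((inside_subset T S).trans (Finset.subset_insert _ _)) hc
          have hab : Conn (insert s(a, b) S) a b := Conn.of_mem (Finset.mem_insert_self _ _)
          by_cases hbL : b ∈ L
          · have hb : b ∉ calS L S := hx.2.2
            rw [mem_calS] at hb
            push Not at hb
            obtain ⟨v, hv, hc2⟩ := hb hbL
            exact ⟨v, hv, (hoa.trans hab).trans (Conn.mono (Finset.subset_insert _ _) hc2)⟩
          · exact ⟨b, hbL, hoa.trans hab⟩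
      _ = ∑ e ∈ (T.sigma (fun a => nb a \ T)).image (fun x : (Σ _ : V, V) => s(x.1, x.2)),
          ind (¬ Esc L o S ∧ Esc L o (insert e S)) := by
          rw [Finset.sum_image hinj]
      _ ≤ ∑ e ∈ eTouch nb L, ind (¬ Esc L o S ∧ Esc L o (insert e S)) := by
          apply Finset.sum_le_sum_of_subset_of_nonneg
          · intro e he
            rw [Finset.mem_image] at he
            obtain ⟨⟨a, b⟩, hx, rfl⟩ := he
            rw [Finset.mem_sigma, Finset.mem_sdiff] at hx
            exact (mem_eTouch hsymm).2 ⟨hx.2.1, Or.inl (mem_calS.1 hx.1).1⟩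
          · intro _ _ _; exact ind_nonneg _

theorem inside_eTouch {T : Finset V} (hTL : T ⊆ L) : inside T (eTouch nb L) = eIn nb T := by
  ext e
  induction e using Sym2.ind with
  | _ a b =>
    rw [mem_inside, mem_eTouch hsymm, mem_eIn hsymm]
    constructor
    · rintro ⟨⟨h1, _⟩, h3⟩
      exact ⟨h1, h3 a (by simp), h3 b (by simp)⟩
    · rintro ⟨h1, h2, h3⟩
      refine ⟨⟨h1, Or.inl (hTL h2)⟩, ?_⟩
      intro v hv
      rw [Sym2.mem_iff] at hv
      rcases hv with rfl | rfl
      · exact h2
      · exact h3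

theorem calS_indep (p : ℝ) {T : Finset V} (hTL : T ⊆ L) (a : V) :
    Ex p (eTouch nb L) (fun S => ind (calS L S = T) * ind (Conn (inside T S) o a)) =
      Pr p (eTouch nb L) (fun S => calS L S = T) * tau p (eIn nb T) o a := by
  set E := eTouch nb L with hE
  have h1 : E \ inside T E ⊆ E := Finset.sdiff_subset
  have h2 : inside T E ⊆ E := inside_subset T E
  have hd : Disjoint (E \ inside T E) (inside T E) := Finset.sdiff_disjoint
  rw [Ex_indep p h1 h2 hd]
  · have : Ex p E (fun S => ind (Conn (inside T S) o a)) = tau p (eIn nb T) o a := by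
      have := Pr_inside p E T (fun R => Conn R o a)
      unfold Pr at this
      rw [this, hE, inside_eTouch hsymm hTL]
      rfl
    rw [this]
    rfl
  · intro S hS
    apply ind_congr
    apply calS_eq_iff (Finset.inter_subset_left)
    intro e he hne v hv
    have : e ∈ inside T E := by
      by_contra hcon
      exact hne (Finset.mem_inter.2 ⟨he, Finset.mem_sdiff.2 ⟨hS he, hcon⟩⟩)
    exact (mem_inside.1 this).2 v hv
  · intro S hS
    rw [inside_inside T S E hS]

include ho in
theorem dct_deriv {p : ℝ} (h0 : 0 < p) (h1 : p < 1) {c : ℝ}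
    (hc : ∀ T ⊆ L, o ∈ T → c ≤ phi p nb T o) :
    (c / p) * (1 - theta p nb L o) ≤ (1 - p) * ∑ e ∈ eTouch nb L,
      Ex p ((eTouch nb L).erase e) (fun S => ind (Esc L o (insert e S)) - ind (Esc L o S)) := by
  set E := eTouch nb L with hE
  rw [Finset.mul_sum]
  have e1 : ∑ e ∈ E, (1 - p) * Ex p (E.erase e)
      (fun S => ind (Esc L o (insert e S)) - ind (Esc L o S)) =
      Ex p E (fun S => ∑ e ∈ E, ind (¬ Esc L o S ∧ Esc L o (insert e S))) := by
    rw [Ex_sum]
    apply Finset.sum_congr rfl
    intro e he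
    exact pivotal_eq p E Esc.mono he
  rw [e1]
  have e2 : Ex p E (fun S => ∑ T ∈ L.powerset.filter (fun T => o ∈ T),
      ∑ a ∈ T, ∑ _b ∈ nb a \ T, ind (calS L S = T) * ind (Conn (inside T S) o a)) ≤
      Ex p E (fun S => ∑ e ∈ E, ind (¬ Esc L o S ∧ Esc L o (insert e S))) := by
    apply Ex_mono h0.le h1.le
    intro S _
    refine le_trans ?_ (pivotal_pairs hsymm S)
    by_cases hE : Esc L o S
    · rw [ind_false (fun h => h hE), zero_mul]
      apply le_of_eq
      apply Finset.sum_eq_zero
      intro T hT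
      rw [Finset.mem_filter] at hT
      have : ¬ (calS L S = T) := by
        rintro rfl
        exact (mem_calS.1 hT.2).2 hE
      rw [ind_false this]
      simp
    · rw [ind_true hE, one_mul]
      have hoS : o ∈ calS L S := mem_calS.2 ⟨ho, hE⟩
      have hSmem : calS L S ∈ L.powerset.filter (fun T => o ∈ T) := by
        rw [Finset.mem_filter, Finset.mem_powerset]
        exact ⟨fun x hx => (mem_calS.1 hx).1, hoS⟩
      rw [Finset.sum_eq_single_of_mem _ hSmem]
      · apply le_of_eq
        apply Finset.sum_congr rfl; intro a _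
        apply Finset.sum_congr rfl; intro b _
        rw [ind_true rfl, one_mul]
      · intro T _ hne
        rw [ind_false (fun h => hne h.symm)]
        simp
  refine le_trans ?_ e2
  rw [Ex_sum]
  have e3 : ∀ T ∈ L.powerset.filter (fun T => o ∈ T),
      Ex p E (fun S => ∑ a ∈ T, ∑ _b ∈ nb a \ T,
        ind (calS L S = T) * ind (Conn (inside T S) o a)) =
      Pr p E (fun S => calS L S = T) * (phi p nb T o / p) := by
    intro T hT
    rw [Finset.mem_filter, Finset.mem_powerset] at hT
    rw [Ex_sum]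
    unfold phi
    rw [Finset.sum_div, Finset.mul_sum]
    apply Finset.sum_congr rfl; intro a _
    rw [Ex_sum, Finset.sum_div, Finset.mul_sum]
    apply Finset.sum_congr rfl; intro b _
    rw [calS_indep hsymm p hT.1 a]
    rw [mul_div_cancel_left₀ _ (ne_of_gt h0)]
  rw [Finset.sum_congr rfl e3]
  have e4 : ∑ T ∈ L.powerset.filter (fun T => o ∈ T), Pr p E (fun S => calS L S = T) =
      1 - theta p nb L o := by
    have : 1 - theta p nb L o = Ex p E (fun S => 1 - ind (Esc L o S)) := by
      rw [Ex_sub, Ex_const]; rfl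
    rw [this]
    unfold Pr
    rw [← Ex_sum]
    apply Ex_congr
    intro S _
    by_cases hE : Esc L o S
    · rw [ind_true hE, sub_self]
      apply Finset.sum_eq_zero
      intro T hT
      rw [Finset.mem_filter] at hT
      apply ind_false
      rintro rfl
      exact (mem_calS.1 hT.2).2 hE
    · rw [ind_false hE, sub_zero]
      have hoS : o ∈ calS L S := mem_calS.2 ⟨ho, hE⟩
      have hSmem : calS L S ∈ L.powerset.filter (fun T => o ∈ T) := by
        rw [Finset.mem_filter, Finset.mem_powerset]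
        exact ⟨fun x hx => (mem_calS.1 hx).1, hoS⟩
      rw [Finset.sum_eq_single_of_mem _ hSmem]
      · exact ind_true rfl
      · intro T _ hne
        exact ind_false (fun h => hne h.symm)
  rw [← e4, Finset.mul_sum]
  apply Finset.sum_le_sum
  intro T hT
  rw [Finset.mem_filter, Finset.mem_powerset] at hT
  have h3 : c / p ≤ phi p nb T o / p := by
    apply div_le_div_of_nonneg_right (hc T hT.1 hT.2) h0.le
  calc c / p * Pr p E (fun S => calS L S = T) ≤
      (phi p nb T o / p) * Pr p E (fun S => calS L S = T) :=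
        mul_le_mul_of_nonneg_right h3 (Pr_nonneg h0.le h1.le _ _)
    _ = _ := mul_comm _ _

end

theorem phi_mono_p {p q : ℝ} (h0 : 0 ≤ p) (hpq : p ≤ q) (h1 : q ≤ 1) (nb : V → Finset V)
    (T : Finset V) (o : V) : phi p nb T o ≤ phi q nb T o := by
  unfold phi
  apply Finset.sum_le_sum; intro a _
  apply Finset.sum_le_sum; intro b _
  apply mul_le_mul hpq (Pr_mono_p h0 hpq h1 (Conn.monotone o a))
    (tau_nonneg h0 (hpq.trans h1) _ _ _) (h0.trans hpq)

/-- the integrated Duminil-Copin Tassion inequality -/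
theorem theta_ge {nb : V → Finset V} (hsymm : ∀ x y, y ∈ nb x → x ∈ nb y) {L : Finset V}
    {o : V} (ho : o ∈ L) {p₀ p₁ : ℝ} (h0 : 0 < p₀) (h01 : p₀ ≤ p₁) (h1 : p₁ < 1)
    (hc : ∀ T ⊆ L, o ∈ T → 1 ≤ phi p₀ nb T o) :
    1 - (p₀ * (1 - p₁)) / (p₁ * (1 - p₀)) ≤ theta p₁ nb L o := by
  set E := eTouch nb L with hE
  set f := fun t : ℝ => Ex t E (fun S => ind (Esc L o S)) with hf
  set h := fun t : ℝ => (1 - f t) * (t / (1 - t)) with hh
  have hd : ∀ t ∈ Set.Icc p₀ p₁, HasDerivAt h
      (-(∑ e ∈ E, Ex t (E.erase e) (fun S => ind (Esc L o (insert e S)) - ind (Esc L o S))) *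
        (t / (1 - t)) + (1 - f t) * (1 / (1 - t) ^ 2)) t := by
    intro t ht
    have ht1 : (1 - t) ≠ 0 := by have := ht.2; linarith
    have d1 := (hasDerivAt_Ex E (fun S => ind (Esc L o S)) t).const_sub 1
    have d2 : HasDerivAt (fun t : ℝ => t / (1 - t)) (1 / (1 - t) ^ 2) t := by
      have := (hasDerivAt_id t).div ((hasDerivAt_id t).const_sub 1) ht1
      refine HasDerivAt.congr_deriv this ?_
      simp
    exact d1.mul d2
  have hanti : AntitoneOn h (Set.Icc p₀ p₁) := by
    apply antitoneOn_of_deriv_nonpos (convex_Icc _ _)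
    · intro t ht
      exact (hd t ht).continuousAt.continuousWithinAt
    · intro t ht
      rw [interior_Icc] at ht
      exact (hd t ⟨ht.1.le, ht.2.le⟩).differentiableAt.differentiableWithinAt
    · intro t ht
      rw [interior_Icc] at ht
      rw [(hd t ⟨ht.1.le, ht.2.le⟩).deriv]
      have ht0 : 0 < t := h0.trans ht.1
      have ht1 : t < 1 := ht.2.trans h1
      have key := dct_deriv hsymm ho ht0 ht1 (c := 1) (fun T hT hoT =>
        (hc T hT hoT).trans (phi_mono_p h0.le ht.1.le ht1.le nb T o))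
      set D := ∑ e ∈ E, Ex t (E.erase e) (fun S => ind (Esc L o (insert e S)) - ind (Esc L o S))
      have key' : (1 / t) * (1 - f t) ≤ (1 - t) * D := key
      have h1t : 0 < 1 - t := by linarith
      have : (1 - f t) * (1 / (1 - t) ^ 2) ≤ D * (t / (1 - t)) := by
        have := mul_le_mul_of_nonneg_right key' (show 0 ≤ t / (1 - t) ^ 2 by positivity)
        calc (1 - f t) * (1 / (1 - t) ^ 2) = (1 / t) * (1 - f t) * (t / (1 - t) ^ 2) := by
              field_simp
          _ ≤ (1 - t) * D * (t / (1 - t) ^ 2) := this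
          _ = D * (t / (1 - t)) := by field_simp
      linarith
  have hfin := hanti ⟨le_refl _, h01⟩ ⟨h01, le_refl _⟩ h01
  have hp1 : 0 < 1 - p₁ := by linarith
  have hp0 : 0 < 1 - p₀ := by linarith
  have hp1' : 0 < p₁ := by linarith
  have hf0 : 0 ≤ f p₀ := Pr_nonneg h0.le (by linarith) E (Esc L o)
  have e1 : h p₀ ≤ p₀ / (1 - p₀) := by
    have : h p₀ = (1 - f p₀) * (p₀ / (1 - p₀)) := rfl
    rw [this]
    have h3 : 0 ≤ p₀ / (1 - p₀) := by positivity
    nlinarith
  have e2 : (1 - f p₁) * (p₁ / (1 - p₁)) ≤ p₀ / (1 - p₀) := hfin.trans e1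
  have e3 : 1 - f p₁ ≤ (p₀ * (1 - p₁)) / (p₁ * (1 - p₀)) := by
    have := mul_le_mul_of_nonneg_right e2 (show 0 ≤ (1 - p₁) / p₁ by positivity)
    calc 1 - f p₁ = (1 - f p₁) * (p₁ / (1 - p₁)) * ((1 - p₁) / p₁) := by field_simp
      _ ≤ p₀ / (1 - p₀) * ((1 - p₁) / p₁) := this
      _ = _ := by field_simp
  have : theta p₁ nb L o = f p₁ := rfl
  rw [this]; linarith

end Vale.Agent.P165
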