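import Mathlib.Probability.Distributions.SetBernoulli
import Mathlib.Combinatorics.SimpleGraph.Metric
import Mathlib.Data.Set.Card

namespace Vale.Agent.P165

variable {V : Type*}

/-- Number of infinite clusters of the open subgraph with edge set `ω`. -/
noncomputable def numInf (ω : Set (Sym2 V)) : ℕ∞ :=
  Set.encard {c : (SimpleGraph.fromEdgeSet ω).ConnectedComponent | c.supp.Infinite}

/-- `p_c(G) = inf {p : P_p(N_∞ ≥ 1) > 0}` for Bernoulli bond percolation on `G`. -/
noncomputable def pc (G : SimpleGraph V) : ℝ :=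
  sInf {p : ℝ | ∃ q : unitInterval, (q : ℝ) = p ∧
    0 < ProbabilityTheory.setBernoulli G.edgeSet q {ω | 1 ≤ numInf ω}}

/-- `p_u(G) = inf {p : P_p(N_∞ = 1) = 1}` for Bernoulli bond percolation on `G`. -/
noncomputable def pu (G : SimpleGraph V) : ℝ :=
  sInf {p : ℝ | ∃ q : unitInterval, (q : ℝ) = p ∧
    ProbabilityTheory.setBernoulli G.edgeSet q {ω | numInf ω = 1} = 1}

/-- The `k`-th power of `G`: distinct vertices at graph distance at most `k` are adjacent. -/
def powerGraph (G : SimpleGraph V) (k : ℕ) : SimpleGraph V where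
  Adj x y := x ≠ y ∧ G.edist x y ≤ k
  symm := ⟨fun x y h => ⟨h.1.symm, by rw [SimpleGraph.edist_comm]; exact h.2⟩⟩
  loopless := ⟨fun _ h => h.1 rfl⟩

/-- `G` is quasi-transitive: the automorphism group has finitely many orbits on vertices. -/
def IsQuasiTransitive (G : SimpleGraph V) : Prop :=
  ∃ R : Set V, R.Finite ∧ ∀ x, ∃ r ∈ R, ∃ φ : G ≃g G, φ r = x

/-- `G` is nonamenable: `h_V(G) > 0`, that is, for some `h > 0` every finite set `A` of
vertices has at least `h * |A|` vertices outside `A` with a neighbour in `A`. -/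
def IsNonamenable (G : SimpleGraph V) : Prop :=
  ∃ h : ℝ, 0 < h ∧ ∀ A : Set V, A.Finite →
    h * (A.ncard : ℝ) ≤ ({w | w ∉ A ∧ ∃ v ∈ A, G.Adj v w}.ncard : ℝ)

end Vale.Agent.P165
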