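import Vale.Agent.P165.Boot

namespace Vale.Agent.P165

open Finset SimpleGraph Topology

variable {V : Type*} [DecidableEq V]

theorem continuous_Ex {α : Type*} [DecidableEq α] (F : Finset α) (f : Finset α → ℝ) :
    Continuous (fun t => Ex t F f) := by
  rw [continuous_iff_continuousAt]
  intro t
  exact (hasDerivAt_Ex F f t).continuousAt

theorem continuous_chiW (F : Finset (Sym2 V)) (W : Finset V) (x : V) :
    Continuous (fun t => chiW t F W x) := by
  unfold chiW tau Pr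
  exact continuous_finsetSum _ (fun v _ => continuous_Ex F _)

theorem one_le_chiW {p : ℝ} (h0 : 0 ≤ p) (h1 : p ≤ 1) (F : Finset (Sym2 V)) {W : Finset V}
    {x : V} (hx : x ∈ W) : 1 ≤ chiW p F W x := by
  unfold chiW
  rw [← tau_self p F x]
  exact Finset.single_le_sum (f := fun v => tau p F x v)
    (fun v _ => tau_nonneg h0 h1 F x v) hx

theorem kap_mono {t p Δ σ κ : ℝ} (ht : 0 ≤ t) (htp : t ≤ p) (hΔ : 0 ≤ Δ) (hσ : 0 ≤ σ)
    (hκ0 : 0 ≤ κ) (hz1 : p * σ * (1 + κ) < 1) : kap t Δ (t * σ) κ ≤ kap p Δ (p * σ) κ := by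
  have h0 : 0 ≤ p := ht.trans htp
  have hz : p * σ < 1 := by nlinarith [mul_nonneg h0 hσ]
  have a1 : 0 < 1 - p * σ := by linarith
  have a2 : 1 - p * σ ≤ 1 - t * σ := by nlinarith
  have a3 : 0 < 1 - p * σ * (1 + κ) := by linarith
  have a4 : 1 - p * σ * (1 + κ) ≤ 1 - t * σ * (1 + κ) := by
    have : t * σ ≤ p * σ := mul_le_mul_of_nonneg_right htp hσ
    nlinarith
  have b1 : t ^ 2 * Δ / (1 - t * σ) ≤ p ^ 2 * Δ / (1 - p * σ) := by
    apply div_le_div₀ _ _ a1 a2
    · positivity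
    · apply mul_le_mul_of_nonneg_right _ hΔ
      exact pow_le_pow_left₀ ht htp 2
  have b0 : 0 ≤ t ^ 2 * Δ / (1 - t * σ) := by
    apply div_nonneg (by positivity); linarith
  have b2 : (1 + κ) ^ 2 / (1 - t * σ * (1 + κ)) ≤ (1 + κ) ^ 2 / (1 - p * σ * (1 + κ)) :=
    div_le_div_of_nonneg_left (by positivity) a3 a4
  have b3 : 0 ≤ (1 + κ) ^ 2 / (1 - t * σ * (1 + κ)) := by
    apply div_nonneg (by positivity); linarith
  unfold kap
  have b4 := mul_le_mul b1 b2 b3 (b0.trans b1)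
  have b5 : (1 + κ) * (t + t ^ 2 * Δ / (1 - t * σ)) ≤ (1 + κ) * (p + p ^ 2 * Δ / (1 - p * σ)) := by
    apply mul_le_mul_of_nonneg_left _ (by linarith)
    linarith
  linarith

section
variable {p : ℝ} (h0 : 0 ≤ p) (h1 : p ≤ 1) {nb : V → Finset V} {F : Finset (Sym2 V)}
  (hF : ∀ x y, s(x, y) ∈ F → y ∈ nb x) {W : Finset V} (hW : verts F ⊆ W)
  (hirr : ∀ x, x ∉ nb x) {Δ σ κ : ℝ} (hΔ : 0 ≤ Δ) (hσ : 0 ≤ σ)
  (hwk : ∀ n x y, wk nb (n + 2) x y ≤ Δ * σ ^ n) (hκ0 : 0 ≤ κ)
  (hz1 : p * σ * (1 + κ) < 1) (hkap : kap p Δ (p * σ) κ ≤ κ)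
include h0 h1 hF hW hirr hΔ hσ hwk hκ0 hz1 hkap

theorem boot_all (x : V) (hx : x ∈ W) :
    p * ∑ y ∈ nbF nb F x, chiW p F W y ≤ (1 + κ) * chiW p F W x := by
  set S : Set ℝ := {t | ∀ x ∈ W, t * ∑ y ∈ nbF nb F x, chiW t F W y ≤ (1 + κ) * chiW t F W x}
    with hS
  have hcl : IsClosed S := by
    have : S = ⋂ x ∈ W, {t : ℝ | t * ∑ y ∈ nbF nb F x, chiW t F W y ≤
        (1 + κ) * chiW t F W x} := by
      ext t; simp [hS]
    rw [this]
    apply isClosed_biInter
    intro x _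
    apply isClosed_le
    · exact continuous_id.mul (continuous_finsetSum _ (fun y _ => continuous_chiW F W y))
    · exact continuous_const.mul (continuous_chiW F W x)
  have hsub : Set.Icc 0 p ⊆ S := by
    apply IsClosed.Icc_subset_of_forall_mem_nhdsWithin (hcl.inter isClosed_Icc)
    · intro x hx
      have := Finset.sum_nonneg (s := W) (f := fun v => tau 0 F x v)
        (fun v _ => tau_nonneg (le_refl 0) zero_le_one F x v)
      rw [zero_mul]
      apply mul_nonneg (by linarith)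
      exact this
    · rintro t ⟨htS, ht0, htp⟩
      have hz1t : t * σ * (1 + κ) < 1 := by
        have : t * σ ≤ p * σ := mul_le_mul_of_nonneg_right htp.le hσ
        nlinarith
      have ht1 : t ≤ 1 := htp.le.trans h1
      have hk : kap t Δ (t * σ) κ ≤ κ := (kap_mono ht0 htp.le hΔ hσ hκ0 hz1).trans hkap
      have strict : ∀ x ∈ W, t * ∑ y ∈ nbF nb F x, chiW t F W y < (1 + κ) * chiW t F W x := by
        intro x hx
        have := boot_step ht0 ht1 hF hW hirr hΔ hσ hwk hκ0 hz1t htS x hx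
        have hX := one_le_chiW ht0 ht1 F hx
        have : (1 + kap t Δ (t * σ) κ) * chiW t F W x ≤ (1 + κ) * chiW t F W x :=
          mul_le_mul_of_nonneg_right (by linarith) (by linarith)
        linarith
      apply mem_nhdsWithin_of_mem_nhds
      have : ∀ x ∈ W, {t : ℝ | t * ∑ y ∈ nbF nb F x, chiW t F W y ≤
          (1 + κ) * chiW t F W x} ∈ 𝓝 t := by
        intro x hx
        have ho : IsOpen {t : ℝ | t * ∑ y ∈ nbF nb F x, chiW t F W y <
          (1 + κ) * chiW t F W x} := by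
          apply isOpen_lt
          · exact continuous_id.mul (continuous_finsetSum _ (fun y _ => continuous_chiW F W y))
          · exact continuous_const.mul (continuous_chiW F W x)
        apply Filter.mem_of_superset (ho.mem_nhds (strict x hx))
        intro s hs
        rw [Set.mem_ofPred_eq] at hs ⊢
        exact le_of_lt hs
      have h2 : (⋂ x ∈ W, {t : ℝ | t * ∑ y ∈ nbF nb F x, chiW t F W y ≤
          (1 + κ) * chiW t F W x}) ∈ 𝓝 t := (Filter.biInter_finset_mem W).2 this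
      apply Filter.mem_of_superset h2
      intro s hs x hx
      simp only [Set.mem_iInter] at hs
      exact hs x hx
  exact hsub ⟨h0, le_refl p⟩ x hx
end

/-- total number of walks of length n from x -/
noncomputable def tw (nb : V → Finset V) : ℕ → V → ℝ
  | 0, _ => 1
  | (n + 1), x => ∑ z ∈ nb x, tw nb n z

omit [DecidableEq V] in
theorem tw_nonneg (nb : V → Finset V) (n : ℕ) (x : V) : 0 ≤ tw nb n x := by
  induction n generalizing x with
  | zero => exact zero_le_one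
  | succ n ih => exact Finset.sum_nonneg (fun z _ => ih z)

theorem tw_le_chi {p : ℝ} (h0 : 0 ≤ p) (h1 : p ≤ 1) {nb : V → Finset V} {F : Finset (Sym2 V)}
    {W : Finset V} (hW : verts F ⊆ W) {κ : ℝ} (hκ0 : 0 ≤ κ)
    (hκ : ∀ x ∈ W, p * ∑ y ∈ nbF nb F x, chiW p F W y ≤ (1 + κ) * chiW p F W x)
    (n : ℕ) (x : V) (hx : x ∈ W) :
    p ^ n * tw (nbF nb F) n x ≤ (1 + κ) ^ n * chiW p F W x := by
  induction n generalizing x with
  | zero =>
    have : tw (nbF nb F) 0 x = 1 := rfl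
    rw [this]; simpa using one_le_chiW h0 h1 F hx
  | succ n ih =>
    have e : tw (nbF nb F) (n + 1) x = ∑ z ∈ nbF nb F x, tw (nbF nb F) n z := rfl
    rw [e]
    calc p ^ (n + 1) * ∑ z ∈ nbF nb F x, tw (nbF nb F) n z
        = p * ∑ z ∈ nbF nb F x, p ^ n * tw (nbF nb F) n z := by
          rw [← Finset.mul_sum, pow_succ]; ring
      _ ≤ p * ∑ z ∈ nbF nb F x, (1 + κ) ^ n * chiW p F W z :=
          mul_le_mul_of_nonneg_left
            (Finset.sum_le_sum (fun z hz => ih z (nbF_mem_W hW hz))) h0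
      _ = (1 + κ) ^ n * (p * ∑ z ∈ nbF nb F x, chiW p F W z) := by
          rw [← Finset.mul_sum]; ring
      _ ≤ (1 + κ) ^ n * ((1 + κ) * chiW p F W x) :=
          mul_le_mul_of_nonneg_left (hκ x hx) (by positivity)
      _ = (1 + κ) ^ (n + 1) * chiW p F W x := by rw [pow_succ]; ring

/-- a finite edge set of G is large enough to see all walks of length n from x -/
theorem exists_edges_tw {nb : V → Finset V} (hsymm : ∀ x y, y ∈ nb x → x ∈ nb y) (n : ℕ) (x : V) :
    ∃ F₀ : Finset (Sym2 V), (∀ x y, s(x, y) ∈ F₀ → y ∈ nb x) ∧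
      ∀ F, F₀ ⊆ F → tw (nbF nb F) n x = tw nb n x := by
  induction n generalizing x with
  | zero => exact ⟨∅, by simp, fun F _ => rfl⟩
  | succ n ih =>
    choose f hf1 hf2 using ih
    refine ⟨(nb x).image (fun y => s(x, y)) ∪ (nb x).biUnion f, ?_, ?_⟩
    · intro a b hab
      rw [Finset.mem_union] at hab
      rcases hab with h | h
      · rw [Finset.mem_image] at h
        obtain ⟨y, hy, h⟩ := h
        rw [Sym2.eq_iff] at h
        rcases h with ⟨rfl, rfl⟩ | ⟨rfl, rfl⟩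
        · exact hy
        · exact hsymm _ _ hy
      · rw [Finset.mem_biUnion] at h
        obtain ⟨z, _, h⟩ := h
        exact hf1 z a b h
    · intro F hF
      have e : nbF nb F x = nb x := by
        apply Finset.filter_true_of_mem
        intro y hy
        apply hF
        rw [Finset.mem_union]
        exact Or.inl (Finset.mem_image_of_mem _ hy)
      have e1 : tw (nbF nb F) (n + 1) x = ∑ z ∈ nbF nb F x, tw (nbF nb F) n z := rfl
      have e2 : tw nb (n + 1) x = ∑ z ∈ nb x, tw nb n z := rfl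
      rw [e1, e2, e]
      apply Finset.sum_congr rfl
      intro z hz
      apply hf2 z F
      intro s hs
      apply hF
      rw [Finset.mem_union]
      exact Or.inr (Finset.mem_biUnion.2 ⟨z, hz, hs⟩)

/-- the susceptibility diverges -/
theorem chi_unbounded {p : ℝ} (h0 : 0 ≤ p) (h1 : p ≤ 1) {nb : V → Finset V}
    (hsymm : ∀ x y, y ∈ nb x → x ∈ nb y) (hirr : ∀ x, x ∉ nb x) {Δ σ κ : ℝ} (hΔ : 0 ≤ Δ)
    (hσ : 0 ≤ σ) (hwk : ∀ n x y, wk nb (n + 2) x y ≤ Δ * σ ^ n) (hκ0 : 0 ≤ κ)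
    (hz1 : p * σ * (1 + κ) < 1) (hkap : kap p Δ (p * σ) κ ≤ κ) (o : V)
    (hgrow : ∀ M : ℝ, ∃ n, M < (p / (1 + κ)) ^ n * tw nb n o) (M : ℝ) :
    ∃ (F : Finset (Sym2 V)) (W : Finset V), (∀ x y, s(x, y) ∈ F → y ∈ nb x) ∧
      M < chiW p F W o := by
  obtain ⟨n, hn⟩ := hgrow M
  obtain ⟨F, hF, hF2⟩ := exists_edges_tw hsymm n o
  refine ⟨F, insert o (verts F), hF, lt_of_lt_of_le hn ?_⟩
  have hW : verts F ⊆ insert o (verts F) := Finset.subset_insert _ _
  have key := tw_le_chi h0 h1 hW hκ0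
    (fun x hx => boot_all h0 h1 hF hW hirr hΔ hσ hwk hκ0 hz1 hkap x hx) n o
    (Finset.mem_insert_self _ _)
  rw [hF2 F (Finset.Subset.refl _)] at key
  have hpos : 0 < (1 + κ) ^ n := by positivity
  rw [div_pow, div_mul_eq_mul_div, div_le_iff₀ hpos]
  linarith

end Vale.Agent.P165
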