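import Vale.Agent.P165.InfVol

namespace Vale.Agent.P165

open Finset SimpleGraph MeasureTheory ProbabilityTheory

variable {V : Type*} [DecidableEq V]

section
variable {G : SimpleGraph V} {nb : V → Finset V} (hnb : ∀ x y, y ∈ nb x ↔ G.Adj x y)
  {L : ℕ → Finset V} (hL : Exh L) (hqt : QT nb)
include hnb hL hqt

theorem pc_le_of_unbounded {p₀ p₁ : ℝ} (h0 : 0 < p₀) (h01 : p₀ < p₁) (h1 : p₁ < 1) (o : V)
    (hub : ∀ M : ℝ, ∃ (F : Finset (Sym2 V)) (W : Finset V), (∀ x y, s(x, y) ∈ F → y ∈ nb x) ∧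
      M < chiW p₀ F W o) : pc G ≤ p₁ := by
  obtain ⟨x, hx⟩ := exists_phi_ge (nb_symm hnb) hqt h0.le (by linarith) o hub
  set δ := 1 - (p₀ * (1 - p₁)) / (p₁ * (1 - p₀)) with hδ
  have hp1 : 0 < p₁ := h0.trans h01
  have hδpos : 0 < δ := by
    rw [hδ, sub_pos, div_lt_one (mul_pos hp1 (by linarith))]
    nlinarith
  have hq : p₁ ∈ unitInterval := ⟨hp1.le, h1.le⟩
  have key := exists_inf_pos hnb (⟨p₁, hq⟩ : unitInterval) hL hδpos x (by
    intro K hK
    exact theta_ge (nb_symm hnb) hK h0 h01.le h1 (fun T _ hT => hx T hT))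
  apply csInf_le
  · refine ⟨0, ?_⟩
    rintro _ ⟨q, rfl, _⟩
    exact q.2.1
  · exact ⟨⟨p₁, hq⟩, rfl, key⟩

end

theorem theta_zero (nb : V → Finset V) (K : Finset V) {x : V} (hx : x ∈ K) :
    theta 0 nb K x = 0 := by
  unfold theta Pr Ex
  apply Finset.sum_eq_zero
  intro S _
  rcases S.eq_empty_or_nonempty with rfl | hS
  · beta_reduce
    rw [ind_false]
    · simp
    · rintro ⟨v, hv, hc⟩
      have := conn_mem_verts (Finset.Subset.refl _) hc
      simp only [verts, Finset.biUnion_empty, Finset.mem_insert, Finset.notMem_empty,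
        or_false] at this
      exact hv (this ▸ hx)
  · have : S.card ≠ 0 := Finset.card_ne_zero.2 hS
    rw [zero_pow this]; ring

theorem theta_neighbor {nb : V → Finset V} (hsymm : ∀ x y, y ∈ nb x → x ∈ nb y) {q : ℝ}
    (h0 : 0 ≤ q) (h1 : q ≤ 1) {x y : V} (hxy : y ∈ nb x) {δ : ℝ} (hδ1 : δ ≤ 1)
    (hx : ∀ K : Finset V, x ∈ K → δ ≤ theta q nb K x) (K : Finset V) (hy : y ∈ K) :
    q * δ ≤ theta q nb K y := by
  have he : s(x, y) ∈ eTouch nb K := (mem_eTouch hsymm).2 ⟨hxy, Or.inr hy⟩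
  have hmem : Pr q (eTouch nb K) (fun S => s(x, y) ∈ S) = q := by
    have := Ex_subset_event q (F := eTouch nb K) (K := {s(x, y)}) (by simpa using he)
    have h2 : Pr q (eTouch nb K) (fun S => s(x, y) ∈ S) =
        Ex q (eTouch nb K) (fun S => ind ({s(x, y)} ⊆ S)) := by
      unfold Pr
      apply Ex_congr
      intro S _
      apply ind_congr
      simp
    rw [h2, this]; simp
  by_cases hxK : x ∈ K
  · have hh := Ex_harris h0 h1 (eTouch nb K) (f := fun S => ind (s(x, y) ∈ S))
      (g := fun S => ind (Esc K x S)) (fun S T hST => ind_mono (fun h => hST h))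
      (fun S T hST => ind_mono (Esc.mono hST))
    have h4 : Ex q (eTouch nb K) (fun S => ind (s(x, y) ∈ S) * ind (Esc K x S)) ≤
        theta q nb K y := by
      apply Ex_mono h0 h1
      intro S _
      rw [← ind_and]
      apply ind_mono
      rintro ⟨h5, v, hv, hc⟩
      exact ⟨v, hv, (Conn.of_mem h5).symm.trans hc⟩
    refine le_trans ?_ (hh.trans h4)
    have h6 : Ex q (eTouch nb K) (fun S => ind (s(x, y) ∈ S)) = q := hmem
    rw [h6]
    exact mul_le_mul_of_nonneg_left (hx K hxK) h0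
  · have h7 : Pr q (eTouch nb K) (fun S => s(x, y) ∈ S) ≤ theta q nb K y := by
      apply Pr_mono h0 h1
      intro S _ h5
      exact ⟨x, hxK, (Conn.of_mem h5).symm⟩
    rw [hmem] at h7
    nlinarith

section
variable {G : SimpleGraph V} {nb : V → Finset V} (hnb : ∀ x y, y ∈ nb x ↔ G.Adj x y)
  {L : ℕ → Finset V} (hL : Exh L) (hqt : QT nb) (hconn : G.Connected)
include hnb hL hqt hconn

theorem exists_uniform_theta {q : ℝ} (h0 : 0 < q) (h1 : q ≤ 1) {x : V} {δ : ℝ} (hδ : 0 < δ)
    (hδ1 : δ ≤ 1) (hx : ∀ K : Finset V, x ∈ K → δ ≤ theta q nb K x) :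
    ∃ δ' > 0, ∀ (y : V) (K : Finset V), y ∈ K → δ' ≤ theta q nb K y := by
  have hsymm := nb_symm hnb
  have all : ∀ y, ∃ d, 0 < d ∧ d ≤ 1 ∧ ∀ K : Finset V, y ∈ K → d ≤ theta q nb K y := by
    intro y
    obtain ⟨w⟩ := hconn.preconnected y x
    induction w with
    | nil => exact ⟨δ, hδ, hδ1, hx⟩
    | @cons a b c hab w ih =>
      obtain ⟨d, hd0, hd1, hd⟩ := ih hx
      refine ⟨q * d, by positivity, by nlinarith, ?_⟩
      intro K hK
      exact theta_neighbor hsymm h0.le h1 ((hnb b a).2 hab.symm) hd1 hd K hK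
  choose d hd0 _ hd using all
  obtain ⟨R, hR⟩ := hqt
  have hRne : R.Nonempty := by
    obtain ⟨r, hr, _⟩ := hR x
    exact ⟨r, hr⟩
  obtain ⟨r₀, _, hmin⟩ := Finset.exists_min_image R d hRne
  refine ⟨d r₀, hd0 r₀, ?_⟩
  intro y K hK
  obtain ⟨r, hr, φ, hφ, rfl⟩ := hR y
  have hφ' : ∀ x y, φ.symm y ∈ nb (φ.symm x) ↔ y ∈ nb x := by
    intro x y
    rw [← hφ]; simp
  have e := theta_map hφ' hsymm q K (φ r)
  rw [← e]
  refine (hmin r hr).trans ?_
  have := hd r (K.map φ.symm.toEmbedding) (by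
    rw [Finset.mem_map]
    exact ⟨φ r, hK, by simp⟩)
  simpa using this

theorem not_unique (q : unitInterval)
    (hdec : ∀ ε > 0, ∃ x y, ∀ n, tau q (eIn nb (L n)) x y ≤ ε) :
    setBernoulli G.edgeSet q {ω | numInf ω = 1} ≠ 1 := by
  intro hone
  have hc := hL.countable
  set P := setBernoulli G.edgeSet q with hP
  -- some vertex is in an infinite cluster
  have hpos : ∃ x, 0 < P.real (Kinf x) := by
    by_contra hcon
    push Not at hcon
    have hz : ∀ x, P (Kinf x) = 0 := by
      intro x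
      have h1 := le_antisymm (hcon x) measureReal_nonneg
      rwa [measureReal_eq_zero_iff] at h1
    have hz2 : P (⋃ x : V, Kinf x) = 0 := by
      rw [measure_iUnion_null_iff]; exact hz
    have hsub : {ω : Set (Sym2 V) | numInf ω = 1} ⊆ ⋃ x : V, Kinf x := by
      intro ω hω
      have hω' : numInf ω = 1 := hω
      obtain ⟨x, hx⟩ := numInf_pos_iff.1 (le_of_eq hω'.symm)
      exact Set.mem_iUnion.2 ⟨x, hx⟩
    have := measure_mono hsub (μ := P)
    rw [hone, hz2] at this
    exact absurd this (by simp)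
  obtain ⟨x₀, hx₀⟩ := hpos
  have hx₀1 : P.real (Kinf x₀) ≤ 1 := measureReal_le_one
  have hth : ∀ K : Finset V, x₀ ∈ K → P.real (Kinf x₀) ≤ theta q nb K x₀ :=
    fun K hK => theta_ge_Kinf hnb q hL x₀ K hK
  have hq0 : 0 < (q : ℝ) := by
    rcases eq_or_lt_of_le q.2.1 with h | h
    · exfalso
      have h2 := hth {x₀} (Finset.mem_singleton_self _)
      have h3 : theta q nb {x₀} x₀ = 0 := by
        have : (q : ℝ) = 0 := h.symm
        rw [this]
        exact theta_zero nb _ (Finset.mem_singleton_self _)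
      linarith
    · exact h
  obtain ⟨δ, hδ, hδall⟩ := exists_uniform_theta hnb hL hqt hconn hq0 q.2.2 hx₀ hx₀1 hth
  obtain ⟨x, y, hxy⟩ := hdec (δ * δ / 2) (by positivity)
  have hR := Rch_le hnb q hL x y hxy
  have hK := Kinf_inter_ge hnb q hL hδ.le x y (hδall x) (hδall y)
  -- the difference is null
  have hB : P ((Kinf x ∩ Kinf y) \ Rch x y) = 0 := by
    have hmeas : MeasurableSet ((Kinf x ∩ Kinf y) \ Rch x y) :=
      ((measurable_Kinf hL x).inter (measurable_Kinf hL y)).diff (measurable_Rch hL x y)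
    have hsub : {ω : Set (Sym2 V) | numInf ω = 1} ⊆ ((Kinf x ∩ Kinf y) \ Rch x y)ᶜ := by
      intro ω hω hcon
      exact hcon.2 (unique_reach hω hcon.1.1 hcon.1.2)
    have h1 : 1 ≤ P (((Kinf x ∩ Kinf y) \ Rch x y)ᶜ) := by
      rw [← hone]; exact measure_mono hsub
    have h2 := prob_add_prob_compl (μ := P) hmeas
    by_contra hne
    have h3 : 1 < P ((Kinf x ∩ Kinf y) \ Rch x y) + P (((Kinf x ∩ Kinf y) \ Rch x y)ᶜ) := by
      calc (1 : ENNReal) = 0 + 1 := (zero_add 1).symm
        _ < P ((Kinf x ∩ Kinf y) \ Rch x y) + 1 :=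
            ENNReal.add_lt_add_right ENNReal.one_ne_top (pos_iff_ne_zero.2 hne)
        _ ≤ _ := by gcongr
    rw [h2] at h3
    exact lt_irrefl _ h3
  have hle : P (Kinf x ∩ Kinf y) ≤ P (Rch x y) := by
    calc P (Kinf x ∩ Kinf y) ≤ P (((Kinf x ∩ Kinf y) \ Rch x y) ∪ Rch x y) := by
          apply measure_mono
          intro ω hω
          by_cases h : ω ∈ Rch x y
          · exact Or.inr h
          · exact Or.inl ⟨hω, h⟩
      _ ≤ P ((Kinf x ∩ Kinf y) \ Rch x y) + P (Rch x y) := measure_union_le _ _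
      _ = P (Rch x y) := by rw [hB, zero_add]
  have hfin := (hK.trans hle).trans hR
  rw [ENNReal.ofReal_le_ofReal_iff (by positivity)] at hfin
  have : 0 < δ * δ := by positivity
  linarith

end

/-- the set of endpoints of walks of length k -/
def wkSupp (nb : V → Finset V) : ℕ → V → Finset V
  | 0, x => {x}
  | (n + 1), x => (nb x).biUnion (wkSupp nb n)

theorem wk_eq_zero (nb : V → Finset V) (n : ℕ) (x y : V) (h : y ∉ wkSupp nb n x) :
    wk nb n x y = 0 := by
  induction n generalizing x with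
  | zero =>
    apply ind_false
    intro hxy
    apply h
    simp [wkSupp, hxy]
  | succ n ih =>
    have e : wk nb (n + 1) x y = ∑ z ∈ nb x, wk nb n z y := rfl
    rw [e]
    apply Finset.sum_eq_zero
    intro z hz
    apply ih
    intro h2
    exact h (Finset.mem_biUnion.2 ⟨z, hz, h2⟩)

/-- decay of connection probabilities -/
theorem tau_decay [Infinite V] {nb : V → Finset V} {q Δ σ : ℝ} (h0 : 0 ≤ q) (h1 : q ≤ 1)
    (hΔ : 0 ≤ Δ) (hσ : 0 ≤ σ) (hwk : ∀ n x y, wk nb (n + 2) x y ≤ Δ * σ ^ n)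
    (hz : q * σ < 1) (x : V) {ε : ℝ} (hε : 0 < ε) :
    ∃ y, ∀ F : Finset (Sym2 V), (∀ x y, s(x, y) ∈ F → y ∈ nb x) → tau q F x y ≤ ε := by
  set z := q * σ with hzdef
  have hz0 : 0 ≤ z := mul_nonneg h0 hσ
  have hzpos : 0 < 1 - z := by linarith
  -- choose R
  obtain ⟨R, hR⟩ := exists_pow_lt_of_lt_one (show 0 < ε * (1 - z) / (q ^ 2 * Δ + 1) by positivity) hz
  obtain ⟨y, hy⟩ := Infinite.exists_notMem_finset ((Finset.range (R + 2)).biUnion
    (fun k => wkSupp nb k x))
  refine ⟨y, ?_⟩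
  intro F hF
  have hzero : ∀ k < R + 2, wk nb k x y = 0 := by
    intro k hk
    apply wk_eq_zero
    intro h
    exact hy (Finset.mem_biUnion.2 ⟨k, Finset.mem_range.2 hk, h⟩)
  refine (tau_le_walks h0 h1 nb F.card F (le_refl _) hF x y).trans ?_
  have hterm : ∀ k, wk nb k x y * q ^ k ≤
      if R + 2 ≤ k then q ^ 2 * Δ * z ^ R * z ^ (k - (R + 2)) else 0 := by
    intro k
    by_cases hk : R + 2 ≤ k
    · rw [if_pos hk]
      obtain ⟨m, rfl⟩ := Nat.exists_eq_add_of_le hk
      have e : R + 2 + m = (R + m) + 2 := by ring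
      rw [e]
      calc wk nb (R + m + 2) x y * q ^ (R + m + 2) ≤ (Δ * σ ^ (R + m)) * q ^ (R + m + 2) :=
            mul_le_mul_of_nonneg_right (hwk _ _ _) (pow_nonneg h0 _)
        _ = q ^ 2 * Δ * z ^ R * z ^ (R + m + 2 - (R + 2)) := by
            have : R + m + 2 - (R + 2) = m := by omega
            rw [this, hzdef, mul_pow, mul_pow, pow_add, pow_add, pow_add]
            ring
    · rw [if_neg hk, hzero k (by omega), zero_mul]
  refine (Finset.sum_le_sum (fun k _ => hterm k)).trans ?_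
  rw [← Finset.sum_filter]
  have hsub : (Finset.range (F.card + 1)).filter (fun k => R + 2 ≤ k) ⊆
      (Finset.range (F.card + 1)).image (fun m => m + (R + 2)) := by
    intro k hk
    rw [Finset.mem_filter, Finset.mem_range] at hk
    rw [Finset.mem_image]
    exact ⟨k - (R + 2), Finset.mem_range.2 (by omega), by omega⟩
  calc ∑ k ∈ (Finset.range (F.card + 1)).filter (fun k => R + 2 ≤ k),
        q ^ 2 * Δ * z ^ R * z ^ (k - (R + 2))
      ≤ ∑ k ∈ (Finset.range (F.card + 1)).image (fun m => m + (R + 2)),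
        q ^ 2 * Δ * z ^ R * z ^ (k - (R + 2)) := by
        apply Finset.sum_le_sum_of_subset_of_nonneg hsub
        intro k _ _; positivity
    _ = ∑ m ∈ Finset.range (F.card + 1), q ^ 2 * Δ * z ^ R * z ^ (m + (R + 2) - (R + 2)) := by
        rw [Finset.sum_image]
        intro a _ b _ hab
        simpa using hab
    _ = q ^ 2 * Δ * z ^ R * ∑ m ∈ Finset.range (F.card + 1), z ^ m := by
        rw [Finset.mul_sum]
        apply Finset.sum_congr rfl
        intro m _
        congr 2
        omega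
    _ ≤ q ^ 2 * Δ * z ^ R * (1 / (1 - z)) :=
        mul_le_mul_of_nonneg_left (geom_le hz0 hz _) (by positivity)
    _ ≤ (q ^ 2 * Δ + 1) * (ε * (1 - z) / (q ^ 2 * Δ + 1)) * (1 / (1 - z)) := by
        apply mul_le_mul_of_nonneg_right _ (by positivity)
        apply mul_le_mul _ hR.le (by positivity) (by positivity)
        linarith
    _ = ε := by
        have : q ^ 2 * Δ + 1 ≠ 0 := by positivity
        field_simp

/-- The general engine. -/
theorem engine [Infinite V] {G : SimpleGraph V} (hconn : G.Connected) {nb : V → Finset V}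
    (hnb : ∀ x y, y ∈ nb x ↔ G.Adj x y) {L : ℕ → Finset V} (hL : Exh L) (hqt : QT nb)
    {Δ σ κ p : ℝ} (hΔ : 0 ≤ Δ) (hσ : 0 ≤ σ) (hwk : ∀ n x y, wk nb (n + 2) x y ≤ Δ * σ ^ n)
    (h0 : 0 < p) (h1 : p < 1) (hκ0 : 0 ≤ κ) (hz1 : p * σ * (1 + κ) < 1)
    (hkap : kap p Δ (p * σ) κ ≤ κ) (o : V)
    (hgrow : ∀ M : ℝ, ∃ n, M < (p / (1 + κ)) ^ n * tw nb n o) : pc G < pu G := by
  have hz : p * σ < 1 := by
    have : 0 ≤ p * σ := mul_nonneg h0.le hσ
    nlinarith
  -- choose p₂ slightly above p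
  obtain ⟨p₂, hp2a, hp2b, hp2c⟩ : ∃ p₂, p < p₂ ∧ p₂ < 1 ∧ p₂ * σ < 1 := by
    have hcont : Filter.Tendsto (fun t : ℝ => t * σ) (nhdsWithin p (Set.Ioi p)) (nhds (p * σ)) :=
      ((continuous_id.mul continuous_const).tendsto p).mono_left nhdsWithin_le_nhds
    have e1 := hcont.eventually (gt_mem_nhds hz)
    have e2 : ∀ᶠ t in nhdsWithin p (Set.Ioi p), t < 1 :=
      (Filter.Tendsto.eventually (f := fun t : ℝ => t)
        (nhdsWithin_le_nhds) (gt_mem_nhds h1))
    have e3 : ∀ᶠ t in nhdsWithin p (Set.Ioi p), p < t := eventually_mem_nhdsWithin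
    obtain ⟨t, ht1, ht2, ht3⟩ := (e1.and (e2.and e3)).exists
    exact ⟨t, ht3, ht2, ht1⟩
  set p₁ := (p + p₂) / 2 with hp1
  have hpc : pc G ≤ p₁ := by
    apply pc_le_of_unbounded hnb hL hqt h0 (p₁ := p₁) (by linarith) (by linarith) o
    exact chi_unbounded h0.le h1.le (nb_symm hnb)
      (fun x h => ((hnb x x).1 h).ne rfl) hΔ hσ hwk hκ0 hz1 hkap o hgrow
  have hpu : p₂ ≤ pu G := by
    apply le_csInf
    · refine ⟨1, (1 : unitInterval), rfl, ?_⟩
      have hconn1 : numInf G.edgeSet = 1 := by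
        unfold numInf
        rw [Set.encard_eq_one]
        obtain ⟨x⟩ := hconn.nonempty
        refine ⟨(SimpleGraph.fromEdgeSet G.edgeSet).connectedComponentMk x, ?_⟩
        have hreach : ∀ y z, (SimpleGraph.fromEdgeSet G.edgeSet).Reachable y z := by
          intro y z
          rw [SimpleGraph.fromEdgeSet_edgeSet]
          exact hconn.preconnected y z
        ext c
        induction c using SimpleGraph.ConnectedComponent.ind with
        | _ y =>
          rw [Set.mem_singleton_iff, SimpleGraph.ConnectedComponent.eq]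
          constructor
          · intro _; exact hreach y x
          · intro _
            change Set.Infinite _
            rw [supp_eq]
            have : {z | (SimpleGraph.fromEdgeSet G.edgeSet).Reachable y z} = Set.univ := by
              ext z
              simp only [Set.mem_ofPred_eq, Set.mem_univ, iff_true]
              exact hreach y z
            rw [this]
            exact Set.infinite_univ
      rw [setBernoulli_one]
      have : Measure.dirac G.edgeSet {ω : Set (Sym2 V) | numInf ω = 1} = 1 := by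
        apply le_antisymm prob_le_one
        calc (1 : ENNReal) = Set.indicator {ω : Set (Sym2 V) | numInf ω = 1} 1 G.edgeSet := by
              rw [Set.indicator_of_mem]
              · rfl
              · exact hconn1
          _ ≤ _ := Measure.le_dirac_apply
      exact this
    · rintro _ ⟨q, rfl, hq⟩
      by_contra hlt
      push Not at hlt
      have hqσ : (q : ℝ) * σ < 1 := by
        have : (q : ℝ) * σ ≤ p₂ * σ := mul_le_mul_of_nonneg_right hlt.le hσ
        linarith
      apply not_unique hnb hL hqt hconn q _ hq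
      intro ε hε
      obtain ⟨y, hy⟩ := tau_decay q.2.1 q.2.2 hΔ hσ hwk hqσ o hε
      refine ⟨o, y, fun n => hy _ ?_⟩
      intro a b hab
      exact ((mem_eIn (nb_symm hnb)).1 hab).1
  linarith

end Vale.Agent.P165
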