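import Mathlib

namespace Vale.Agent.P165

open Finset

variable {α : Type*} [DecidableEq α]

noncomputable def Ex (p : ℝ) (F : Finset α) (f : Finset α → ℝ) : ℝ :=
  ∑ S ∈ F.powerset, p ^ S.card * (1 - p) ^ (F \ S).card * f S

theorem Ex_insert (p : ℝ) {F : Finset α} {a : α} (ha : a ∉ F) (f : Finset α → ℝ) :
    Ex p (insert a F) f = (1 - p) * Ex p F f + p * Ex p F (fun S => f (insert a S)) := by
  unfold Ex
  rw [Finset.sum_powerset_insert ha, Finset.mul_sum, Finset.mul_sum]
  congr 1
  · apply Finset.sum_congr rfl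
    intro S hS
    rw [Finset.mem_powerset] at hS
    have haS : a ∉ S := fun h => ha (hS h)
    have h1 : (insert a F) \ S = insert a (F \ S) := by
      rw [Finset.insert_sdiff_of_notMem _ haS]
    have h2 : a ∉ F \ S := by simp [ha]
    rw [h1, Finset.card_insert_of_notMem h2, pow_succ]
    ring
  · apply Finset.sum_congr rfl
    intro S hS
    rw [Finset.mem_powerset] at hS
    have haS : a ∉ S := fun h => ha (hS h)
    have h1 : (insert a F) \ (insert a S) = F \ S := by
      ext x
      simp only [mem_sdiff, mem_insert, not_or]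
      constructor
      · rintro ⟨h | h, h2, h3⟩
        · exact absurd h h2
        · exact ⟨h, h3⟩
      · rintro ⟨h, h3⟩
        exact ⟨Or.inr h, fun hx => ha (hx ▸ h), h3⟩
    rw [h1, Finset.card_insert_of_notMem haS, pow_succ]
    ring

@[simp] theorem Ex_empty (p : ℝ) (f : Finset α → ℝ) : Ex p (∅ : Finset α) f = f ∅ := by
  simp [Ex]

theorem Ex_congr (p : ℝ) {F : Finset α} {f g : Finset α → ℝ} (h : ∀ S ⊆ F, f S = g S) :
    Ex p F f = Ex p F g := by
  unfold Ex
  apply Finset.sum_congr rfl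
  intro S hS
  rw [h S (Finset.mem_powerset.1 hS)]

theorem Ex_add (p : ℝ) (F : Finset α) (f g : Finset α → ℝ) :
    Ex p F (fun S => f S + g S) = Ex p F f + Ex p F g := by
  unfold Ex
  rw [← Finset.sum_add_distrib]
  apply Finset.sum_congr rfl
  intro S _
  ring

theorem Ex_sub (p : ℝ) (F : Finset α) (f g : Finset α → ℝ) :
    Ex p F (fun S => f S - g S) = Ex p F f - Ex p F g := by
  unfold Ex
  rw [← Finset.sum_sub_distrib]
  apply Finset.sum_congr rfl
  intro S _
  ring

theorem Ex_mul_left (p : ℝ) (F : Finset α) (c : ℝ) (f : Finset α → ℝ) :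
    Ex p F (fun S => c * f S) = c * Ex p F f := by
  unfold Ex
  rw [Finset.mul_sum]
  apply Finset.sum_congr rfl
  intro S _
  ring

theorem Ex_mul_right (p : ℝ) (F : Finset α) (c : ℝ) (f : Finset α → ℝ) :
    Ex p F (fun S => f S * c) = Ex p F f * c := by
  unfold Ex
  rw [Finset.sum_mul]
  apply Finset.sum_congr rfl
  intro S _
  ring

theorem Ex_sum {ι : Type*} (p : ℝ) (F : Finset α) (s : Finset ι) (f : ι → Finset α → ℝ) :
    Ex p F (fun S => ∑ i ∈ s, f i S) = ∑ i ∈ s, Ex p F (f i) := by
  unfold Ex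
  rw [Finset.sum_comm]
  apply Finset.sum_congr rfl
  intro S _
  rw [Finset.mul_sum]

theorem Ex_const (p : ℝ) (F : Finset α) (c : ℝ) : Ex p F (fun _ => c) = c := by
  induction F using Finset.induction_on with
  | empty => simp
  | insert a F ha ih => rw [Ex_insert p ha, ih]; ring

theorem Ex_mono {p : ℝ} (h0 : 0 ≤ p) (h1 : p ≤ 1) {F : Finset α} {f g : Finset α → ℝ}
    (h : ∀ S ⊆ F, f S ≤ g S) : Ex p F f ≤ Ex p F g := by
  unfold Ex
  apply Finset.sum_le_sum
  intro S hS
  apply mul_le_mul_of_nonneg_left (h S (Finset.mem_powerset.1 hS))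
  have : 0 ≤ 1 - p := by linarith
  positivity

theorem Ex_nonneg {p : ℝ} (h0 : 0 ≤ p) (h1 : p ≤ 1) {F : Finset α} {f : Finset α → ℝ}
    (h : ∀ S ⊆ F, 0 ≤ f S) : 0 ≤ Ex p F f := by
  have := Ex_mono h0 h1 (F := F) (f := fun _ => 0) (g := f) h
  rwa [Ex_const] at this

theorem Ex_union (p : ℝ) {F₁ F₂ : Finset α} (h : Disjoint F₁ F₂) (f : Finset α → ℝ) :
    Ex p (F₁ ∪ F₂) f = Ex p F₁ (fun S₁ => Ex p F₂ (fun S₂ => f (S₁ ∪ S₂))) := by
  induction F₁ using Finset.induction_on generalizing f with
  | empty => simp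
  | insert a F ha ih =>
    have hd : Disjoint F F₂ := Finset.disjoint_of_subset_left (Finset.subset_insert _ _) h
    have ha2 : a ∉ F₂ := Finset.disjoint_left.1 h (Finset.mem_insert_self _ _)
    have ha3 : a ∉ F ∪ F₂ := by simp [ha, ha2]
    rw [Finset.insert_union, Ex_insert p ha3, ih hd, ih hd, Ex_insert p ha]
    simp only [Finset.insert_union]

theorem Ex_restrict (p : ℝ) {F₁ F : Finset α} (hF : F₁ ⊆ F) {f : Finset α → ℝ}
    (hf : ∀ S ⊆ F, f S = f (S ∩ F₁)) : Ex p F f = Ex p F₁ f := by
  have h1 : F = F₁ ∪ (F \ F₁) := by rw [Finset.union_sdiff_of_subset hF]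
  have hd : Disjoint F₁ (F \ F₁) := Finset.disjoint_sdiff
  conv_lhs => rw [h1]
  rw [Ex_union p hd]
  apply Ex_congr
  intro S₁ hS₁
  have : Ex p (F \ F₁) (fun S₂ => f (S₁ ∪ S₂)) = Ex p (F \ F₁) (fun _ => f S₁) := by
    apply Ex_congr
    intro S₂ hS₂
    have h3 : S₁ ∪ S₂ ⊆ F := Finset.union_subset (hS₁.trans hF) (hS₂.trans Finset.sdiff_subset)
    rw [hf _ h3]
    congr 1
    ext x
    simp only [mem_inter, mem_union]
    constructor
    · rintro ⟨h | h, h2⟩
      · exact h
      · exact absurd h2 (Finset.mem_sdiff.1 (hS₂ h)).2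
    · intro h
      exact ⟨Or.inl h, hS₁ h⟩
  rw [this, Ex_const]

theorem Ex_indep (p : ℝ) {F₁ F₂ F : Finset α} (h1 : F₁ ⊆ F) (h2 : F₂ ⊆ F) (hd : Disjoint F₁ F₂)
    {f g : Finset α → ℝ} (hf : ∀ S ⊆ F, f S = f (S ∩ F₁)) (hg : ∀ S ⊆ F, g S = g (S ∩ F₂)) :
    Ex p F (fun S => f S * g S) = Ex p F f * Ex p F g := by
  have h12 : F₁ ∪ F₂ ⊆ F := Finset.union_subset h1 h2
  rw [Ex_restrict p h1 hf, Ex_restrict p h2 hg,
    Ex_restrict p h12 (f := fun S => f S * g S) ?_, Ex_union p hd]
  · have key : ∀ S₁ ⊆ F₁, Ex p F₂ (fun S₂ => f (S₁ ∪ S₂) * g (S₁ ∪ S₂)) = f S₁ * Ex p F₂ g := by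
      intro S₁ hS₁
      rw [← Ex_mul_left]
      apply Ex_congr
      intro S₂ hS₂
      have h3 : S₁ ∪ S₂ ⊆ F := Finset.union_subset (hS₁.trans h1) (hS₂.trans h2)
      have e1 : (S₁ ∪ S₂) ∩ F₁ = S₁ := by
        ext x
        simp only [mem_inter, mem_union]
        constructor
        · rintro ⟨h | h, h2⟩
          · exact h
          · exact absurd (hS₂ h) (Finset.disjoint_left.1 hd h2)
        · intro h
          exact ⟨Or.inl h, hS₁ h⟩
      have e2 : (S₁ ∪ S₂) ∩ F₂ = S₂ := by
        ext x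
        simp only [mem_inter, mem_union]
        constructor
        · rintro ⟨h | h, h2⟩
          · exact absurd h2 (Finset.disjoint_left.1 hd (hS₁ h))
          · exact h
        · intro h
          exact ⟨Or.inr h, hS₂ h⟩
      rw [hf _ h3, hg _ h3, e1, e2]
    rw [Ex_congr p key, Ex_mul_right]
  · intro S hS
    have hS' : S ∩ (F₁ ∪ F₂) ⊆ F := Finset.inter_subset_left.trans hS
    have e1 : S ∩ (F₁ ∪ F₂) ∩ F₁ = S ∩ F₁ := by
      ext x; simp only [mem_inter, mem_union]; tauto
    have e2 : S ∩ (F₁ ∪ F₂) ∩ F₂ = S ∩ F₂ := by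
      ext x; simp only [mem_inter, mem_union]; tauto
    rw [hf S hS, hg S hS, hf _ hS', hg _ hS', e1, e2]

/-- monotone functions of the configuration -/
theorem Ex_mono_set {p : ℝ} (h0 : 0 ≤ p) (h1 : p ≤ 1) {F₁ F : Finset α} (hF : F₁ ⊆ F)
    {f : Finset α → ℝ} (hf : Monotone f) : Ex p F₁ f ≤ Ex p F f := by
  have e1 : F = F₁ ∪ (F \ F₁) := by rw [Finset.union_sdiff_of_subset hF]
  have hd : Disjoint F₁ (F \ F₁) := Finset.disjoint_sdiff
  conv_rhs => rw [e1]
  rw [Ex_union p hd]
  apply Ex_mono h0 h1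
  intro S₁ _
  have : f S₁ = Ex p (F \ F₁) (fun _ => f S₁) := by rw [Ex_const]
  rw [this]
  apply Ex_mono h0 h1
  intro S₂ _
  exact hf Finset.subset_union_left

theorem Ex_mono_p {p q : ℝ} (h0 : 0 ≤ p) (hpq : p ≤ q) (h1 : q ≤ 1) {F : Finset α}
    {f : Finset α → ℝ} (hf : Monotone f) : Ex p F f ≤ Ex q F f := by
  induction F using Finset.induction_on generalizing f with
  | empty => simp
  | insert a F ha ih =>
    rw [Ex_insert p ha, Ex_insert q ha]
    have hf1 : Monotone (fun S : Finset α => f (insert a S)) := by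
      intro S T hST
      exact hf (Finset.insert_subset_insert a hST)
    have i1 := ih hf
    have i2 := ih hf1
    have i3 : Ex q F f ≤ Ex q F (fun S => f (insert a S)) := by
      apply Ex_mono (h0.trans hpq) h1
      intro S _
      exact hf (Finset.subset_insert a S)
    nlinarith [mul_le_mul_of_nonneg_left i1 (show 0 ≤ 1 - p by linarith),
      mul_le_mul_of_nonneg_left i2 h0, mul_le_mul_of_nonneg_left i3 (show 0 ≤ q - p by linarith)]

/-- Harris inequality -/
theorem Ex_harris {p : ℝ} (h0 : 0 ≤ p) (h1 : p ≤ 1) (F : Finset α)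
    {f g : Finset α → ℝ} (hf : Monotone f) (hg : Monotone g) :
    Ex p F f * Ex p F g ≤ Ex p F (fun S => f S * g S) := by
  induction F using Finset.induction_on generalizing f g with
  | empty => simp
  | insert a F ha ih =>
    rw [Ex_insert p ha, Ex_insert p ha, Ex_insert p ha]
    have hf1 : Monotone (fun S : Finset α => f (insert a S)) := by
      intro S T hST
      exact hf (Finset.insert_subset_insert a hST)
    have hg1 : Monotone (fun S : Finset α => g (insert a S)) := by
      intro S T hST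
      exact hg (Finset.insert_subset_insert a hST)
    have i1 := ih hf hg
    have i2 := ih hf1 hg1
    have i3 : Ex p F f ≤ Ex p F (fun S => f (insert a S)) := by
      apply Ex_mono h0 h1
      intro S _
      exact hf (Finset.subset_insert a S)
    have i4 : Ex p F g ≤ Ex p F (fun S => g (insert a S)) := by
      apply Ex_mono h0 h1
      intro S _
      exact hg (Finset.subset_insert a S)
    set A := Ex p F f
    set A' := Ex p F (fun S => f (insert a S))
    set B := Ex p F g
    set B' := Ex p F (fun S => g (insert a S))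
    have hq : 0 ≤ 1 - p := by linarith
    have j1 := mul_le_mul_of_nonneg_left i1 hq
    have j2 := mul_le_mul_of_nonneg_left i2 h0
    have j3 : 0 ≤ p * (1 - p) * ((A' - A) * (B' - B)) := by
      apply mul_nonneg (mul_nonneg h0 hq)
      apply mul_nonneg <;> linarith
    nlinarith [j1, j2, j3]

theorem hasDerivAt_Ex (F : Finset α) (f : Finset α → ℝ) (p : ℝ) :
    HasDerivAt (fun t => Ex t F f)
      (∑ e ∈ F, Ex p (F.erase e) (fun S => f (insert e S) - f S)) p := by
  induction F using Finset.induction_on generalizing f with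
  | empty => simpa using hasDerivAt_const p (f ∅)
  | insert a F ha ih =>
    have e1 : (fun t => Ex t (insert a F) f) =
        fun t => (1 - t) * Ex t F f + t * Ex t F (fun S => f (insert a S)) := by
      funext t; exact Ex_insert t ha f
    rw [e1]
    have d1 := ih f
    have d2 := ih (fun S => f (insert a S))
    have d3 : HasDerivAt (fun t : ℝ => 1 - t) (-1) p := by
      simpa using (hasDerivAt_id p).const_sub 1
    have d4 : HasDerivAt (fun t : ℝ => t) 1 p := hasDerivAt_id p
    have hmain := (d3.mul d1).add (d4.mul d2)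
    refine HasDerivAt.congr_deriv hmain ?_
    rw [Finset.sum_insert ha, Finset.erase_insert ha, Ex_sub]
    have key : ∑ e ∈ F, Ex p ((insert a F).erase e) (fun S => f (insert e S) - f S)
        = ∑ e ∈ F, ((1 - p) * Ex p (F.erase e) (fun S => f (insert e S) - f S) +
          p * Ex p (F.erase e) (fun S => f (insert a (insert e S)) - f (insert a S))) := by
      apply Finset.sum_congr rfl
      intro e he
      have hne : e ≠ a := fun h => ha (h ▸ he)
      have h2 : (insert a F).erase e = insert a (F.erase e) := by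
        rw [Finset.erase_insert_of_ne (Ne.symm hne)]
      have h3 : a ∉ F.erase e := fun h => ha (Finset.mem_of_mem_erase h)
      rw [h2, Ex_insert p h3]
      congr 2
      apply Ex_congr
      intro S _
      rw [Finset.insert_comm]
    rw [key, Finset.sum_add_distrib, ← Finset.mul_sum, ← Finset.mul_sum]
    ring

end Vale.Agent.P165
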