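import Vale.Agent.P165.LexDefs
import Vale.Agent.P165.IsoFinal

namespace Vale.Agent.P165

open Finset SimpleGraph

variable {V W : Type*} [DecidableEq V] [DecidableEq W] [Fintype W]

/-- neighbours in the lexicographic product -/
def nbL (nb : V → Finset V) (nK : W → Finset W) (a : V × W) : Finset (V × W) :=
  (nb a.1 ×ˢ Finset.univ) ∪ (nK a.2).image (fun j => (a.1, j))

theorem mem_nbL' {nb : V → Finset V} {nK : W → Finset W} {a b : V × W} :
    b ∈ nbL nb nK a ↔ b.1 ∈ nb a.1 ∨ (a.1 = b.1 ∧ b.2 ∈ nK a.2) := by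
  unfold nbL
  rw [Finset.mem_union, Finset.mem_product, Finset.mem_image]
  constructor
  · rintro (⟨h, _⟩ | ⟨j, hj, rfl⟩)
    · exact Or.inl h
    · exact Or.inr ⟨rfl, hj⟩
  · rintro (h | ⟨h1, h2⟩)
    · exact Or.inl ⟨h, Finset.mem_univ _⟩
    · exact Or.inr ⟨b.2, h2, by rw [h1]⟩

theorem mem_nbL {G : SimpleGraph V} {K : SimpleGraph W} {nb : V → Finset V} {nK : W → Finset W}
    (hnb : ∀ x y, y ∈ nb x ↔ G.Adj x y) (hnK : ∀ x y, y ∈ nK x ↔ K.Adj x y) (a b : V × W) :
    b ∈ nbL nb nK a ↔ (lexProd G K).Adj a b := by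
  rw [mem_nbL', hnb, hnK]
  exact Iff.rfl

omit [DecidableEq V] [DecidableEq W] [Fintype W] in
theorem lex_connected {G : SimpleGraph V} (hconn : G.Connected) (K : SimpleGraph W) [Nonempty W]
    (hdeg : ∀ x, ∃ z, G.Adj x z) : (lexProd G K).Connected := by
  haveI := hconn.nonempty
  have hwalk : ∀ (a c : V), G.Walk a c → ∀ i, (lexProd G K).Reachable (a, i) (c, i) := by
    intro a c w i
    induction w with
    | nil => exact SimpleGraph.Reachable.refl _
    | @cons u v z h p ih =>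
      have h1 : (lexProd G K).Adj (u, i) (v, i) := Or.inl h
      exact h1.reachable.trans ih
  refine ⟨?_⟩
  rintro ⟨x, i⟩ ⟨y, j⟩
  obtain ⟨w⟩ := hconn.preconnected x y
  obtain ⟨z, hz⟩ := hdeg y
  have h1 : (lexProd G K).Adj (y, i) (z, i) := Or.inl hz
  have h2 : (lexProd G K).Adj (z, i) (y, j) := Or.inl hz.symm
  exact (hwalk x y w i).trans (h1.reachable.trans h2.reachable)

theorem card_nbL_le {nb : V → Finset V} {nK : W → Finset W} {d : ℕ}
    (hd : ∀ x, (nb x).card ≤ d) (a : V × W) :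
    (nbL nb nK a).card ≤ Fintype.card W * (d + 1) := by
  unfold nbL
  refine (Finset.card_union_le _ _).trans ?_
  rw [Finset.card_product, Finset.card_univ]
  have h1 : ((nK a.2).image (fun j => (a.1, j))).card ≤ Fintype.card W :=
    Finset.card_image_le.trans (Finset.card_le_univ _)
  calc (nb a.1).card * Fintype.card W + ((nK a.2).image (fun j => (a.1, j))).card
      ≤ d * Fintype.card W + Fintype.card W :=
        Nat.add_le_add (Nat.mul_le_mul_right _ (hd a.1)) h1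
    _ = _ := by ring

theorem iso_lex {nb : V → Finset V} {nK : W → Finset W} {h : ℝ}
    (hiso : ∀ A : Finset V, h * A.card ≤ ∑ x ∈ A, ((nb x \ A).card : ℝ))
    (A : Finset (V × W)) :
    h * Fintype.card W * A.card ≤ ∑ a ∈ A, ((nbL nb nK a \ A).card : ℝ) := by
  obtain ⟨U, hU⟩ : ∃ U : Finset V, U = A.image Prod.fst := ⟨_, rfl⟩
  obtain ⟨u, hu⟩ : ∃ u : V → ℝ, ∀ x, u x =
    ((Finset.univ.filter (fun i : W => (x, i) ∈ A)).card : ℝ) := ⟨_, fun _ => rfl⟩
  have hu0 : ∀ x, 0 ≤ u x := fun x => by rw [hu]; exact Nat.cast_nonneg _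
  have hum : ∀ x, u x ≤ Fintype.card W := fun x => by
    rw [hu]; exact_mod_cast Finset.card_le_univ _
  have huU : ∀ x, x ∉ U → u x = 0 := by
    intro x hx
    rw [hu, Nat.cast_eq_zero, Finset.card_eq_zero, Finset.filter_eq_empty_iff]
    intro i _ hi
    apply hx
    rw [hU]
    exact Finset.mem_image.2 ⟨(x, i), hi, rfl⟩
  have hsum : ∀ F : V → ℝ, ∑ a ∈ A, F a.1 = ∑ x ∈ U, u x * F x := by
    intro F
    rw [hU, ← Finset.sum_fiberwise_of_maps_to (s := A) (t := A.image Prod.fst) (g := Prod.fst)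
      (fun a ha => Finset.mem_image_of_mem _ ha)]
    apply Finset.sum_congr rfl
    intro x _
    have h1 : ∑ a ∈ A.filter (fun a => a.1 = x), F a.1 =
        ∑ _a ∈ A.filter (fun a => a.1 = x), F x := by
      apply Finset.sum_congr rfl
      intro a ha
      rw [(Finset.mem_filter.1 ha).2]
    rw [h1, Finset.sum_const, nsmul_eq_mul, hu]
    congr 2
    have h2 : A.filter (fun a => a.1 = x) =
        (Finset.univ.filter (fun i : W => (x, i) ∈ A)).image (fun i => (x, i)) := by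
      ext ⟨y, i⟩
      rw [Finset.mem_filter, Finset.mem_image]
      constructor
      · rintro ⟨h1, h2⟩
        refine ⟨i, ?_, ?_⟩
        · rw [Finset.mem_filter]
          refine ⟨Finset.mem_univ _, ?_⟩
          simp only at h2
          rw [← h2]; exact h1
        · simp only at h2
          rw [h2]
      · rintro ⟨j, hj, hji⟩
        rw [Prod.mk.injEq] at hji
        obtain ⟨rfl, rfl⟩ := hji
        exact ⟨(Finset.mem_filter.1 hj).2, rfl⟩
    rw [h2, Finset.card_image_of_injective _ (fun a b hab => (Prod.mk.inj hab).2)]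
  have hco := coarea hiso (U.filter (fun x => 0 < u x)).card U u hu0 huU (le_refl _)
  have hAcard : (A.card : ℝ) = ∑ x ∈ U, u x := by
    have := hsum (fun _ => 1)
    simp only [Finset.sum_const, nsmul_eq_mul, mul_one] at this
    exact this
  have hlow : ∀ a ∈ A, ∑ z ∈ nb a.1, ((Fintype.card W : ℝ) - u z) ≤
      ((nbL nb nK a \ A).card : ℝ) := by
    intro a _
    have h1 : ((nb a.1).biUnion (fun z => (Finset.univ.filter
        (fun i : W => ¬ (z, i) ∈ A)).image (fun i => (z, i)))) ⊆ nbL nb nK a \ A := by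
      intro b hb
      obtain ⟨z, hz, hb⟩ := Finset.mem_biUnion.1 hb
      obtain ⟨i, hi, rfl⟩ := Finset.mem_image.1 hb
      rw [Finset.mem_sdiff, mem_nbL']
      exact ⟨Or.inl hz, (Finset.mem_filter.1 hi).2⟩
    have h2 := Finset.card_le_card h1
    rw [Finset.card_biUnion] at h2
    · have h3 : ((∑ z ∈ nb a.1, ((Finset.univ.filter
          (fun i : W => ¬ (z, i) ∈ A)).image (fun i => (z, i))).card : ℕ) : ℝ) ≤
          ((nbL nb nK a \ A).card : ℝ) := Nat.cast_le.2 h2
      refine le_trans (le_of_eq ?_) h3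
      push_cast
      apply Finset.sum_congr rfl
      intro z _
      rw [Finset.card_image_of_injective _ (fun a b hab => (Prod.mk.inj hab).2), hu]
      have h4 := Finset.card_filter_add_card_filter_not (s := (Finset.univ : Finset W))
        (fun i => (z, i) ∈ A)
      rw [Finset.card_univ] at h4
      rw [← h4]
      push_cast
      ring
    · intro z _ w _ hzw
      rw [Function.onFun, Finset.disjoint_left]
      intro b hb hb'
      obtain ⟨i, _, rfl⟩ := Finset.mem_image.1 hb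
      obtain ⟨j, _, hj⟩ := Finset.mem_image.1 hb'
      exact hzw (Prod.mk.inj hj).1.symm
  calc h * Fintype.card W * A.card = Fintype.card W * (h * ∑ x ∈ U, u x) := by
        rw [hAcard]; ring
    _ ≤ Fintype.card W * ∑ x ∈ U, ∑ z ∈ nb x, max (u x - u z) 0 :=
        mul_le_mul_of_nonneg_left hco (Nat.cast_nonneg _)
    _ = ∑ x ∈ U, ∑ z ∈ nb x, Fintype.card W * max (u x - u z) 0 := by
        rw [Finset.mul_sum]
        apply Finset.sum_congr rfl
        intro x _
        rw [Finset.mul_sum]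
    _ ≤ ∑ x ∈ U, u x * ∑ z ∈ nb x, ((Fintype.card W : ℝ) - u z) := by
        apply Finset.sum_le_sum
        intro x _
        rw [Finset.mul_sum]
        apply Finset.sum_le_sum
        intro z _
        have h1 := hu0 x
        have h2 := hu0 z
        have h3 := hum x
        have h4 := hum z
        rcases le_total (u x - u z) 0 with h5 | h5
        · rw [max_eq_right h5, mul_zero]
          exact mul_nonneg h1 (by linarith)
        · rw [max_eq_left h5]
          nlinarith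
    _ = ∑ a ∈ A, ∑ z ∈ nb a.1, ((Fintype.card W : ℝ) - u z) :=
        (hsum (fun x => ∑ z ∈ nb x, ((Fintype.card W : ℝ) - u z))).symm
    _ ≤ _ := Finset.sum_le_sum hlow

/-- core statement for lexicographic products -/
theorem lex_core [Infinite V] [Nonempty W] {G : SimpleGraph V} (hconn : G.Connected)
    {nb : V → Finset V} (hnb : ∀ x y, y ∈ nb x ↔ G.Adj x y) {d r₀ : ℕ}
    (hd : ∀ x, (nb x).card ≤ d) {h : ℝ} (hh : 0 < h)
    (hiso : ∀ A : Finset V, h * A.card ≤ ∑ x ∈ A, ((nb x \ A).card : ℝ))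
    (hr₀ : ∀ u y, ∃ ψ : V ≃ V, IsAut nb ψ ∧ ψ y ∈ bl nb r₀ u)
    {K : SimpleGraph W} {nK : W → Finset W} (hnK : ∀ x y, y ∈ nK x ↔ K.Adj x y)
    (hK : ∀ i j, ∃ τ : W ≃ W, IsAut nK τ ∧ τ i = j)
    (hbig : 4608 ≤ (Fintype.card W * ((d : ℝ) + 1)) * (1 / ((d : ℝ) + 1) ^ (r₀ + 1)) ^ 8 *
      (h / ((d : ℝ) + 1)) ^ 6) : pc (lexProd G K) < pu (lexProd G K) := by
  obtain ⟨o⟩ := hconn.nonempty
  obtain ⟨i₀⟩ : Nonempty W := inferInstance
  have hm : (0 : ℝ) < Fintype.card W := by exact_mod_cast Fintype.card_pos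
  have hd0 : (0 : ℝ) ≤ d := Nat.cast_nonneg _
  have hne : ∀ x, 1 ≤ (nb x).card := by
    intro x
    have h1 := hiso {x}
    rw [Finset.card_singleton, Finset.sum_singleton] at h1
    have h2 : (0 : ℝ) < ((nb x \ {x}).card : ℝ) := by push_cast at h1; linarith
    exact (Nat.cast_pos.1 h2).trans_le (Finset.card_le_card Finset.sdiff_subset)
  have hdeg : ∀ x, ∃ z, G.Adj x z := by
    intro x
    obtain ⟨z, hz⟩ := Finset.card_pos.1 (hne x)
    exact ⟨z, (hnb x z).1 hz⟩
  have hLconn := lex_connected hconn K hdeg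
  have hmem := mem_nbL hnb hnK
  have hautV : ∀ ψ : V ≃ V, IsAut nb ψ →
      IsAut (nbL nb nK) (Equiv.prodCongr ψ (Equiv.refl W)) := by
    rintro ψ hψ ⟨a, i⟩ ⟨b, j⟩
    rw [mem_nbL', mem_nbL']
    show (ψ b ∈ nb (ψ a) ∨ (ψ a = ψ b ∧ j ∈ nK i)) ↔ _
    rw [hψ a b, ψ.injective.eq_iff]
  have hautW : ∀ τ : W ≃ W, IsAut nK τ →
      IsAut (nbL nb nK) (Equiv.prodCongr (Equiv.refl V) τ) := by
    rintro τ hτ ⟨a, i⟩ ⟨b, j⟩
    rw [mem_nbL', mem_nbL']
    show (b ∈ nb a ∨ (a = b ∧ τ j ∈ nK (τ i))) ↔ _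
    rw [hτ i j]
  have hQT : QT (nbL nb nK) := by
    refine ⟨bl nb r₀ o ×ˢ Finset.univ, ?_⟩
    rintro ⟨x, i⟩
    obtain ⟨ψ, hψ, hx⟩ := hr₀ o x
    refine ⟨(ψ x, i), Finset.mem_product.2 ⟨hx, Finset.mem_univ _⟩,
      (Equiv.prodCongr ψ (Equiv.refl W)).symm, ?_, ?_⟩
    · intro a b
      have := hautV ψ hψ ((Equiv.prodCongr ψ (Equiv.refl W)).symm a)
        ((Equiv.prodCongr ψ (Equiv.refl W)).symm b)
      rw [Equiv.apply_symm_apply, Equiv.apply_symm_apply] at this
      exact this.symm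
    · rw [Equiv.symm_apply_eq]; rfl
  have hΔ : ∀ a, ((nbL nb nK a).card : ℝ) ≤ Fintype.card W * ((d : ℝ) + 1) := by
    intro a
    exact_mod_cast card_nbL_le hd a
  have hκ0 : (0 : ℝ) < 1 / ((d : ℝ) + 1) ^ (r₀ + 1) := by positivity
  have hκ1 : 1 / ((d : ℝ) + 1) ^ (r₀ + 1) ≤ 1 := by
    rw [div_le_one (by positivity)]
    exact one_le_pow₀ (by linarith)
  have hmin : ∀ a, 1 / ((d : ℝ) + 1) ^ (r₀ + 1) * (Fintype.card W * ((d : ℝ) + 1)) ≤
      ((nbL nb nK a).card : ℝ) := by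
    intro a
    have h1 : Fintype.card W ≤ (nbL nb nK a).card := by
      have h2 : nb a.1 ×ˢ (Finset.univ : Finset W) ⊆ nbL nb nK a := Finset.subset_union_left
      have h3 := Finset.card_le_card h2
      rw [Finset.card_product, Finset.card_univ] at h3
      exact (Nat.le_mul_of_pos_left _ (hne a.1)).trans h3
    have h2 : (Fintype.card W : ℝ) ≤ ((nbL nb nK a).card : ℝ) := by exact_mod_cast h1
    refine le_trans ?_ h2
    rw [pow_succ, one_div, mul_inv]
    have h3 : (((d : ℝ) + 1) ^ r₀)⁻¹ ≤ 1 := by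
      apply inv_le_one_of_one_le₀
      exact one_le_pow₀ (by linarith)
    calc (((d : ℝ) + 1) ^ r₀)⁻¹ * ((d : ℝ) + 1)⁻¹ * (Fintype.card W * ((d : ℝ) + 1))
        = (((d : ℝ) + 1) ^ r₀)⁻¹ * Fintype.card W := by field_simp
      _ ≤ 1 * Fintype.card W := mul_le_mul_of_nonneg_right h3 hm.le
      _ = _ := one_mul _
  have hε0 : 0 < h / ((d : ℝ) + 1) := by positivity
  have hε1 : h / ((d : ℝ) + 1) ≤ 1 := by
    rw [div_le_one (by positivity)]
    have h1 := hiso {o}
    rw [Finset.card_singleton, Finset.sum_singleton] at h1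
    have h2 : (nb o \ {o}).card ≤ d := (Finset.card_le_card Finset.sdiff_subset).trans (hd o)
    have h3 : ((nb o \ {o}).card : ℝ) ≤ d := by exact_mod_cast h2
    push_cast at h1
    linarith
  have hisoL : ∀ A : Finset (V × W), h / ((d : ℝ) + 1) * (Fintype.card W * ((d : ℝ) + 1)) *
      A.card ≤ ∑ a ∈ A, ((nbL nb nK a \ A).card : ℝ) := by
    intro A
    refine le_trans (le_of_eq ?_) (iso_lex (nK := nK) hiso A)
    field_simp
  refine iso_general hLconn hmem (exh_bl hLconn hmem (o, i₀)) hQT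
    (Δ := Fintype.card W * ((d : ℝ) + 1)) hκ0 hκ1 hε0 hε1 hΔ hmin hisoL ?_ hbig
  -- the ratio bound
  intro s φ hs hφ0 hφinv hφsup
  have hs0 : 0 < s := lt_of_lt_of_le (by positivity) hs
  have hW : ∀ x i j, φ (x, i) = φ (x, j) := by
    intro x i j
    obtain ⟨τ, hτ, rfl⟩ := hK i j
    exact (hφinv _ (hautW τ hτ) (x, i)).symm
  have hstep : ∀ x z, z ∈ nb x → φ (z, i₀) ≤ ((d : ℝ) + 1) * φ (x, i₀) := by
    intro x z hz
    have h1 := hφsup (x, i₀)
    have h2 : (Fintype.card W : ℝ) * φ (z, i₀) ≤ ∑ b ∈ nbL nb nK (x, i₀), φ b := by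
      calc (Fintype.card W : ℝ) * φ (z, i₀) = ∑ b ∈ ({z} : Finset V) ×ˢ (Finset.univ : Finset W),
            φ b := by
            rw [Finset.sum_product, Finset.sum_singleton,
              Finset.sum_congr rfl (fun j _ => hW z j i₀), Finset.sum_const, nsmul_eq_mul,
              Finset.card_univ]
        _ ≤ ∑ b ∈ nbL nb nK (x, i₀), φ b := by
            apply Finset.sum_le_sum_of_subset_of_nonneg _ (fun b _ _ => hφ0 b)
            intro b hb
            rw [Finset.mem_product, Finset.mem_singleton] at hb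
            rw [mem_nbL']
            left
            rw [hb.1]; exact hz
    have h3 : 1 ≤ s * (Fintype.card W * ((d : ℝ) + 1)) := by
      rw [div_le_iff₀ (by positivity)] at hs; exact hs
    have h4 : s * (Fintype.card W * φ (z, i₀)) ≤ φ (x, i₀) :=
      (mul_le_mul_of_nonneg_left h2 hs0.le).trans h1
    have h5 := hφ0 (z, i₀)
    calc φ (z, i₀) = 1 * φ (z, i₀) := (one_mul _).symm
      _ ≤ s * (Fintype.card W * ((d : ℝ) + 1)) * φ (z, i₀) := mul_le_mul_of_nonneg_right h3 h5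
      _ = ((d : ℝ) + 1) * (s * (Fintype.card W * φ (z, i₀))) := by ring
      _ ≤ _ := mul_le_mul_of_nonneg_left h4 (by linarith)
  have hball : ∀ r x y, y ∈ bl nb r x → φ (y, i₀) ≤ ((d : ℝ) + 1) ^ r * φ (x, i₀) := by
    intro r
    induction r with
    | zero =>
      intro x y hy
      rw [mem_bl_zero] at hy
      rw [hy, pow_zero, one_mul]
    | succ r ih =>
      intro x y hy
      rw [mem_bl_succ] at hy
      rcases hy with rfl | ⟨z, hz, hy⟩
      · have h1 : (1 : ℝ) ≤ ((d : ℝ) + 1) ^ (r + 1) := one_le_pow₀ (by linarith)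
        have h2 := hφ0 (y, i₀)
        nlinarith
      · calc φ (y, i₀) ≤ ((d : ℝ) + 1) ^ r * φ (z, i₀) := ih z y hy
          _ ≤ ((d : ℝ) + 1) ^ r * (((d : ℝ) + 1) * φ (x, i₀)) :=
              mul_le_mul_of_nonneg_left (hstep x z hz) (by positivity)
          _ = _ := by rw [pow_succ]; ring
  rintro ⟨x, i⟩ ⟨y, j⟩
  rw [hW x i i₀, hW y j i₀]
  obtain ⟨ψ, hψ, hy⟩ := hr₀ x y
  have h1 := hball r₀ x (ψ y) hy
  have h2 : φ (ψ y, i₀) = φ (y, i₀) := hφinv _ (hautV ψ hψ) (y, i₀)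
  rw [h2] at h1
  have h3 := hφ0 (x, i₀)
  have h4 : ((d : ℝ) + 1) ^ r₀ ≤ ((d : ℝ) + 1) ^ (r₀ + 1) :=
    pow_le_pow_right₀ (by linarith) (Nat.le_succ _)
  rw [one_div, ← div_eq_inv_mul, div_le_iff₀ (by positivity)]
  calc φ (y, i₀) ≤ ((d : ℝ) + 1) ^ r₀ * φ (x, i₀) := h1
    _ ≤ ((d : ℝ) + 1) ^ (r₀ + 1) * φ (x, i₀) := mul_le_mul_of_nonneg_right h4 h3
    _ = _ := by ring

end Vale.Agent.P165
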