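import Vale.Agent.P165.Translate

namespace Vale.Agent.P165

open Finset SimpleGraph

variable {V : Type*}

theorem le_powerGraph (G : SimpleGraph V) {k : ℕ} (hk : 1 ≤ k) : G ≤ powerGraph G k := by
  classical
  intro x y hxy
  refine ⟨hxy.ne, ?_⟩
  rw [edist_le_iff_walk]
  exact ⟨Walk.cons hxy Walk.nil, by simpa using hk⟩

/-- powers stay in the class considered -/
theorem power_class {G : SimpleGraph V} (hconn : G.Connected)
    (hlf : ∀ v, (G.neighborSet v).Finite) (hqt : IsQuasiTransitive G) (hna : IsNonamenable G)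
    {k : ℕ} (hk : 1 ≤ k) :
    (powerGraph G k).Connected ∧ (∀ v, ((powerGraph G k).neighborSet v).Finite) ∧
      IsQuasiTransitive (powerGraph G k) ∧ IsNonamenable (powerGraph G k) := by
  classical
  obtain ⟨nb, hnb⟩ : ∃ nb : V → Finset V, ∀ x y, y ∈ nb x ↔ G.Adj x y := by
    refine ⟨fun v => (hlf v).toFinset, fun x y => ?_⟩
    show y ∈ (hlf x).toFinset ↔ _
    rw [Set.Finite.mem_toFinset]
    exact Iff.rfl
  have hnbk := mem_nbk_iff hnb k
  have hfin : ∀ v, ((powerGraph G k).neighborSet v).Finite := by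
    intro v
    apply (nbk nb k v).finite_toSet.subset
    intro y hy
    exact Finset.mem_coe.2 ((hnbk v y).2 hy)
  refine ⟨hconn.mono (le_powerGraph G hk), hfin, ?_, ?_⟩
  · obtain ⟨R, hR, h⟩ := hqt
    refine ⟨R, hR, fun x => ?_⟩
    obtain ⟨r, hr, φ, hφ⟩ := h x
    have haut : IsAut nb φ.toEquiv := by
      intro x y
      rw [hnb, hnb]
      exact φ.map_adj_iff
    have hk' := isAut_nbk haut k
    refine ⟨r, hr, ⟨φ.toEquiv, ?_⟩, hφ⟩
    intro a b
    rw [← hnbk, ← hnbk]
    exact hk' a b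
  · obtain ⟨h, hh, hA⟩ := hna
    refine ⟨h, hh, fun A hAf => (hA A hAf).trans ?_⟩
    apply Nat.cast_le.2
    apply Set.ncard_le_ncard
    · rintro w ⟨hw, v, hv, hvw⟩
      exact ⟨hw, v, hv, le_powerGraph G hk hvw⟩
    · apply (hAf.biUnion (fun v _ => hfin v)).subset
      rintro w ⟨_, v, hv, hvw⟩
      exact Set.mem_biUnion hv hvw

end Vale.Agent.P165
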