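import Vale.Agent.P165.CartMain
import Vale.Agent.P165.LexMain
import Vale.Agent.P165.PowerClass

namespace Vale.Agent.P165

open Finset SimpleGraph

universe u

theorem sandwich_final (d r M : ℕ) (h : ℝ) (hh : 0 < h) :
    ∃ k₀ : ℕ, ∀ (V : Type u) [Infinite V] (G : SimpleGraph V), G.Connected →
      (∀ v, (G.neighborSet v).Finite ∧ (G.neighborSet v).ncard ≤ d) →
      (∀ A : Set V, A.Finite →
        h * (A.ncard : ℝ) ≤ ({w | w ∉ A ∧ ∃ v ∈ A, G.Adj v w}.ncard : ℝ)) →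
      ∀ k ≥ k₀, ∀ H : SimpleGraph V, powerGraph G k ≤ H →
      (∀ v, (H.neighborSet v).Finite ∧
        (H.neighborSet v).ncard ≤ M * ((powerGraph G k).neighborSet v).ncard) →
      (∀ v w, ∃ φ : G ≃g G, (∀ x y, H.Adj (φ x) (φ y) ↔ H.Adj x y) ∧ G.edist v (φ w) ≤ r) →
      pc H < pu H := by
  obtain ⟨k₀, hk₀⟩ := sandwich_main.{u} d r (max M 1) hh (le_max_right _ _)
  refine ⟨k₀, ?_⟩
  intro V _ G hconn hlf hvert k hk H hle hH hinv
  classical
  obtain ⟨nb, hnb⟩ := exists_nb (fun v => (hlf v).1)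
  obtain ⟨nH, hnH⟩ := exists_nb (fun v => (hH v).1)
  obtain ⟨o⟩ := hconn.nonempty
  have hmemk := mem_nbk_iff hnb k
  have hr₀ : ∀ v w, ∃ ψ : V ≃ V, (IsAut nb ψ ∧ IsAut nH ψ) ∧ ψ w ∈ bl nb r v := by
    intro v w
    obtain ⟨φ, hφ, hd⟩ := hinv v w
    refine ⟨φ.toEquiv, ⟨?_, ?_⟩, ?_⟩
    · intro a b
      rw [hnb, hnb]
      exact φ.map_adj_iff
    · intro a b
      rw [hnH, hnH]
      exact hφ a b
    · rw [mem_bl_iff_walk hnb]
      exact edist_le_iff_walk.1 hd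
  refine hk₀ hconn hnb (fun x => ?_) (fun A => ?_) k hk hnH hle ?_ hr₀ ?_
  · rw [card_nb hnb]; exact (hlf x).2
  · have := hvert (A : Set V) A.finite_toSet
    rw [ncard_boundary hnb A, Set.ncard_coe_finset] at this
    exact this
  · refine ⟨bl nb r o, fun x => ?_⟩
    obtain ⟨ψ, ⟨_, hψ⟩, hmem⟩ := hr₀ o x
    refine ⟨ψ x, hmem, ψ.symm, ?_, by simp⟩
    intro a b
    have := hψ (ψ.symm a) (ψ.symm b)
    simpa using this.symm
  · intro x
    rw [card_nb hnH]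
    refine (hH x).2.trans ?_
    refine Nat.mul_le_mul (le_max_left _ _) ?_
    rw [← card_nb hmemk]
    exact Finset.card_le_card (Finset.erase_subset _ _)

theorem cart_final {V : Type u} [Infinite V] {G : SimpleGraph V} (hconn : G.Connected)
    (hlf : ∀ v, (G.neighborSet v).Finite) (hqt : IsQuasiTransitive G) (D : ℕ)
    (hreg : ∀ v, (G.neighborSet v).ncard = D) (hna : IsNonamenable G) :
    ∃ n₀ : ℕ, ∀ n ≥ n₀, pc (cartPow G n) < pu (cartPow G n) := by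
  classical
  obtain ⟨nb, hnb⟩ := exists_nb hlf
  obtain ⟨h, hh, hvert⟩ := vert_of_nonamenable hnb hna
  obtain ⟨o⟩ := hconn.nonempty
  have hiso := iso_edge hvert
  have hcard : ∀ x, ((nb x).card : ℝ) = (D : ℝ) := by
    intro x
    rw [card_nb hnb, hreg]
  have hhD : h ≤ D := by
    have h1 := hiso {o}
    rw [Finset.card_singleton, Finset.sum_singleton] at h1
    have h2 : ((nb o \ {o}).card : ℝ) ≤ (nb o).card :=
      Nat.cast_le.2 (Finset.card_le_card Finset.sdiff_subset)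
    rw [hcard] at h2
    push_cast at h1
    linarith
  have hDpos : (0 : ℝ) < D := lt_of_lt_of_le hh hhD
  obtain ⟨ρ, hρ⟩ : ∃ ρ : ℝ, ρ = 1 - (h / D) ^ 2 / 4 := ⟨_, rfl⟩
  have hq : (h / D) ^ 2 ≤ 1 := pow_le_one₀ (by positivity) (by rw [div_le_one hDpos]; exact hhD)
  have hq0 : 0 < (h / D) ^ 2 := by positivity
  have hQ : ∀ (U : Finset V) (f : V → ℝ), (∀ x, 0 ≤ f x) → ip U f (opT nb U f) ≤
      (ρ * D) * ip U f f := by
    intro U f hf
    have h1 := quad_of_iso (nb_symm hnb) hh (fun x => (hcard x).le) hDpos hiso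
      (s := 1 / (D : ℝ)) (m := 1) (M := 1) (by positivity) one_pos (φ := fun _ => 1)
      (fun _ => le_refl _) (fun _ => le_refl _) (fun x => by
        rw [Finset.sum_const, nsmul_eq_mul, hcard, mul_one, one_div, inv_mul_cancel₀ hDpos.ne'])
      U f hf
    refine h1.trans (le_of_eq ?_)
    rw [hρ]
    congr 1
    field_simp
  obtain ⟨n₀, hn₀⟩ := exists_nat_ge (72 / (D * (1 - ρ) ^ 3))
  refine ⟨n₀, fun n hn => ?_⟩
  have hρ1 : 0 < 1 - ρ := by rw [hρ]; linarith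
  refine cart_core hconn hnb (qt_of_isQuasiTransitive hnb hqt) hcard (by rw [hρ]; linarith)
    (by linarith) hQ n ?_
  have h1 : 72 / (D * (1 - ρ) ^ 3) ≤ (n : ℝ) := hn₀.trans (by exact_mod_cast hn)
  rw [div_le_iff₀ (by positivity)] at h1
  linarith

theorem lex_final {V : Type u} [Infinite V] {G : SimpleGraph V} (hconn : G.Connected)
    (hlf : ∀ v, (G.neighborSet v).Finite) (hqt : IsQuasiTransitive G) (hna : IsNonamenable G) :
    ∃ m₀ : ℕ, ∀ m ≥ m₀, ∀ K : SimpleGraph (Fin m), (∀ i j, ∃ τ : K ≃g K, τ i = j) →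
      pc (lexProd G K) < pu (lexProd G K) := by
  classical
  obtain ⟨nb, hnb⟩ := exists_nb hlf
  obtain ⟨h, hh, hvert⟩ := vert_of_nonamenable hnb hna
  obtain ⟨o⟩ := hconn.nonempty
  have hqt' := qt_of_isQuasiTransitive hnb hqt
  obtain ⟨d, hd'⟩ : ∃ d : ℕ, ∀ x, (nb x).card ≤ d := by
    obtain ⟨rd, hrd⟩ := exists_max_of_qt hqt' o (fun x => (nb x).card) (by
      intro ψ hψ x
      show (nb (ψ x)).card = (nb x).card
      rw [nb_map hψ, Finset.card_map])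
    exact ⟨_, hrd⟩
  obtain ⟨r₀, hr₀⟩ := exists_cover_radius hconn hnb hqt'
  obtain ⟨c, hc⟩ : ∃ c : ℝ, c = ((d : ℝ) + 1) * (1 / ((d : ℝ) + 1) ^ (r₀ + 1)) ^ 8 *
      (h / ((d : ℝ) + 1)) ^ 6 := ⟨_, rfl⟩
  have hc0 : 0 < c := by rw [hc]; positivity
  obtain ⟨m₀, hm₀⟩ := exists_nat_ge (4608 / c)
  refine ⟨max m₀ 1, fun m hm K hK => ?_⟩
  have hm1 : 1 ≤ m := (le_max_right _ _).trans hm
  haveI : Nonempty (Fin m) := ⟨⟨0, hm1⟩⟩
  obtain ⟨nK, hnK⟩ := exists_nb (G := K) (fun v => Set.toFinite _)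
  refine lex_core hconn hnb hd' hh (iso_edge hvert) hr₀ hnK ?_ ?_
  · intro i j
    obtain ⟨τ, hτ⟩ := hK i j
    refine ⟨τ.toEquiv, ?_, hτ⟩
    intro a b
    rw [hnK, hnK]
    exact τ.map_adj_iff
  · have h1 : 4608 / c ≤ (m : ℝ) := hm₀.trans (by exact_mod_cast (le_max_left _ _).trans hm)
    rw [div_le_iff₀ hc0] at h1
    rw [Fintype.card_fin]
    calc (4608 : ℝ) ≤ m * c := h1
      _ = _ := by rw [hc]; ring

end Vale.Agent.P165
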