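import Vale.Agent.P165.BK

namespace Vale.Agent.P165

open Finset SimpleGraph

variable {V : Type*} [DecidableEq V]

omit [DecidableEq V] in
theorem sym2_adj_fromEdgeSet {S : Set (Sym2 V)} {x y : V} :
    (SimpleGraph.fromEdgeSet S).Adj x y ↔ s(x, y) ∈ S ∧ x ≠ y := by
  simp [SimpleGraph.fromEdgeSet_adj]

def Conn (S : Finset (Sym2 V)) (x y : V) : Prop :=
  (SimpleGraph.fromEdgeSet (S : Set (Sym2 V))).Reachable x y

omit [DecidableEq V] in
theorem Conn.refl (S : Finset (Sym2 V)) (x : V) : Conn S x x := Reachable.refl x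

omit [DecidableEq V] in
theorem Conn.symm {S : Finset (Sym2 V)} {x y : V} (h : Conn S x y) : Conn S y x :=
  Reachable.symm h

omit [DecidableEq V] in
theorem Conn.trans {S : Finset (Sym2 V)} {x y z : V} (h : Conn S x y) (h' : Conn S y z) :
    Conn S x z := Reachable.trans h h'

omit [DecidableEq V] in
theorem Conn.mono {S T : Finset (Sym2 V)} (hST : S ⊆ T) {x y : V} (h : Conn S x y) :
    Conn T x y := by
  apply Reachable.mono _ h
  apply SimpleGraph.fromEdgeSet_mono
  exact_mod_cast hST

omit [DecidableEq V] in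
theorem Conn.monotone (x y : V) : Monotone (fun S : Finset (Sym2 V) => Conn S x y) := by
  intro S T hST h
  exact Conn.mono hST h

omit [DecidableEq V] in
theorem Conn.of_mem {S : Finset (Sym2 V)} {x y : V} (h : s(x, y) ∈ S) : Conn S x y := by
  by_cases hxy : x = y
  · rw [hxy]; exact Conn.refl S y
  · apply SimpleGraph.Adj.reachable
    rw [sym2_adj_fromEdgeSet]
    exact ⟨by exact_mod_cast h, hxy⟩

omit [DecidableEq V] in
theorem conn_of_walk {S : Set (Sym2 V)} {T : Finset (Sym2 V)} {x y : V}
    (w : (SimpleGraph.fromEdgeSet S).Walk x y) (h : ∀ e ∈ w.edges, e ∈ T) : Conn T x y := by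
  have : ∀ e ∈ w.edges, e ∈ (SimpleGraph.fromEdgeSet (T : Set (Sym2 V))).edgeSet := by
    intro e he
    have h1 := w.edges_subset_edgeSet he
    rw [SimpleGraph.edgeSet_fromEdgeSet] at h1 ⊢
    exact ⟨by exact_mod_cast h e he, h1.2⟩
  exact (w.transfer _ this).reachable

omit [DecidableEq V] in
theorem walk_edges_mem {S : Finset (Sym2 V)} {x y : V}
    (w : (SimpleGraph.fromEdgeSet (S : Set (Sym2 V))).Walk x y) : ∀ e ∈ w.edges, e ∈ S := by
  intro e he
  have h1 := w.edges_subset_edgeSet he
  rw [SimpleGraph.edgeSet_fromEdgeSet] at h1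
  exact_mod_cast h1.1

/-- edges avoiding the vertex o -/
def off (o : V) (S : Finset (Sym2 V)) : Finset (Sym2 V) := S.filter (fun e => o ∉ e)

theorem off_subset (o : V) (S : Finset (Sym2 V)) : off o S ⊆ S := Finset.filter_subset _ _

theorem mem_off {o : V} {S : Finset (Sym2 V)} {e : Sym2 V} : e ∈ off o S ↔ e ∈ S ∧ o ∉ e := by
  simp [off]

/-- disjoint occurrence from a walk cut at a vertex of its support -/
theorem disjOcc_of_mem_support {S : Finset (Sym2 V)} {x y o : V}
    (w : (SimpleGraph.fromEdgeSet (S : Set (Sym2 V))).Walk x y) (hw : w.IsTrail)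
    (ho : o ∈ w.support) :
    DisjOcc (fun T => Conn T x o) (fun T => Conn T o y) S := by
  refine ⟨(w.takeUntil o ho).edges.toFinset, (w.dropUntil o ho).edges.toFinset, ?_, ?_, ?_, ?_, ?_⟩
  · intro e he
    rw [List.mem_toFinset] at he
    exact walk_edges_mem w e (w.edges_takeUntil_subset_edges ho he)
  · intro e he
    rw [List.mem_toFinset] at he
    exact walk_edges_mem w e (w.edges_dropUntil_subset_edges ho he)
  · rw [Finset.disjoint_left]
    intro e h1 h2
    rw [List.mem_toFinset] at h1 h2
    have h3 := hw.edges_nodup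
    rw [← w.take_spec ho, Walk.edges_append] at h3
    exact (List.disjoint_of_nodup_append h3) h1 h2
  · exact conn_of_walk _ (fun e he => List.mem_toFinset.2 he)
  · exact conn_of_walk _ (fun e he => List.mem_toFinset.2 he)

theorem conn_off_or {S : Finset (Sym2 V)} {x y : V} (o : V) (h : Conn S x y) :
    Conn (off o S) x y ∨ DisjOcc (fun T => Conn T x o) (fun T => Conn T o y) S := by
  obtain ⟨w, hw⟩ := h.exists_isPath
  by_cases ho : o ∈ w.support
  · right
    exact disjOcc_of_mem_support w hw.isTrail ho
  · left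
    apply conn_of_walk w
    intro e he
    rw [mem_off]
    refine ⟨walk_edges_mem w e he, fun hoe => ho ?_⟩
    exact w.mem_support_of_mem_edges he hoe

theorem conn_first_step {S : Finset (Sym2 V)} {o v : V} (h : Conn S o v) (hov : o ≠ v) :
    ∃ y, s(o, y) ∈ S ∧ o ≠ y ∧ Conn (off o S) y v := by
  obtain ⟨w, hw⟩ := h.exists_isPath
  cases w with
  | nil => exact absurd rfl hov
  | @cons _ y _ hadj w' =>
    rw [sym2_adj_fromEdgeSet] at hadj
    refine ⟨y, by exact_mod_cast hadj.1, hadj.2, ?_⟩
    rw [Walk.cons_isPath_iff] at hw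
    apply conn_of_walk w'
    intro e he
    rw [mem_off]
    refine ⟨walk_edges_mem w' e he, fun hoe => hw.2 ?_⟩
    exact w'.mem_support_of_mem_edges he hoe

omit [DecidableEq V] in
/-- follow a walk until it first hits a set -/
theorem exists_first_hit {G : SimpleGraph V} {A : Set V} {x y : V} (w : G.Walk x y) (hy : y ∈ A) :
    ∃ (u : V) (w' : G.Walk x u), u ∈ A ∧ (∀ e ∈ w'.edges, e ∈ w.edges) ∧
      (∀ z ∈ w'.support, z ∈ A → z = u) := by
  induction w with
  | nil => exact ⟨_, Walk.nil, hy, by simp, by simp⟩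
  | @cons a b c hadj w ih =>
    by_cases ha : a ∈ A
    · exact ⟨a, Walk.nil, ha, by simp, by simp⟩
    · obtain ⟨u, w', h1, h2, h3⟩ := ih hy
      refine ⟨u, Walk.cons hadj w', h1, ?_, ?_⟩
      · intro e he
        rw [Walk.edges_cons, List.mem_cons] at he ⊢
        rcases he with he | he
        · exact Or.inl he
        · exact Or.inr (h2 e he)
      · intro z hz hzA
        rw [Walk.support_cons, List.mem_cons] at hz
        rcases hz with hz | hz
        · exact absurd (hz ▸ hzA) ha
        · exact h3 z hz hzA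

theorem tree_graph {S : Finset (Sym2 V)} {y y' v : V} (h1 : Conn S y y') (h2 : Conn S y v) :
    ∃ u, Conn S y u ∧ DisjOcc (fun T => Conn T y u)
      (DisjOcc (fun T => Conn T u y') (fun T => Conn T u v)) S := by
  obtain ⟨P, hP⟩ := h1.exists_isPath
  obtain ⟨Q, _⟩ := h2.symm.exists_isPath
  obtain ⟨u, Q', hu, hQe, hQs⟩ := exists_first_hit (A := {z | z ∈ P.support}) Q
    (by simp)
  have hu' : u ∈ P.support := hu
  have hdisj : ∀ e ∈ Q'.edges, e ∉ P.edges := by
    intro e he heP
    induction e using Sym2.ind with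
    | _ a b =>
      have ha1 := Q'.fst_mem_support_of_mem_edges he
      have hb1 := Q'.snd_mem_support_of_mem_edges he
      have ha2 := P.fst_mem_support_of_mem_edges heP
      have hb2 := P.snd_mem_support_of_mem_edges heP
      have ha := hQs a ha1 ha2
      have hb := hQs b hb1 hb2
      have hadj := Q'.adj_of_mem_edges he
      exact hadj.ne (ha.trans hb.symm)
  have hPn := hP.isTrail.edges_nodup
  rw [← P.take_spec hu', Walk.edges_append] at hPn
  have hPd := List.disjoint_of_nodup_append hPn
  refine ⟨u, ?_, (P.takeUntil u hu').edges.toFinset,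
    (P.dropUntil u hu').edges.toFinset ∪ Q'.edges.toFinset, ?_, ?_, ?_, ?_, ?_⟩
  · exact conn_of_walk (P.takeUntil u hu') (fun e he =>
      walk_edges_mem P e (P.edges_takeUntil_subset_edges hu' he))
  · intro e he
    rw [List.mem_toFinset] at he
    exact walk_edges_mem P e (P.edges_takeUntil_subset_edges hu' he)
  · intro e he
    rw [Finset.mem_union, List.mem_toFinset, List.mem_toFinset] at he
    rcases he with he | he
    · exact walk_edges_mem P e (P.edges_dropUntil_subset_edges hu' he)
    · exact walk_edges_mem Q' e he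
  · rw [Finset.disjoint_left]
    intro e he1 he2
    rw [List.mem_toFinset] at he1
    rw [Finset.mem_union, List.mem_toFinset, List.mem_toFinset] at he2
    rcases he2 with he2 | he2
    · exact hPd he1 he2
    · exact hdisj e he2 (P.edges_takeUntil_subset_edges hu' he1)
  · exact conn_of_walk _ (fun e he => List.mem_toFinset.2 he)
  · refine ⟨(P.dropUntil u hu').edges.toFinset, Q'.edges.toFinset,
      Finset.subset_union_left, Finset.subset_union_right, ?_, ?_, ?_⟩
    · rw [Finset.disjoint_left]
      intro e he1 he2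
      rw [List.mem_toFinset] at he1 he2
      exact hdisj e he2 (P.edges_dropUntil_subset_edges hu' he1)
    · exact conn_of_walk _ (fun e he => List.mem_toFinset.2 he)
    · exact (conn_of_walk Q' (fun e he => List.mem_toFinset.2 he)).symm

open Classical in
/-- edges with both endpoints in T -/
noncomputable def inside (T : Finset V) (S : Finset (Sym2 V)) : Finset (Sym2 V) :=
  S.filter (fun e => ∀ v ∈ e, v ∈ T)

omit [DecidableEq V] in
theorem mem_inside {T : Finset V} {S : Finset (Sym2 V)} {e : Sym2 V} :
    e ∈ inside T S ↔ e ∈ S ∧ ∀ v ∈ e, v ∈ T := by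
  simp [inside]

omit [DecidableEq V] in
theorem inside_subset (T : Finset V) (S : Finset (Sym2 V)) : inside T S ⊆ S := by
  intro e he
  exact (mem_inside.1 he).1

omit [DecidableEq V] in
theorem inside_mono (T : Finset V) : Monotone (inside T) := by
  intro S S' h e he
  rw [mem_inside] at he ⊢
  exact ⟨h he.1, he.2⟩

omit [DecidableEq V] in
/-- first exit of a walk from a set -/
theorem exists_first_exit {G : SimpleGraph V} {T : Set V} {x y : V} (w : G.Walk x y)
    (hx : x ∈ T) (hy : y ∉ T) :
    ∃ (a b : V) (w₁ : G.Walk x a) (hab : G.Adj a b) (w₂ : G.Walk b y),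
      w = w₁.append (Walk.cons hab w₂) ∧ (∀ z ∈ w₁.support, z ∈ T) ∧ b ∉ T := by
  induction w with
  | nil => exact absurd hx hy
  | @cons u v z hadj w ih =>
    by_cases hv : v ∈ T
    · obtain ⟨a, b, w₁, hab, w₂, h1, h2, h3⟩ := ih hv hy
      refine ⟨a, b, Walk.cons hadj w₁, hab, w₂, ?_, ?_, h3⟩
      · rw [Walk.cons_append, ← h1]
      · intro z hz
        rw [Walk.support_cons, List.mem_cons] at hz
        rcases hz with hz | hz
        · rw [hz]; exact hx
        · exact h2 z hz
    · exact ⟨u, v, Walk.nil, hadj, w, rfl, by simpa using hx, hv⟩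

theorem conn_exit {S : Finset (Sym2 V)} {T : Finset V} {o v : V} (ho : o ∈ T) (h : Conn S o v) :
    Conn (inside T S) o v ∨ ∃ a b, a ∈ T ∧ b ∉ T ∧ s(a, b) ∈ S ∧
      DisjOcc (fun R => Conn (inside T R) o a)
        (DisjOcc (fun R => s(a, b) ∈ R) (fun R => Conn R b v)) S := by
  obtain ⟨w, hw⟩ := h.exists_isPath
  by_cases hT : ∀ z ∈ w.support, z ∈ T
  · left
    apply conn_of_walk w
    intro e he
    rw [mem_inside]
    refine ⟨walk_edges_mem w e he, fun z hz => ?_⟩
    exact hT z (w.mem_support_of_mem_edges he hz)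
  · right
    push Not at hT
    obtain ⟨z, hz, hzT⟩ := hT
    have hexit := exists_first_exit (T := (T : Set V)) (w.takeUntil z hz)
      (by exact_mod_cast ho) (by exact_mod_cast hzT)
    obtain ⟨a, b, w₁, hab, w₂, h1, h2, h3⟩ := hexit
    have hw' : w = w₁.append (Walk.cons hab (w₂.append (w.dropUntil z hz))) := by
      conv_lhs => rw [← w.take_spec hz, h1]
      rw [← Walk.append_assoc, Walk.cons_append]
    have hn := hw.isTrail.edges_nodup
    rw [hw', Walk.edges_append, Walk.edges_cons] at hn
    have hd1 := List.disjoint_of_nodup_append hn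
    have hn2 : (s(a, b) :: (w₂.append (w.dropUntil z hz)).edges).Nodup :=
      (List.nodup_append.1 hn).2.1
    have hsub : ∀ e ∈ w₁.edges ++ s(a, b) :: (w₂.append (w.dropUntil z hz)).edges, e ∈ S := by
      intro e he
      apply walk_edges_mem w e
      rw [hw', Walk.edges_append, Walk.edges_cons]
      exact he
    have ha : a ∈ T := by exact_mod_cast h2 a w₁.end_mem_support
    refine ⟨a, b, ha, by exact_mod_cast h3, ?_, w₁.edges.toFinset,
      (s(a, b) :: (w₂.append (w.dropUntil z hz)).edges).toFinset, ?_, ?_, ?_, ?_, ?_⟩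
    · exact hsub _ (by simp)
    · intro e he
      rw [List.mem_toFinset] at he
      exact hsub e (List.mem_append_left _ he)
    · intro e he
      rw [List.mem_toFinset] at he
      exact hsub e (List.mem_append_right _ he)
    · rw [Finset.disjoint_left]
      intro e he1 he2
      rw [List.mem_toFinset] at he1 he2
      exact hd1 he1 he2
    · apply conn_of_walk w₁
      intro e he
      rw [mem_inside, List.mem_toFinset]
      refine ⟨he, fun x hx => ?_⟩
      exact_mod_cast h2 x (w₁.mem_support_of_mem_edges he hx)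
    · refine ⟨{s(a, b)}, (w₂.append (w.dropUntil z hz)).edges.toFinset, ?_, ?_, ?_, ?_, ?_⟩
      · simp
      · intro e he
        rw [List.mem_toFinset] at he ⊢
        exact List.mem_cons_of_mem _ he
      · rw [Finset.disjoint_singleton_left, List.mem_toFinset]
        exact (List.nodup_cons.1 hn2).1
      · simp
      · exact conn_of_walk _ (fun e he => List.mem_toFinset.2 he)

end Vale.Agent.P165
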