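import Vale.Agent.P165.Vol
import Vale.Agent.P165.Defs

namespace Vale.Agent.P165

open Finset SimpleGraph MeasureTheory ProbabilityTheory unitInterval

variable {V : Type*}

def Rch (x y : V) : Set (Set (Sym2 V)) := {ω | (SimpleGraph.fromEdgeSet ω).Reachable x y}

def Kinf (x : V) : Set (Set (Sym2 V)) :=
  {ω | {y | (SimpleGraph.fromEdgeSet ω).Reachable x y}.Infinite}

/-- x is connected in ω to the outside of L -/
def Out (L : Finset V) (x : V) : Set (Set (Sym2 V)) :=
  {ω | ∃ v, v ∉ L ∧ (SimpleGraph.fromEdgeSet ω).Reachable x v}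

theorem numInf_pos_iff {ω : Set (Sym2 V)} : 1 ≤ numInf ω ↔ ∃ x, ω ∈ Kinf x := by
  unfold numInf
  rw [Set.one_le_encard_iff_nonempty]
  constructor
  · rintro ⟨c, hc⟩
    induction c using SimpleGraph.ConnectedComponent.ind with
    | _ x =>
      refine ⟨x, ?_⟩
      have : ((SimpleGraph.fromEdgeSet ω).connectedComponentMk x).supp =
          {y | (SimpleGraph.fromEdgeSet ω).Reachable x y} := by
        ext y
        simp only [SimpleGraph.ConnectedComponent.mem_supp_iff,
          SimpleGraph.ConnectedComponent.eq, Set.mem_ofPred_eq]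
        exact ⟨Reachable.symm, Reachable.symm⟩
      change Set.Infinite _ at hc
      rw [this] at hc
      exact hc
  · rintro ⟨x, hx⟩
    refine ⟨(SimpleGraph.fromEdgeSet ω).connectedComponentMk x, ?_⟩
    have : ((SimpleGraph.fromEdgeSet ω).connectedComponentMk x).supp =
        {y | (SimpleGraph.fromEdgeSet ω).Reachable x y} := by
      ext y
      simp only [SimpleGraph.ConnectedComponent.mem_supp_iff,
        SimpleGraph.ConnectedComponent.eq, Set.mem_ofPred_eq]
      exact ⟨Reachable.symm, Reachable.symm⟩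
    change Set.Infinite _
    rw [this]
    exact hx

theorem supp_eq (ω : Set (Sym2 V)) (x : V) :
    ((SimpleGraph.fromEdgeSet ω).connectedComponentMk x).supp =
      {y | (SimpleGraph.fromEdgeSet ω).Reachable x y} := by
  ext y
  simp only [SimpleGraph.ConnectedComponent.mem_supp_iff,
    SimpleGraph.ConnectedComponent.eq, Set.mem_ofPred_eq]
  exact ⟨Reachable.symm, Reachable.symm⟩

theorem unique_reach {ω : Set (Sym2 V)} (h : numInf ω = 1) {x y : V} (hx : ω ∈ Kinf x)
    (hy : ω ∈ Kinf y) : ω ∈ Rch x y := by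
  unfold numInf at h
  rw [Set.encard_eq_one] at h
  obtain ⟨c, hc⟩ := h
  have h1 : (SimpleGraph.fromEdgeSet ω).connectedComponentMk x ∈
      {c : (SimpleGraph.fromEdgeSet ω).ConnectedComponent | c.supp.Infinite} := by
    change Set.Infinite _
    rw [supp_eq]; exact hx
  have h2 : (SimpleGraph.fromEdgeSet ω).connectedComponentMk y ∈
      {c : (SimpleGraph.fromEdgeSet ω).ConnectedComponent | c.supp.Infinite} := by
    change Set.Infinite _
    rw [supp_eq]; exact hy
  rw [hc, Set.mem_singleton_iff] at h1 h2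
  exact SimpleGraph.ConnectedComponent.exact (h1.trans h2.symm)

/-- an exhaustion of V by finite sets -/
structure Exh (L : ℕ → Finset V) : Prop where
  mono : Monotone L
  ex : ∀ v, ∃ n, v ∈ L n

theorem Exh.countable {L : ℕ → Finset V} (hL : Exh L) : Countable V := by
  have : (Set.univ : Set V) = ⋃ n, (L n : Set V) := by
    ext v
    simp only [Set.mem_univ, Set.mem_iUnion, true_iff]
    obtain ⟨n, hn⟩ := hL.ex v
    exact ⟨n, by exact_mod_cast hn⟩
  rw [← Set.countable_univ_iff, this]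
  exact Set.countable_iUnion (fun n => (L n).countable_toSet)

variable [DecidableEq V]

theorem reach_of_conn_rst {F : Finset (Sym2 V)} {ω : Set (Sym2 V)} {x y : V}
    (h : Conn (rst F ω) x y) : (SimpleGraph.fromEdgeSet ω).Reachable x y := by
  apply Reachable.mono _ h
  apply SimpleGraph.fromEdgeSet_mono
  intro e he
  exact (mem_rst.1 (by exact_mod_cast he)).2

theorem exists_sym2_of_walk {L : ℕ → Finset V} (hL : Exh L) {ω : Set (Sym2 V)} {x y : V}
    (w : (SimpleGraph.fromEdgeSet ω).Walk x y) : ∃ n, ∀ e ∈ w.edges, e ∈ (L n).sym2 := by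
  induction w with
  | nil => exact ⟨0, by simp⟩
  | @cons a b c hab w ih =>
    obtain ⟨n, hn⟩ := ih
    obtain ⟨k, hk⟩ := hL.ex a
    obtain ⟨l, hl⟩ := hL.ex b
    refine ⟨max n (max k l), ?_⟩
    intro e he
    rw [Walk.edges_cons, List.mem_cons] at he
    rcases he with rfl | he
    · rw [Finset.mk_mem_sym2_iff]
      exact ⟨hL.mono (le_trans (le_max_left k l) (le_max_right n _)) hk,
        hL.mono (le_trans (le_max_right k l) (le_max_right n _)) hl⟩
    · exact Finset.sym2_mono (hL.mono (le_max_left n _)) (hn e he)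

theorem Rch_eq {L : ℕ → Finset V} (hL : Exh L) (x y : V) :
    Rch x y = ⋃ n, {ω | Conn (rst (L n).sym2 ω) x y} := by
  ext ω
  simp only [Set.mem_iUnion, Set.mem_ofPred_eq]
  constructor
  · rintro ⟨w⟩
    obtain ⟨n, hn⟩ := exists_sym2_of_walk hL w
    refine ⟨n, conn_of_walk w ?_⟩
    intro e he
    rw [mem_rst]
    refine ⟨hn e he, ?_⟩
    have h1 := w.edges_subset_edgeSet he
    rw [SimpleGraph.edgeSet_fromEdgeSet] at h1
    exact h1.1
  · rintro ⟨n, hn⟩
    exact reach_of_conn_rst hn

theorem measurable_Rch {L : ℕ → Finset V} (hL : Exh L) (x y : V) : MeasurableSet (Rch x y) := by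
  rw [Rch_eq hL]
  exact MeasurableSet.iUnion (fun n => measurable_event _ (fun S => Conn S x y))

theorem Out_eq (L : Finset V) (x : V) :
    Out L x = ⋃ v ∈ {v : V | v ∉ L}, Rch x v := by
  ext ω
  simp [Out, Rch]

theorem measurable_Out {L : ℕ → Finset V} (hL : Exh L) (K : Finset V) (x : V) :
    MeasurableSet (Out K x) := by
  have := hL.countable
  rw [Out_eq]
  exact MeasurableSet.biUnion (Set.to_countable _) (fun v _ => measurable_Rch hL x v)

theorem Kinf_eq {L : ℕ → Finset V} (hL : Exh L) (x : V) : Kinf x = ⋂ n, Out (L n) x := by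
  ext ω
  simp only [Set.mem_iInter]
  constructor
  · intro h n
    obtain ⟨v, hv, hvn⟩ := h.exists_notMem_finset (L n)
    exact ⟨v, hvn, hv⟩
  · intro h hfin
    have hfin' : {y | (SimpleGraph.fromEdgeSet ω).Reachable x y}.Finite := hfin
    have : ∃ n, ∀ y ∈ hfin'.toFinset, y ∈ L n := by
      induction hfin'.toFinset using Finset.induction_on with
      | empty => exact ⟨0, by simp⟩
      | insert a s _ ih =>
        obtain ⟨n, hn⟩ := ih
        obtain ⟨m, hm⟩ := hL.ex a
        refine ⟨max n m, ?_⟩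
        intro y hy
        rw [Finset.mem_insert] at hy
        rcases hy with rfl | hy
        · exact hL.mono (le_max_right n m) hm
        · exact hL.mono (le_max_left n m) (hn y hy)
    obtain ⟨n, hn⟩ := this
    obtain ⟨v, hv, hr⟩ := h n
    exact hv (hn v (hfin'.mem_toFinset.2 hr))

theorem measurable_Kinf {L : ℕ → Finset V} (hL : Exh L) (x : V) : MeasurableSet (Kinf x) := by
  rw [Kinf_eq hL]
  exact MeasurableSet.iInter (fun n => measurable_Out hL (L n) x)

omit [DecidableEq V] in
theorem Out_anti {K K' : Finset V} (h : K ⊆ K') (x : V) : Out K' x ⊆ Out K x := by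
  rintro ω ⟨v, hv, hr⟩
  exact ⟨v, fun h2 => hv (h h2), hr⟩

theorem event_subset_Out (nb : V → Finset V) (L : Finset V) (x : V) :
    {ω : Set (Sym2 V) | Esc L x (rst (eTouch nb L) ω)} ⊆ Out L x := by
  rintro ω ⟨v, hv, hc⟩
  exact ⟨v, hv, reach_of_conn_rst hc⟩

section
variable {G : SimpleGraph V} {nb : V → Finset V} (hnb : ∀ x y, y ∈ nb x ↔ G.Adj x y)
  {L : ℕ → Finset V} (hL : Exh L) (q : I)
include hnb

omit [DecidableEq V] in
theorem nb_symm (x y : V) (h : y ∈ nb x) : x ∈ nb y := by
  rw [hnb] at h ⊢; exact h.symm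

theorem eTouch_edge (K : Finset V) : ∀ e ∈ eTouch nb K, e ∈ G.edgeSet := by
  intro e he
  induction e using Sym2.ind with
  | _ a b =>
    rw [mem_eTouch (nb_symm hnb)] at he
    rw [SimpleGraph.mem_edgeSet]
    exact (hnb a b).1 he.1

theorem eIn_edge (K : Finset V) : ∀ e ∈ eIn nb K, e ∈ G.edgeSet := by
  intro e he
  induction e using Sym2.ind with
  | _ a b =>
    rw [mem_eIn (nb_symm hnb)] at he
    rw [SimpleGraph.mem_edgeSet]
    exact (hnb a b).1 he.1

theorem measure_esc (K : Finset V) (x : V) :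
    (setBernoulli G.edgeSet q).real {ω | Esc K x (rst (eTouch nb K) ω)} = theta q nb K x :=
  setBernoulli_event _ q (eTouch_edge hnb K) (Esc K x)

/-- the probability that the clusters of x and y are both infinite -/
theorem Kinf_inter_ge (hL : Exh L) {δ : ℝ} (hδ : 0 ≤ δ) (x y : V)
    (hx : ∀ K : Finset V, x ∈ K → δ ≤ theta q nb K x)
    (hy : ∀ K : Finset V, y ∈ K → δ ≤ theta q nb K y) :
    ENNReal.ofReal (δ * δ) ≤ setBernoulli G.edgeSet q (Kinf x ∩ Kinf y) := by
  have e1 : Kinf x ∩ Kinf y = ⋂ n, (Out (L n) x ∩ Out (L n) y) := by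
    rw [Kinf_eq hL, Kinf_eq hL, Set.iInter_inter_distrib]
  have hanti : Antitone (fun n => Out (L n) x ∩ Out (L n) y) := by
    intro n m hnm
    exact Set.inter_subset_inter (Out_anti (hL.mono hnm) x) (Out_anti (hL.mono hnm) y)
  have hlim := tendsto_measure_iInter_atTop (μ := setBernoulli G.edgeSet q)
    (s := fun n => Out (L n) x ∩ Out (L n) y)
    (fun n => ((measurable_Out hL _ x).inter (measurable_Out hL _ y)).nullMeasurableSet)
    hanti ⟨0, measure_ne_top _ _⟩
  rw [e1]
  apply ge_of_tendsto hlim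
  obtain ⟨n1, hn1⟩ := hL.ex x
  obtain ⟨n2, hn2⟩ := hL.ex y
  filter_upwards [Filter.eventually_ge_atTop (max n1 n2)] with n hn
  have hxn : x ∈ L n := hL.mono ((le_max_left n1 n2).trans hn) hn1
  have hyn : y ∈ L n := hL.mono ((le_max_right n1 n2).trans hn) hn2
  have h1 : {ω : Set (Sym2 V) | Esc (L n) x (rst (eTouch nb (L n)) ω) ∧
      Esc (L n) y (rst (eTouch nb (L n)) ω)} ⊆ Out (L n) x ∩ Out (L n) y := by
    rintro ω ⟨ha, hb⟩
    exact ⟨event_subset_Out nb (L n) x ha, event_subset_Out nb (L n) y hb⟩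
  refine le_trans ?_ (measure_mono h1)
  have h2 := setBernoulli_event G.edgeSet q (eTouch_edge hnb (L n))
    (fun S => Esc (L n) x S ∧ Esc (L n) y S)
  have h3 : δ * δ ≤ Pr q (eTouch nb (L n)) (fun S => Esc (L n) x S ∧ Esc (L n) y S) := by
    have hh := Ex_harris q.2.1 q.2.2 (eTouch nb (L n)) (f := fun S => ind (Esc (L n) x S))
      (g := fun S => ind (Esc (L n) y S)) (fun S T hST => ind_mono (Esc.mono hST))
      (fun S T hST => ind_mono (Esc.mono hST))
    have h4 : Ex q (eTouch nb (L n)) (fun S => ind (Esc (L n) x S) * ind (Esc (L n) y S)) =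
        Pr q (eTouch nb (L n)) (fun S => Esc (L n) x S ∧ Esc (L n) y S) := by
      unfold Pr
      apply Ex_congr
      intro S _
      rw [ind_and]
    rw [h4] at hh
    refine le_trans ?_ hh
    exact mul_le_mul (hx _ hxn) (hy _ hyn) hδ (hδ.trans (hx _ hxn))
  rw [← h2] at h3
  calc ENNReal.ofReal (δ * δ) ≤ ENNReal.ofReal ((setBernoulli G.edgeSet q).real
        {ω | Esc (L n) x (rst (eTouch nb (L n)) ω) ∧ Esc (L n) y (rst (eTouch nb (L n)) ω)}) :=
        ENNReal.ofReal_le_ofReal h3
    _ = _ := by rw [measureReal_def, ENNReal.ofReal_toReal (measure_ne_top _ _)]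

/-- an infinite cluster has positive probability -/
theorem exists_inf_pos (hL : Exh L) {δ : ℝ} (hδ : 0 < δ) (x : V)
    (hx : ∀ K : Finset V, x ∈ K → δ ≤ theta q nb K x) :
    0 < setBernoulli G.edgeSet q {ω | 1 ≤ numInf ω} := by
  have h1 := Kinf_inter_ge hnb q hL hδ.le x x hx hx
  rw [Set.inter_self] at h1
  have h2 : Kinf x ⊆ {ω | 1 ≤ numInf ω} := by
    intro ω hω
    exact numInf_pos_iff.2 ⟨x, hω⟩
  refine lt_of_lt_of_le ?_ (h1.trans (measure_mono h2))
  rw [ENNReal.ofReal_pos]
  positivity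

theorem esc_of_inf {ω : Set (Sym2 V)} (hω : ω ⊆ G.edgeSet) {K : Finset V} {x : V} (hx : x ∈ K)
    (hinf : ω ∈ Kinf x) : Esc K x (rst (eTouch nb K) ω) := by
  obtain ⟨v, hv, hvn⟩ := Set.Infinite.exists_notMem_finset hinf K
  obtain ⟨w⟩ := hv
  obtain ⟨a, b, w₁, hab, w₂, h1, h2, h3⟩ := exists_first_exit (T := (K : Set V)) w
    (by exact_mod_cast hx) (by exact_mod_cast hvn)
  have hadj : ∀ {s t : V}, (SimpleGraph.fromEdgeSet ω).Adj s t → s ∈ K →
      s(s, t) ∈ rst (eTouch nb K) ω := by
    intro s t hst hs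
    rw [sym2_adj_fromEdgeSet] at hst
    rw [mem_rst, mem_eTouch (nb_symm hnb)]
    have := hω hst.1
    rw [SimpleGraph.mem_edgeSet] at this
    exact ⟨⟨(hnb s t).2 this, Or.inl hs⟩, hst.1⟩
  have haK : a ∈ K := by exact_mod_cast h2 a w₁.end_mem_support
  refine ⟨b, by exact_mod_cast h3, ?_⟩
  apply Conn.trans (y := a)
  · apply conn_of_walk w₁
    intro e he
    induction e using Sym2.ind with
    | _ s t =>
      exact hadj (w₁.adj_of_mem_edges he)
        (by exact_mod_cast h2 s (w₁.fst_mem_support_of_mem_edges he))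
  · exact Conn.of_mem (hadj hab haK)

theorem theta_ge_Kinf (hL : Exh L) (x : V) (K : Finset V) (hx : x ∈ K) :
    (setBernoulli G.edgeSet q).real (Kinf x) ≤ theta q nb K x := by
  have := hL.countable
  rw [← measure_esc hnb q K x]
  rw [measureReal_def, measureReal_def]
  apply ENNReal.toReal_mono (measure_ne_top _ _)
  apply measure_mono_ae
  filter_upwards [setBernoulli_ae_subset (u := G.edgeSet) (p := q)] with ω hω h
  exact esc_of_inf hnb hω hx h

theorem Rch_le (hL : Exh L) (x y : V) {B : ℝ}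
    (hB : ∀ n, tau q (eIn nb (L n)) x y ≤ B) :
    setBernoulli G.edgeSet q (Rch x y) ≤ ENNReal.ofReal B := by
  have hc := hL.countable
  have h1 : setBernoulli G.edgeSet q (Rch x y) ≤
      setBernoulli G.edgeSet q (⋃ n, {ω | Conn (rst (eIn nb (L n)) ω) x y}) := by
    apply measure_mono_ae
    filter_upwards [setBernoulli_ae_subset (u := G.edgeSet) (p := q)] with ω hω h
    obtain ⟨w⟩ := h
    obtain ⟨n, hn⟩ := exists_sym2_of_walk hL w
    apply Set.mem_iUnion.2
    refine ⟨n, conn_of_walk w ?_⟩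
    intro e he
    have h1 := w.edges_subset_edgeSet he
    rw [SimpleGraph.edgeSet_fromEdgeSet] at h1
    rw [mem_rst]
    refine ⟨?_, h1.1⟩
    have h2 := hn e he
    have h3 := hω h1.1
    induction e using Sym2.ind with
    | _ a b =>
      rw [Finset.mk_mem_sym2_iff] at h2
      rw [SimpleGraph.mem_edgeSet] at h3
      rw [mem_eIn (nb_symm hnb)]
      exact ⟨(hnb a b).2 h3, h2⟩
  refine h1.trans ?_
  have hmono : Monotone (fun n => {ω : Set (Sym2 V) | Conn (rst (eIn nb (L n)) ω) x y}) := by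
    intro n m hnm ω h
    apply Conn.mono _ h
    intro e he
    rw [mem_rst] at he ⊢
    refine ⟨?_, he.2⟩
    have h2 := he.1
    induction e using Sym2.ind with
    | _ a b =>
      rw [mem_eIn (nb_symm hnb)] at h2 ⊢
      exact ⟨h2.1, hL.mono hnm h2.2.1, hL.mono hnm h2.2.2⟩
  rw [hmono.measure_iUnion]
  apply iSup_le
  intro n
  have h2 := setBernoulli_event G.edgeSet q (eIn_edge hnb (L n)) (fun S => Conn S x y)
  have h3 : (setBernoulli G.edgeSet q).real {ω | Conn (rst (eIn nb (L n)) ω) x y} ≤ B := by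
    rw [h2]; exact hB n
  calc setBernoulli G.edgeSet q {ω | Conn (rst (eIn nb (L n)) ω) x y}
      = ENNReal.ofReal ((setBernoulli G.edgeSet q).real
          {ω | Conn (rst (eIn nb (L n)) ω) x y}) := by
        rw [measureReal_def, ENNReal.ofReal_toReal (measure_ne_top _ _)]
    _ ≤ ENNReal.ofReal B := ENNReal.ofReal_le_ofReal h3

end

end Vale.Agent.P165
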