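import Vale.Agent.P165.Criterion

namespace Vale.Agent.P165

open Finset SimpleGraph

variable {V : Type*} [DecidableEq V]

def IsAut (nb : V → Finset V) (ψ : V ≃ V) : Prop := ∀ x y, ψ y ∈ nb (ψ x) ↔ y ∈ nb x

theorem tw_aut {nb : V → Finset V} {ψ : V ≃ V} (hψ : IsAut nb ψ) (n : ℕ) (x : V) :
    tw nb n (ψ x) = tw nb n x := by
  induction n generalizing x with
  | zero => rfl
  | succ n ih =>
    have e1 : tw nb (n + 1) (ψ x) = ∑ z ∈ nb (ψ x), tw nb n z := rfl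
    have e2 : tw nb (n + 1) x = ∑ z ∈ nb x, tw nb n z := rfl
    rw [e1, e2, nb_map hψ, Finset.sum_map]
    apply Finset.sum_congr rfl
    intro z _
    exact ih z

omit [DecidableEq V] in
theorem tw_ge {nb : V → Finset V} {d : ℝ} (hd0 : 0 ≤ d) (hd : ∀ x, d ≤ ((nb x).card : ℝ)) (n : ℕ)
    (x : V) : d ^ n ≤ tw nb n x := by
  induction n generalizing x with
  | zero => simp [tw]
  | succ n ih =>
    have e : tw nb (n + 1) x = ∑ z ∈ nb x, tw nb n z := rfl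
    rw [e]
    calc d ^ (n + 1) = d * d ^ n := by rw [pow_succ]; ring
      _ ≤ ((nb x).card : ℝ) * d ^ n := mul_le_mul_of_nonneg_right (hd x) (pow_nonneg hd0 n)
      _ = ∑ _z ∈ nb x, d ^ n := by rw [Finset.sum_const, nsmul_eq_mul]
      _ ≤ ∑ z ∈ nb x, tw nb n z := Finset.sum_le_sum (fun z _ => ih z)

/-- isoperimetric criterion for quasi-transitive graphs -/
theorem iso_general [Infinite V] {G : SimpleGraph V} (hconn : G.Connected) {nb : V → Finset V}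
    (hnb : ∀ x y, y ∈ nb x ↔ G.Adj x y) {L : ℕ → Finset V} (hL : Exh L) (hqt : QT nb)
    {Δ κ ε : ℝ} (hκ0 : 0 < κ) (hκ1 : κ ≤ 1) (hε0 : 0 < ε) (hε1 : ε ≤ 1)
    (hΔ : ∀ x, ((nb x).card : ℝ) ≤ Δ) (hmin : ∀ x, κ * Δ ≤ ((nb x).card : ℝ))
    (hiso : ∀ A : Finset V, ε * Δ * A.card ≤ ∑ x ∈ A, ((nb x \ A).card : ℝ))
    (hratio : ∀ (s : ℝ) (φ : V → ℝ), 1 / Δ ≤ s → (∀ x, 0 ≤ φ x) →
      (∀ ψ : V ≃ V, IsAut nb ψ → ∀ x, φ (ψ x) = φ x) →
      (∀ x, s * ∑ z ∈ nb x, φ z ≤ φ x) → ∀ x y, κ * φ y ≤ φ x)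
    (hbig : 4608 ≤ Δ * κ ^ 8 * ε ^ 6) : pc G < pu G := by
  obtain ⟨o₀⟩ := hconn.nonempty
  have hΔpos : 0 < Δ := by
    by_contra h
    push Not at h
    have : Δ * κ ^ 8 * ε ^ 6 ≤ 0 :=
      mul_nonpos_of_nonpos_of_nonneg (mul_nonpos_of_nonpos_of_nonneg h (by positivity))
        (by positivity)
    linarith
  obtain ⟨δ, hδ⟩ : ∃ δ, δ = κ ^ 2 * ε ^ 2 / 4 := ⟨_, rfl⟩
  have hδ0 : 0 < δ := by rw [hδ]; positivity
  have hδ4 : δ ≤ 1 / 4 := by
    rw [hδ]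
    have h1 : κ ^ 2 ≤ 1 := pow_le_one₀ hκ0.le hκ1
    have h2 : ε ^ 2 ≤ 1 := pow_le_one₀ hε0.le hε1
    have h3 : κ ^ 2 * ε ^ 2 ≤ 1 * 1 := mul_le_mul h1 h2 (by positivity) (by norm_num)
    linarith
  obtain ⟨η, hη⟩ : ∃ η, η = 1 + δ / 40 := ⟨_, rfl⟩
  have hη1 : 1 < η := by rw [hη]; linarith
  have hη2 : η ^ 2 ≤ 1 + δ / 15 := by rw [hη]; nlinarith
  -- threshold
  let Sub : ℝ → Prop := fun s => ∃ N : ℕ, N ≠ 0 ∧ ∀ x, tw nb N x * s ^ N ≤ 1
  have hSub0 : Sub (1 / Δ) := by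
    refine ⟨1, one_ne_zero, fun x => ?_⟩
    have e : tw nb 1 x = ((nb x).card : ℝ) := by
      have : tw nb 1 x = ∑ z ∈ nb x, tw nb 0 z := rfl
      rw [this]; simp [tw]
    rw [e, pow_one, mul_one_div, div_le_one hΔpos]
    exact hΔ x
  have hSubLe : ∀ s, 0 < s → Sub s → κ * Δ * s ≤ 1 := by
    rintro s hs ⟨N, hN, hN2⟩
    have h1 := tw_ge (by positivity) hmin N o₀
    have h2 : (κ * Δ * s) ^ N ≤ 1 := by
      rw [mul_pow]
      exact (mul_le_mul_of_nonneg_right h1 (by positivity)).trans (hN2 o₀)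
    by_contra hcon
    push Not at hcon
    have := one_lt_pow₀ hcon hN
    linarith
  have hex : ∃ n : ℕ, Sub ((1 / Δ) * η ^ n) ∧ ¬ Sub ((1 / Δ) * η ^ (n + 1)) := by
    by_contra hcon
    push Not at hcon
    have hall : ∀ n : ℕ, Sub ((1 / Δ) * η ^ n) := by
      intro n
      induction n with
      | zero => simpa using hSub0
      | succ n ih => exact hcon n ih
    obtain ⟨n, hn⟩ := pow_unbounded_of_one_lt (1 / κ) hη1
    have h1 := hSubLe _ (by positivity) (hall n)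
    have h2 : κ * Δ * (1 / Δ * η ^ n) = κ * η ^ n := by field_simp
    rw [h2] at h1
    rw [div_lt_iff₀ hκ0] at hn
    linarith
  obtain ⟨n₀, hs1, hs2⟩ := hex
  obtain ⟨s, hs⟩ : ∃ s, s = (1 / Δ) * η ^ n₀ := ⟨_, rfl⟩
  have hspos : 0 < s := by rw [hs]; positivity
  have hsΔ : 1 / Δ ≤ s := by
    rw [hs]
    have : 1 ≤ η ^ n₀ := one_le_pow₀ hη1.le
    have h2 : 0 < 1 / Δ := by positivity
    nlinarith
  have hs2' : ¬ Sub (s * η) := by
    have : s * η = (1 / Δ) * η ^ (n₀ + 1) := by rw [hs, pow_succ]; ring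
    rw [this]; exact hs2
  rw [← hs] at hs1
  have hsκ : κ * Δ * s ≤ 1 := hSubLe s hspos hs1
  obtain ⟨N, hN0, hN⟩ := hs1
  -- the supersolution
  let φ : V → ℝ := fun x => ∑ n ∈ Finset.range N, tw nb n x * s ^ n
  have hφ0 : ∀ x, 0 ≤ φ x := fun x =>
    Finset.sum_nonneg (fun n _ => mul_nonneg (tw_nonneg nb n x) (pow_nonneg hspos.le n))
  have hφ1 : ∀ x, 1 ≤ φ x := by
    intro x
    have h1 : tw nb 0 x * s ^ 0 ≤ φ x :=
      Finset.single_le_sum (f := fun n => tw nb n x * s ^ n)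
        (fun n _ => mul_nonneg (tw_nonneg nb n x) (pow_nonneg hspos.le n))
        (Finset.mem_range.2 (Nat.pos_of_ne_zero hN0))
    simpa [tw] using h1
  have hφinv : ∀ ψ : V ≃ V, IsAut nb ψ → ∀ x, φ (ψ x) = φ x := by
    intro ψ hψ x
    apply Finset.sum_congr rfl
    intro n _
    rw [tw_aut hψ]
  have hφsup : ∀ x, s * ∑ z ∈ nb x, φ z ≤ φ x := by
    intro x
    have e1 : s * ∑ z ∈ nb x, φ z = ∑ n ∈ Finset.range N, tw nb (n + 1) x * s ^ (n + 1) := by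
      have : ∑ z ∈ nb x, φ z = ∑ n ∈ Finset.range N, ∑ z ∈ nb x, tw nb n z * s ^ n :=
        Finset.sum_comm
      rw [this, Finset.mul_sum]
      apply Finset.sum_congr rfl
      intro n _
      have e : tw nb (n + 1) x = ∑ z ∈ nb x, tw nb n z := rfl
      rw [e, ← Finset.sum_mul, pow_succ]; ring
    have e2 : ∑ n ∈ Finset.range N, tw nb (n + 1) x * s ^ (n + 1) + tw nb 0 x * s ^ 0 =
        φ x + tw nb N x * s ^ N := by
      rw [← Finset.sum_range_succ' (fun n => tw nb n x * s ^ n) N, Finset.sum_range_succ]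
    have e3 : tw nb 0 x * s ^ 0 = 1 := by simp [tw]
    rw [e1]
    have := hN x
    linarith
  obtain ⟨R, hR⟩ := hqt
  have hRne : R.Nonempty := by
    obtain ⟨r, hr, _⟩ := hR o₀
    exact ⟨r, hr⟩
  obtain ⟨r₁, _, hmax⟩ := Finset.exists_max_image R φ hRne
  have hφM : ∀ x, φ x ≤ φ r₁ := by
    intro x
    obtain ⟨r, hr, ψ, hψ, rfl⟩ := hR x
    rw [hφinv ψ hψ]; exact hmax r hr
  have hMpos : 0 < φ r₁ := lt_of_lt_of_le one_pos (hφ1 r₁)
  have hφm : ∀ x, κ * φ r₁ ≤ φ x := fun x => hratio s φ hsΔ hφ0 hφinv hφsup x r₁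
  -- quadratic form bound
  have hQ : ∀ (U : Finset V) (f : V → ℝ), (∀ x, 0 ≤ f x) →
      ip U f (opT nb U f) ≤ (1 / s * (1 - δ)) * ip U f f := by
    intro U f hf
    have h1 := quad_of_iso (nb_symm hnb) (h := ε * Δ) (D := Δ) (s := s) (m := κ * φ r₁)
      (M := φ r₁) (by positivity) hΔ hΔpos hiso hspos (by positivity) hφm hφM hφsup U f hf
    refine h1.trans ?_
    apply mul_le_mul_of_nonneg_right _ (Finset.sum_nonneg (fun x _ => mul_self_nonneg _))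
    have e1 : (κ * φ r₁) ^ 2 / φ r₁ ^ 2 * ((ε * Δ) ^ 2 / (4 * Δ)) = δ * Δ := by
      rw [hδ]; field_simp
    rw [e1]
    have h2 : 1 / s ≤ Δ := by
      rw [one_div, inv_le_comm₀ hspos hΔpos, ← one_div]; exact hsΔ
    have h3 : δ * (1 / s) ≤ δ * Δ := mul_le_mul_of_nonneg_left h2 hδ0.le
    linarith
  have hwk : ∀ n x y, wk nb (n + 2) x y ≤ Δ * (1 / s * (1 - δ)) ^ n := by
    intro n x y
    apply wk_le_of_quad (nb_symm hnb) _ hΔ hQ
    have : 0 < 1 - δ := by linarith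
    positivity
  have hw : κ * Δ ≤ 1 / s := by
    rw [le_div_iff₀ hspos]; exact hsκ
  -- growth
  have hgrow : ∃ r, ∀ M : ℝ, ∃ n, M < ((1 + δ / 15) / (1 / s)) ^ n * tw nb n r := by
    by_contra hcon
    push Not at hcon
    choose Mr hMr using hcon
    obtain ⟨r₂, _, hmax2⟩ := Finset.exists_max_image R Mr hRne
    obtain ⟨n, hn⟩ := pow_unbounded_of_one_lt (max (Mr r₂) 1) hη1
    have hn0 : n ≠ 0 := by
      rintro rfl
      rw [pow_zero] at hn
      exact absurd (le_max_right (Mr r₂) 1) (not_le.2 hn)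
    have : ∃ x, 1 < tw nb n x * (s * η) ^ n := by
      by_contra h
      push Not at h
      exact hs2' ⟨n, hn0, h⟩
    obtain ⟨x, hx⟩ := this
    obtain ⟨r, hr, ψ, hψ, rfl⟩ := hR x
    rw [tw_aut hψ] at hx
    have h1 := hMr r n
    have h2 : (η * (s * η)) ^ n ≤ ((1 + δ / 15) / (1 / s)) ^ n := by
      apply pow_le_pow_left₀ (by positivity)
      rw [div_div_eq_mul_div, div_one]
      calc η * (s * η) = η ^ 2 * s := by ring
        _ ≤ (1 + δ / 15) * s := mul_le_mul_of_nonneg_right hη2 hspos.le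
    have h3 : (η * (s * η)) ^ n * tw nb n r ≤ Mr r :=
      (mul_le_mul_of_nonneg_right h2 (tw_nonneg nb n r)).trans h1
    have h4 : η ^ n < (η * (s * η)) ^ n * tw nb n r := by
      rw [mul_pow, mul_assoc]
      have : η ^ n * 1 < η ^ n * ((s * η) ^ n * tw nb n r) := by
        apply mul_lt_mul_of_pos_left _ (by positivity)
        rw [mul_comm]; exact hx
      linarith
    have h5 := hmax2 r hr
    have h6 := le_max_left (Mr r₂) 1
    linarith
  obtain ⟨r, hr⟩ := hgrow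
  refine criterion hconn hnb hL ⟨R, hR⟩ (Δ := Δ) (w := 1 / s) (δ := δ) hδ0 (by linarith)
    (by positivity) ?_ ?_ hwk r hr
  · rw [one_div, inv_le_comm₀ hspos hΔpos, ← one_div]; exact hsΔ
  · have h1 : (κ * Δ) ^ 2 ≤ (1 / s) ^ 2 := pow_le_pow_left₀ (by positivity) hw 2
    calc 72 * Δ = 4608 * (Δ / 64) := by ring
      _ ≤ (Δ * κ ^ 8 * ε ^ 6) * (Δ / 64) := mul_le_mul_of_nonneg_right hbig (by positivity)
      _ = (κ * Δ) ^ 2 * δ ^ 3 := by rw [hδ]; ring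
      _ ≤ (1 / s) ^ 2 * δ ^ 3 := mul_le_mul_of_nonneg_right h1 (by positivity)

end Vale.Agent.P165
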