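import Mathlib.Combinatorics.SimpleGraph.Basic

namespace Vale.Agent.P165

/-- The lexicographic product `G[K]`: every vertex of `G` is replaced by a copy of `K`, and all
edges are put between copies sitting at adjacent vertices of `G`. -/
def lexProd {V W : Type*} (G : SimpleGraph V) (K : SimpleGraph W) : SimpleGraph (V × W) where
  Adj a b := G.Adj a.1 b.1 ∨ (a.1 = b.1 ∧ K.Adj a.2 b.2)
  symm := ⟨fun _ _ h => h.elim (fun h => Or.inl h.symm) fun h => Or.inr ⟨h.1.symm, h.2.symm⟩⟩
  loopless := ⟨fun _ h => h.elim (fun h => G.irrefl h) fun h => K.irrefl h.2⟩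

end Vale.Agent.P165
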