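import Vale.Agent.P165.Iso

namespace Vale.Agent.P165

open Finset SimpleGraph

variable {V : Type*} [DecidableEq V]

/-- balls -/
def bl (nb : V → Finset V) : ℕ → V → Finset V
  | 0, x => {x}
  | (k + 1), x => insert x ((nb x).biUnion (bl nb k))

theorem mem_bl_zero {nb : V → Finset V} {x y : V} : y ∈ bl nb 0 x ↔ y = x := by simp [bl]

theorem mem_bl_succ {nb : V → Finset V} {k : ℕ} {x y : V} :
    y ∈ bl nb (k + 1) x ↔ y = x ∨ ∃ z ∈ nb x, y ∈ bl nb k z := by simp [bl]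

theorem self_mem_bl (nb : V → Finset V) (k : ℕ) (x : V) : x ∈ bl nb k x := by
  cases k with
  | zero => exact mem_bl_zero.2 rfl
  | succ k => exact mem_bl_succ.2 (Or.inl rfl)

theorem bl_mono_succ (nb : V → Finset V) (k : ℕ) (x : V) : bl nb k x ⊆ bl nb (k + 1) x := by
  induction k generalizing x with
  | zero =>
    intro y hy
    rw [mem_bl_zero] at hy
    rw [hy]; exact self_mem_bl nb 1 x
  | succ k ih =>
    intro y hy
    rw [mem_bl_succ] at hy ⊢
    rcases hy with h | ⟨z, hz, h⟩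
    · exact Or.inl h
    · exact Or.inr ⟨z, hz, ih z h⟩

theorem bl_mono (nb : V → Finset V) {j k : ℕ} (h : j ≤ k) (x : V) : bl nb j x ⊆ bl nb k x := by
  induction k, h using Nat.le_induction with
  | base => exact Finset.Subset.refl _
  | succ k _ ih => exact ih.trans (bl_mono_succ nb k x)

theorem bl_trans {nb : V → Finset V} {j k : ℕ} {x y z : V} (h1 : y ∈ bl nb j x)
    (h2 : z ∈ bl nb k y) : z ∈ bl nb (j + k) x := by
  induction j generalizing x with
  | zero =>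
    rw [mem_bl_zero] at h1
    rw [← h1, zero_add]; exact h2
  | succ j ih =>
    rw [mem_bl_succ] at h1
    rcases h1 with h | ⟨w, hw, h⟩
    · rw [← h]
      exact bl_mono nb (by omega) y h2
    · have : j + 1 + k = (j + k) + 1 := by ring
      rw [this, mem_bl_succ]
      exact Or.inr ⟨w, hw, ih h⟩

theorem bl_symm {nb : V → Finset V} (hsymm : ∀ x y, y ∈ nb x → x ∈ nb y) {k : ℕ} {x y : V}
    (h : y ∈ bl nb k x) : x ∈ bl nb k y := by
  induction k generalizing x with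
  | zero => rw [mem_bl_zero] at h ⊢; exact h.symm
  | succ k ih =>
    rw [mem_bl_succ] at h
    rcases h with h | ⟨z, hz, h⟩
    · rw [h]; exact self_mem_bl nb _ x
    · have h1 := ih h
      have h2 : x ∈ bl nb 1 z := mem_bl_succ.2 (Or.inr ⟨x, hsymm _ _ hz, mem_bl_zero.2 rfl⟩)
      exact bl_trans h1 h2

theorem bl_split {nb : V → Finset V} {j k : ℕ} {x z : V} (h : z ∈ bl nb (j + k) x) :
    ∃ y ∈ bl nb j x, z ∈ bl nb k y := by
  induction j generalizing x with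
  | zero =>
    rw [zero_add] at h
    exact ⟨x, mem_bl_zero.2 rfl, h⟩
  | succ j ih =>
    have : j + 1 + k = (j + k) + 1 := by ring
    rw [this, mem_bl_succ] at h
    rcases h with h | ⟨w, hw, h⟩
    · exact ⟨x, self_mem_bl nb _ x, by rw [h]; exact self_mem_bl nb k x⟩
    · obtain ⟨y, hy, hz⟩ := ih h
      exact ⟨y, mem_bl_succ.2 (Or.inr ⟨w, hw, hy⟩), hz⟩

theorem bl_aut {nb : V → Finset V} {ψ : V ≃ V} (hψ : IsAut nb ψ) (k : ℕ) (x y : V) :
    ψ y ∈ bl nb k (ψ x) ↔ y ∈ bl nb k x := by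
  induction k generalizing x with
  | zero => rw [mem_bl_zero, mem_bl_zero]; exact ψ.injective.eq_iff
  | succ k ih =>
    rw [mem_bl_succ, mem_bl_succ, nb_map hψ]
    constructor
    · rintro (h | ⟨z, hz, h⟩)
      · exact Or.inl (ψ.injective h)
      · rw [Finset.mem_map] at hz
        obtain ⟨w, hw, rfl⟩ := hz
        exact Or.inr ⟨w, hw, (ih w).1 h⟩
    · rintro (h | ⟨z, hz, h⟩)
      · exact Or.inl (congrArg ψ h)
      · exact Or.inr ⟨ψ z, Finset.mem_map.2 ⟨z, hz, rfl⟩, (ih z).2 h⟩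

theorem bl_card_aut {nb : V → Finset V} {ψ : V ≃ V} (hψ : IsAut nb ψ) (k : ℕ) (x : V) :
    (bl nb k (ψ x)).card = (bl nb k x).card := by
  have : bl nb k (ψ x) = (bl nb k x).map ψ.toEmbedding := by
    ext y
    rw [Finset.mem_map]
    constructor
    · intro h
      exact ⟨ψ.symm y, by rw [← bl_aut hψ]; simpa using h, by simp⟩
    · rintro ⟨z, hz, rfl⟩
      exact (bl_aut hψ k x z).2 hz
  rw [this, Finset.card_map]

theorem mem_bl_iff_walk {G : SimpleGraph V} {nb : V → Finset V}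
    (hnb : ∀ x y, y ∈ nb x ↔ G.Adj x y) (k : ℕ) (x y : V) :
    y ∈ bl nb k x ↔ ∃ w : G.Walk x y, w.length ≤ k := by
  induction k generalizing x with
  | zero =>
    rw [mem_bl_zero]
    constructor
    · rintro rfl; exact ⟨Walk.nil, le_refl _⟩
    · rintro ⟨w, hw⟩
      exact (w.eq_of_length_eq_zero (Nat.le_zero.1 hw)).symm
  | succ k ih =>
    rw [mem_bl_succ]
    constructor
    · rintro (rfl | ⟨z, hz, h⟩)
      · exact ⟨Walk.nil, Nat.zero_le _⟩
      · obtain ⟨w, hw⟩ := (ih z).1 h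
        exact ⟨Walk.cons ((hnb x z).1 hz) w, by rw [Walk.length_cons]; omega⟩
    · rintro ⟨w, hw⟩
      cases w with
      | nil => exact Or.inl rfl
      | @cons _ z _ hadj w' =>
        rw [Walk.length_cons] at hw
        exact Or.inr ⟨z, (hnb x z).2 hadj, (ih z).2 ⟨w', by omega⟩⟩

def nbk (nb : V → Finset V) (k : ℕ) (x : V) : Finset V := (bl nb k x).erase x

theorem mem_nbk {nb : V → Finset V} {k : ℕ} {x y : V} :
    y ∈ nbk nb k x ↔ y ≠ x ∧ y ∈ bl nb k x := by simp [nbk]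

theorem nbk_symm {nb : V → Finset V} (hsymm : ∀ x y, y ∈ nb x → x ∈ nb y) (k : ℕ) (x y : V)
    (h : y ∈ nbk nb k x) : x ∈ nbk nb k y := by
  rw [mem_nbk] at h ⊢
  exact ⟨h.1.symm, bl_symm hsymm h.2⟩

theorem isAut_nbk {nb : V → Finset V} {ψ : V ≃ V} (hψ : IsAut nb ψ) (k : ℕ) :
    IsAut (nbk nb k) ψ := by
  intro x y
  rw [mem_nbk, mem_nbk, bl_aut hψ]
  simp

section
variable {nb : V → Finset V} (hsymm : ∀ x y, y ∈ nb x → x ∈ nb y) {d : ℕ}
  (hd : ∀ x, (nb x).card ≤ d)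
include hsymm hd

/-- double counting for the edge boundary in the power graph -/
theorem iso_power {h : ℝ} (hiso : ∀ A : Finset V, h * A.card ≤ ∑ x ∈ A, ((nb x \ A).card : ℝ))
    {k : ℕ} {b : ℝ} (hb0 : 0 ≤ b) (hb : ∀ x, b ≤ ((bl nb k x).card : ℝ)) (A : Finset V) :
    b * (h * A.card) ≤ 2 * d * ∑ x ∈ A, ((nbk nb (k + 1) x \ A).card : ℝ) := by
  classical
  -- counting function
  have hpt : ∀ x ∈ A, ∀ y ∈ nb x \ A, b ≤ ((nbk nb (k + 1) x \ A).card : ℝ) +
      ((A.filter (fun z => y ∈ nbk nb (k + 1) z)).card : ℝ) := by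
    intro x hx y hy
    rw [Finset.mem_sdiff] at hy
    refine (hb x).trans ?_
    have hsub : bl nb k x ⊆ (nbk nb (k + 1) x \ A) ∪ A.filter (fun z => y ∈ nbk nb (k + 1) z) := by
      intro z hz
      rw [Finset.mem_union]
      by_cases hzA : z ∈ A
      · right
        rw [Finset.mem_filter, mem_nbk]
        refine ⟨hzA, fun h => hy.2 (h ▸ hzA), ?_⟩
        have h1 : x ∈ bl nb k z := bl_symm hsymm hz
        have h2 : y ∈ bl nb 1 x := mem_bl_succ.2 (Or.inr ⟨y, hy.1, mem_bl_zero.2 rfl⟩)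
        exact bl_trans h1 h2
      · left
        rw [Finset.mem_sdiff, mem_nbk]
        exact ⟨⟨fun h => hzA (h ▸ hx), bl_mono_succ nb k x hz⟩, hzA⟩
    have h1 := (Finset.card_le_card hsub).trans (Finset.card_union_le _ _)
    exact_mod_cast h1
  have h1 : b * ∑ x ∈ A, ((nb x \ A).card : ℝ) ≤ ∑ x ∈ A, ∑ y ∈ nb x \ A,
      (((nbk nb (k + 1) x \ A).card : ℝ) +
      ((A.filter (fun z => y ∈ nbk nb (k + 1) z)).card : ℝ)) := by
    rw [Finset.mul_sum]
    apply Finset.sum_le_sum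
    intro x hx
    calc b * ((nb x \ A).card : ℝ) = ∑ _y ∈ nb x \ A, b := by
          rw [Finset.sum_const, nsmul_eq_mul]; ring
      _ ≤ _ := Finset.sum_le_sum (hpt x hx)
  have h2 : ∑ x ∈ A, ∑ _y ∈ nb x \ A, ((nbk nb (k + 1) x \ A).card : ℝ) ≤
      d * ∑ x ∈ A, ((nbk nb (k + 1) x \ A).card : ℝ) := by
    rw [Finset.mul_sum]
    apply Finset.sum_le_sum
    intro x _
    rw [Finset.sum_const, nsmul_eq_mul]
    apply mul_le_mul_of_nonneg_right _ (Nat.cast_nonneg _)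
    exact_mod_cast (Finset.card_le_card Finset.sdiff_subset).trans (hd x)
  have h3 : ∑ x ∈ A, ∑ y ∈ nb x \ A, ((A.filter (fun z => y ∈ nbk nb (k + 1) z)).card : ℝ) ≤
      d * ∑ x ∈ A, ((nbk nb (k + 1) x \ A).card : ℝ) := by
    have e1 : ∀ y, ((A.filter (fun z => y ∈ nbk nb (k + 1) z)).card : ℝ) =
        ∑ z ∈ A, (if y ∈ nbk nb (k + 1) z then (1 : ℝ) else 0) := by
      intro y
      rw [Finset.card_filter]; push_cast; rfl
    simp only [e1]
    have e2 : ∑ x ∈ A, ∑ y ∈ nb x \ A, ∑ z ∈ A, (if y ∈ nbk nb (k + 1) z then (1 : ℝ) else 0) =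
        ∑ z ∈ A, ∑ x ∈ A, ∑ y ∈ nb x \ A, (if y ∈ nbk nb (k + 1) z then (1 : ℝ) else 0) := by
      rw [Finset.sum_comm]
      apply Finset.sum_congr rfl
      intro x _
      exact Finset.sum_comm
    rw [e2, Finset.mul_sum]
    apply Finset.sum_le_sum
    intro z _
    have e3 : ∑ x ∈ A, ∑ y ∈ nb x \ A, (if y ∈ nbk nb (k + 1) z then (1 : ℝ) else 0) =
        ∑ x ∈ A, ∑ y ∈ (nb x \ A).filter (fun y => y ∈ nbk nb (k + 1) z), (1 : ℝ) := by
      apply Finset.sum_congr rfl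
      intro x _
      rw [Finset.sum_filter]
    have e4 : ∑ x ∈ A, ∑ y ∈ (nb x \ A).filter (fun y => y ∈ nbk nb (k + 1) z), (1 : ℝ) =
        ∑ y ∈ nbk nb (k + 1) z \ A, ∑ x ∈ A.filter (fun x => y ∈ nb x), (1 : ℝ) := by
      apply Finset.sum_comm'
      intro x y
      simp only [Finset.mem_filter, Finset.mem_sdiff]
      tauto
    rw [e3, e4]
    calc ∑ y ∈ nbk nb (k + 1) z \ A, ∑ x ∈ A.filter (fun x => y ∈ nb x), (1 : ℝ)
        ≤ ∑ y ∈ nbk nb (k + 1) z \ A, (d : ℝ) := by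
          apply Finset.sum_le_sum
          intro y _
          rw [Finset.sum_const, nsmul_eq_mul, mul_one]
          have hsub : A.filter (fun x => y ∈ nb x) ⊆ nb y := by
            intro x hx
            exact hsymm _ _ (Finset.mem_filter.1 hx).2
          exact_mod_cast (Finset.card_le_card hsub).trans (hd y)
      _ = d * ((nbk nb (k + 1) z \ A).card : ℝ) := by
          rw [Finset.sum_const, nsmul_eq_mul]; ring
  have h4 : b * (h * A.card) ≤ b * ∑ x ∈ A, ((nb x \ A).card : ℝ) :=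
    mul_le_mul_of_nonneg_left (hiso A) hb0
  refine h4.trans (h1.trans ?_)
  simp only [Finset.sum_add_distrib]
  linarith

end

/-- covering radius -/
theorem exists_cover_radius {G : SimpleGraph V} (hconn : G.Connected) {nb : V → Finset V}
    (hnb : ∀ x y, y ∈ nb x ↔ G.Adj x y) (hqt : QT nb) :
    ∃ r₀ : ℕ, ∀ u y, ∃ ψ : V ≃ V, IsAut nb ψ ∧ ψ y ∈ bl nb r₀ u := by
  obtain ⟨R, hR⟩ := hqt
  have h1 : ∀ r r' : V, ∃ n, r' ∈ bl nb n r := by
    intro r r'
    obtain ⟨w⟩ := hconn.preconnected r r'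
    exact ⟨w.length, (mem_bl_iff_walk hnb _ r r').2 ⟨w, le_refl _⟩⟩
  choose f hf using h1
  refine ⟨(R ×ˢ R).sup (fun p => f p.1 p.2), ?_⟩
  intro u y
  obtain ⟨r, hr, ψ₁, hψ₁, rfl⟩ := hR u
  obtain ⟨r', hr', ψ₂, hψ₂, rfl⟩ := hR y
  refine ⟨ψ₂.symm.trans ψ₁, ?_, ?_⟩
  · intro a b
    rw [Equiv.trans_apply, Equiv.trans_apply]
    have h2 := hψ₁ (ψ₂.symm a) (ψ₂.symm b)
    rw [h2]
    have h3 := hψ₂ (ψ₂.symm a) (ψ₂.symm b)
    rw [← h3]; simp
  · have : (ψ₂.symm.trans ψ₁) (ψ₂ r') = ψ₁ r' := by simp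
    rw [this, bl_aut hψ₁]
    apply bl_mono nb _ r (hf r r')
    exact Finset.le_sup (f := fun p : V × V => f p.1 p.2) (b := (r, r'))
      (Finset.mem_product.2 ⟨hr, hr'⟩)

end Vale.Agent.P165
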