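import Vale.Agent.P165.Powers

namespace Vale.Agent.P165

open Finset SimpleGraph

variable {V : Type*} [DecidableEq V]

theorem edist_le_iff_walk {G : SimpleGraph V} {x y : V} {k : ℕ} :
    G.edist x y ≤ k ↔ ∃ w : G.Walk x y, w.length ≤ k := by
  constructor
  · intro h
    have hne : G.edist x y ≠ ⊤ := ne_top_of_le_ne_top (ENat.natCast_ne_top k) h
    obtain ⟨w, hw⟩ := SimpleGraph.exists_walk_of_edist_ne_top hne
    refine ⟨w, ?_⟩
    rw [← hw] at h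
    exact_mod_cast h
  · rintro ⟨w, hw⟩
    exact (SimpleGraph.edist_le w).trans (by exact_mod_cast hw)

theorem mem_nbk_iff {G : SimpleGraph V} {nb : V → Finset V}
    (hnb : ∀ x y, y ∈ nb x ↔ G.Adj x y) (k : ℕ) (x y : V) :
    y ∈ nbk nb k x ↔ (powerGraph G k).Adj x y := by
  rw [mem_nbk, mem_bl_iff_walk hnb]
  constructor
  · rintro ⟨h1, h2⟩
    exact ⟨h1.symm, edist_le_iff_walk.2 h2⟩
  · rintro ⟨h1, h2⟩
    exact ⟨h1.symm, edist_le_iff_walk.1 h2⟩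

theorem exh_bl {G : SimpleGraph V} (hconn : G.Connected) {nb : V → Finset V}
    (hnb : ∀ x y, y ∈ nb x ↔ G.Adj x y) (o : V) : Exh (fun n => bl nb n o) := by
  constructor
  · intro j k hjk
    exact bl_mono nb hjk o
  · intro v
    obtain ⟨w⟩ := hconn.preconnected o v
    exact ⟨w.length, (mem_bl_iff_walk hnb _ o v).2 ⟨w, le_refl _⟩⟩

/-- a quantity invariant under automorphisms is bounded -/
theorem exists_max_of_qt {nb : V → Finset V} (hqt : QT nb) (o : V) (f : V → ℕ)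
    (hf : ∀ ψ : V ≃ V, IsAut nb ψ → ∀ x, f (ψ x) = f x) : ∃ r, ∀ x, f x ≤ f r := by
  obtain ⟨R, hR⟩ := hqt
  have hRne : R.Nonempty := by
    obtain ⟨r, hr, _⟩ := hR o
    exact ⟨r, hr⟩
  obtain ⟨r, _, hmax⟩ := Finset.exists_max_image R f hRne
  refine ⟨r, fun x => ?_⟩
  obtain ⟨r', hr', ψ, hψ, rfl⟩ := hR x
  rw [hf ψ hψ]; exact hmax r' hr'

theorem bl_card_add {nb : V → Finset V} {j k C : ℕ} (hC : ∀ x, (bl nb k x).card ≤ C) (x : V) :
    (bl nb (j + k) x).card ≤ (bl nb j x).card * C := by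
  have hsub : bl nb (j + k) x ⊆ (bl nb j x).biUnion (bl nb k) := by
    intro z hz
    obtain ⟨y, hy, hz2⟩ := bl_split hz
    exact Finset.mem_biUnion.2 ⟨y, hy, hz2⟩
  exact (Finset.card_le_card hsub).trans (Finset.card_biUnion_le_card_mul _ _ _ (fun u _ => hC u))

theorem num_iso {h d C b b1 ε a S : ℝ} (hh : 0 < h) (hd : 0 ≤ d) (hC : 1 ≤ C) (hb : 0 ≤ b)
    (hb1 : 0 ≤ b1) (ha : 0 ≤ a) (hε2 : ε ≤ h / (2 * (d + 1) * C * (d + 1)))
    (hstep : b1 ≤ b * (d + 1)) (hmain : b / C * (h * a) ≤ 2 * (d + 1) * S) :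
    ε * b1 * a ≤ S := by
  have hC0 : 0 < C := lt_of_lt_of_le one_pos hC
  have hd1 : 0 < d + 1 := by linarith
  have h1 : ε * b1 ≤ (h / (2 * (d + 1) * C * (d + 1))) * (b * (d + 1)) :=
    mul_le_mul hε2 hstep hb1 (by positivity)
  have h2 : ε * b1 * a ≤ (h / (2 * (d + 1) * C * (d + 1))) * (b * (d + 1)) * a :=
    mul_le_mul_of_nonneg_right h1 ha
  have h3 : (h / (2 * (d + 1) * C * (d + 1))) * (b * (d + 1)) * a =
      (b / C * (h * a)) / (2 * (d + 1)) := by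
    field_simp
  rw [h3] at h2
  refine h2.trans ?_
  rw [div_le_iff₀ (by positivity)]
  linarith

open Classical in
theorem orbit_density {nb : V → Finset V} (hsymm : ∀ x y, y ∈ nb x → x ∈ nb y) {k r₀ C B : ℕ}
    (hr₀ : ∀ u y, ∃ ψ : V ≃ V, IsAut nb ψ ∧ ψ y ∈ bl nb r₀ u)
    (hC' : ∀ x, (bl nb r₀ x).card ≤ C) (hF3 : ∀ x, B ≤ (bl nb k x).card * C)
    (hkr : r₀ ≤ k) (hC1 : 1 ≤ C) (hB : 2 * (C : ℝ) ^ 3 ≤ (B : ℝ)) (x y : V) :
    1 / (2 * (C : ℝ) ^ 3) * (B : ℝ) ≤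
      (((nbk nb k x).filter (fun z => ∃ ψ : V ≃ V, IsAut nb ψ ∧ ψ y = z)).card : ℝ) := by
  have hC0 : (0 : ℝ) < (C : ℝ) := by exact_mod_cast hC1
  obtain ⟨Z, hZ⟩ : ∃ Z, Z = (bl nb k x).filter (fun z => ∃ ψ : V ≃ V, IsAut nb ψ ∧ ψ y = z) :=
    ⟨_, rfl⟩
  obtain ⟨Z', hZ'⟩ : ∃ Z', Z' =
    (nbk nb k x).filter (fun z => ∃ ψ : V ≃ V, IsAut nb ψ ∧ ψ y = z) := ⟨_, rfl⟩
  rw [← hZ']
  have h1 : bl nb (k - r₀) x ⊆ Z.biUnion (bl nb r₀) := by
    intro u hu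
    obtain ⟨ψ, hψ, hmem⟩ := hr₀ u y
    rw [Finset.mem_biUnion]
    refine ⟨ψ y, ?_, bl_symm hsymm hmem⟩
    rw [hZ, Finset.mem_filter]
    refine ⟨?_, ψ, hψ, rfl⟩
    have := bl_trans hu hmem
    have e : k - r₀ + r₀ = k := by omega
    rwa [e] at this
  have h2 : (bl nb (k - r₀) x).card ≤ Z.card * C :=
    (Finset.card_le_card h1).trans (Finset.card_biUnion_le_card_mul _ _ _ (fun u _ => hC' u))
  have h3 : (bl nb k x).card ≤ (bl nb (k - r₀) x).card * C := by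
    have e : k = k - r₀ + r₀ := by omega
    conv_lhs => rw [e]
    exact bl_card_add hC' x
  have h4 : B ≤ Z.card * C * C * C := by
    calc B ≤ (bl nb k x).card * C := hF3 x
      _ ≤ (bl nb (k - r₀) x).card * C * C := Nat.mul_le_mul_right _ h3
      _ ≤ Z.card * C * C * C := Nat.mul_le_mul_right _ (Nat.mul_le_mul_right _ h2)
  have h5 : Z.card ≤ Z'.card + 1 := by
    have : Z ⊆ insert x Z' := by
      intro z hz
      rw [hZ, Finset.mem_filter] at hz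
      rw [Finset.mem_insert]
      by_cases hzx : z = x
      · exact Or.inl hzx
      · right
        rw [hZ', Finset.mem_filter, mem_nbk]
        exact ⟨⟨hzx, hz.1⟩, hz.2⟩
    exact (Finset.card_le_card this).trans (Finset.card_insert_le _ _)
  have h6 : (B : ℝ) ≤ ((Z'.card : ℝ) + 1) * (C : ℝ) ^ 3 := by
    have h7 : (B : ℝ) ≤ (Z.card : ℝ) * C * C * C := by exact_mod_cast h4
    have h8 : (Z.card : ℝ) ≤ (Z'.card : ℝ) + 1 := by exact_mod_cast h5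
    calc (B : ℝ) ≤ (Z.card : ℝ) * C * C * C := h7
      _ = (Z.card : ℝ) * (C : ℝ) ^ 3 := by ring
      _ ≤ _ := mul_le_mul_of_nonneg_right h8 (by positivity)
  rw [one_div, ← div_eq_inv_mul, div_le_iff₀ (by positivity)]
  have h9 : ((Z'.card : ℝ) + 1) * (C : ℝ) ^ 3 = (Z'.card : ℝ) * (C : ℝ) ^ 3 + (C : ℝ) ^ 3 := by ring
  rw [h9] at h6
  have h10 : (Z'.card : ℝ) * (2 * (C : ℝ) ^ 3) = 2 * ((Z'.card : ℝ) * (C : ℝ) ^ 3) := by ring
  rw [h10]
  linarith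

open Classical in
theorem ratio_power {nb : V → Finset V} {k : ℕ} {κ B : ℝ} (hκ0 : 0 < κ) (hB0 : 0 < B)
    (hdens : ∀ x y, κ * B ≤
      (((nbk nb k x).filter (fun z => ∃ ψ : V ≃ V, IsAut nb ψ ∧ ψ y = z)).card : ℝ))
    (s : ℝ) (φ : V → ℝ) (hs : 1 / B ≤ s) (hφ0 : ∀ x, 0 ≤ φ x)
    (hφinv : ∀ ψ : V ≃ V, IsAut (nbk nb k) ψ → ∀ x, φ (ψ x) = φ x)
    (hφsup : ∀ x, s * ∑ z ∈ nbk nb k x, φ z ≤ φ x) (x y : V) : κ * φ y ≤ φ x := by
  have hs0 : 0 < s := lt_of_lt_of_le (by positivity) hs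
  obtain ⟨Z', hZ'⟩ : ∃ Z', Z' =
    (nbk nb k x).filter (fun z => ∃ ψ : V ≃ V, IsAut nb ψ ∧ ψ y = z) := ⟨_, rfl⟩
  have hd := hdens x y
  rw [← hZ'] at hd
  have h1 : (Z'.card : ℝ) * φ y ≤ ∑ z ∈ nbk nb k x, φ z := by
    calc (Z'.card : ℝ) * φ y = ∑ z ∈ Z', φ z := by
          rw [Finset.sum_congr rfl (g := fun _ => φ y), Finset.sum_const, nsmul_eq_mul]
          intro z hz
          rw [hZ', Finset.mem_filter] at hz
          obtain ⟨_, ψ, hψ, rfl⟩ := hz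
          exact hφinv ψ (isAut_nbk hψ k) y
      _ ≤ ∑ z ∈ nbk nb k x, φ z := by
          apply Finset.sum_le_sum_of_subset_of_nonneg _ (fun z _ _ => hφ0 z)
          rw [hZ']; exact Finset.filter_subset _ _
  have h2 := hφsup x
  have h3 : κ * B * φ y ≤ (Z'.card : ℝ) * φ y :=
    mul_le_mul_of_nonneg_right hd (hφ0 y)
  have h4 : 1 ≤ s * B := by
    rw [div_le_iff₀ hB0] at hs; exact hs
  calc κ * φ y = 1 * (κ * φ y) := by ring
    _ ≤ s * B * (κ * φ y) :=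
        mul_le_mul_of_nonneg_right h4 (mul_nonneg hκ0.le (hφ0 y))
    _ = s * (κ * B * φ y) := by ring
    _ ≤ s * ∑ z ∈ nbk nb k x, φ z := mul_le_mul_of_nonneg_left (h3.trans h1) hs0.le
    _ ≤ φ x := h2

theorem bl_growth {nb : V → Finset V} {h : ℝ} (hh : 0 < h)
    (hvert : ∀ A : Finset V, h * A.card ≤ (((A.biUnion nb) \ A).card : ℝ)) (k : ℕ) (x : V) :
    (1 + h) ^ k ≤ ((bl nb k x).card : ℝ) := by
  induction k with
  | zero => simp [bl]
  | succ k ih =>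
    have hsub : bl nb k x ∪ (((bl nb k x).biUnion nb) \ bl nb k x) ⊆ bl nb (k + 1) x := by
      intro y hy
      rw [Finset.mem_union, Finset.mem_sdiff, Finset.mem_biUnion] at hy
      rcases hy with hy | ⟨⟨z, hz, hzy⟩, _⟩
      · exact bl_mono_succ nb k x hy
      · exact bl_trans hz (mem_bl_succ.2 (Or.inr ⟨y, hzy, mem_bl_zero.2 rfl⟩))
    have h1 := Finset.card_le_card hsub
    rw [Finset.card_union_of_disjoint Finset.disjoint_sdiff] at h1
    have h2 : ((bl nb k x).card : ℝ) + ((((bl nb k x).biUnion nb) \ bl nb k x).card : ℝ) ≤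
        ((bl nb (k + 1) x).card : ℝ) := by exact_mod_cast h1
    have h3 := hvert (bl nb k x)
    rw [pow_succ]
    nlinarith

theorem bl_one_card {nb : V → Finset V} {d : ℕ} (hd : ∀ x, (nb x).card ≤ d) (x : V) :
    (bl nb 1 x).card ≤ d + 1 := by
  have hsub : bl nb 1 x ⊆ insert x (nb x) := by
    intro y hy
    rw [mem_bl_succ] at hy
    rcases hy with hy | ⟨z, hz, hy⟩
    · rw [hy]; exact Finset.mem_insert_self _ _
    · rw [mem_bl_zero] at hy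
      rw [hy]; exact Finset.mem_insert_of_mem hz
  calc (bl nb 1 x).card ≤ (insert x (nb x)).card := Finset.card_le_card hsub
    _ ≤ (nb x).card + 1 := Finset.card_insert_le _ _
    _ ≤ d + 1 := Nat.add_le_add_right (hd x) 1

theorem iso_edge {nb : V → Finset V} {h : ℝ}
    (hvert : ∀ A : Finset V, h * A.card ≤ (((A.biUnion nb) \ A).card : ℝ)) (A : Finset V) :
    h * A.card ≤ ∑ x ∈ A, ((nb x \ A).card : ℝ) := by
  refine (hvert A).trans ?_
  have hsub : (A.biUnion nb) \ A ⊆ A.biUnion (fun x => nb x \ A) := by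
    intro y hy
    rw [Finset.mem_sdiff, Finset.mem_biUnion] at hy
    obtain ⟨⟨x, hx, hxy⟩, hyA⟩ := hy
    exact Finset.mem_biUnion.2 ⟨x, hx, Finset.mem_sdiff.2 ⟨hxy, hyA⟩⟩
  exact_mod_cast (Finset.card_le_card hsub).trans Finset.card_biUnion_le

theorem powers_main [Infinite V] {G : SimpleGraph V} (hconn : G.Connected) {nb : V → Finset V}
    (hnb : ∀ x y, y ∈ nb x ↔ G.Adj x y) (hqt : QT nb) {h : ℝ} (hh : 0 < h)
    (hvert : ∀ A : Finset V, h * A.card ≤ (((A.biUnion nb) \ A).card : ℝ)) :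
    ∃ k₀ : ℕ, ∀ k ≥ k₀, pc (powerGraph G k) < pu (powerGraph G k) := by
  have hsymm := nb_symm hnb
  obtain ⟨o⟩ := hconn.nonempty
  have hL := exh_bl hconn hnb o
  have hiso := iso_edge hvert
  -- degree bound
  obtain ⟨d, hd'⟩ : ∃ d : ℕ, ∀ x, (nb x).card ≤ d := by
    obtain ⟨rd, hrd⟩ := exists_max_of_qt hqt o (fun x => (nb x).card) (by
      intro ψ hψ x
      show (nb (ψ x)).card = (nb x).card
      rw [nb_map hψ, Finset.card_map])
    exact ⟨_, hrd⟩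
  obtain ⟨r₀, hr₀⟩ := exists_cover_radius hconn hnb hqt
  obtain ⟨C, hC'⟩ : ∃ C : ℕ, ∀ x, (bl nb r₀ x).card ≤ C := by
    obtain ⟨rc, hrc⟩ := exists_max_of_qt hqt o (fun x => (bl nb r₀ x).card)
      (fun ψ hψ x => bl_card_aut hψ r₀ x)
    exact ⟨_, hrc⟩
  have hC1 : 1 ≤ C := (Finset.card_pos.2 ⟨o, self_mem_bl nb r₀ o⟩).trans_le (hC' o)
  have hmaxk : ∀ k, ∃ r, ∀ x, (bl nb k x).card ≤ (bl nb k r).card := fun k =>
    exists_max_of_qt hqt o (fun x => (bl nb k x).card) (fun ψ hψ x => bl_card_aut hψ k x)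
  choose rk hrk using hmaxk
  obtain ⟨β, hβ⟩ : ∃ β : ℕ → ℕ, ∀ k, β k = (bl nb k (rk k)).card := ⟨_, fun _ => rfl⟩
  have hβle : ∀ k x, (bl nb k x).card ≤ β k := fun k x => by rw [hβ]; exact hrk k x
  -- comparison of balls
  have hF3 : ∀ k x, β k ≤ (bl nb k x).card * C := by
    intro k x
    obtain ⟨ψ, hψ, hmem⟩ := hr₀ (rk k) x
    rw [← bl_card_aut hψ k x, hβ]
    have hsub : bl nb k (rk k) ⊆ bl nb (k + r₀) (ψ x) := by
      intro z hz
      have := bl_trans (bl_symm hsymm hmem) hz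
      rwa [add_comm] at this
    exact (Finset.card_le_card hsub).trans (bl_card_add hC' (ψ x))
  have hgrow := bl_growth hh hvert
  -- constants
  obtain ⟨κ, hκ⟩ : ∃ κ : ℝ, κ = 1 / (2 * (C : ℝ) ^ 3) := ⟨_, rfl⟩
  have hCpos : (1 : ℝ) ≤ (C : ℝ) := by exact_mod_cast hC1
  have hC3 : (1 : ℝ) ≤ (C : ℝ) ^ 3 := one_le_pow₀ hCpos
  have hκ0 : 0 < κ := by rw [hκ]; positivity
  have hκ1 : κ ≤ 1 := by
    rw [hκ, div_le_one (by positivity)]; linarith
  obtain ⟨ε, hε⟩ : ∃ ε : ℝ, ε = min 1 (h / (2 * ((d : ℝ) + 1) * (C : ℝ) * ((d : ℝ) + 1))) :=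
    ⟨_, rfl⟩
  have hε0 : 0 < ε := by rw [hε]; apply lt_min one_pos; positivity
  have hε1 : ε ≤ 1 := by rw [hε]; exact min_le_left _ _
  have hε2 : ε ≤ h / (2 * ((d : ℝ) + 1) * (C : ℝ) * ((d : ℝ) + 1)) := by
    rw [hε]; exact min_le_right _ _
  -- choose k₀
  obtain ⟨k₁, hk₁⟩ := pow_unbounded_of_one_lt (max (2 * (C : ℝ) ^ 3) (4608 / (κ ^ 8 * ε ^ 6)))
    (show 1 < 1 + h by linarith)
  refine ⟨max k₁ (r₀ + 1), ?_⟩
  intro k hk
  have hkk1 : k₁ ≤ k := (le_max_left _ _).trans hk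
  have hkr : r₀ + 1 ≤ k := (le_max_right _ _).trans hk
  have hβbig : max (2 * (C : ℝ) ^ 3) (4608 / (κ ^ 8 * ε ^ 6)) ≤ (β k : ℝ) := by
    calc max (2 * (C : ℝ) ^ 3) (4608 / (κ ^ 8 * ε ^ 6)) ≤ (1 + h) ^ k₁ := hk₁.le
      _ ≤ (1 + h) ^ k := pow_le_pow_right₀ (by linarith) hkk1
      _ ≤ ((bl nb k o).card : ℝ) := hgrow k o
      _ ≤ (β k : ℝ) := by exact_mod_cast hβle k o
  have hβ1 : 2 * (C : ℝ) ^ 3 ≤ (β k : ℝ) := (le_max_left _ _).trans hβbig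
  have hβ2 : 4608 / (κ ^ 8 * ε ^ 6) ≤ (β k : ℝ) := (le_max_right _ _).trans hβbig
  have hβpos : (0 : ℝ) < (β k : ℝ) := lt_of_lt_of_le (by positivity) hβ1
  have hdens := orbit_density hsymm (k := k) (B := β k) hr₀ hC' (hF3 k) (by omega) hC1 hβ1
  rw [← hκ] at hdens
  have hk1 : 1 ≤ k := by omega
  have hHconn : (powerGraph G k).Connected := by
    apply hconn.mono
    intro x y hxy
    refine ⟨hxy.ne, ?_⟩
    rw [edist_le_iff_walk]
    exact ⟨Walk.cons hxy Walk.nil, by simpa using hk1⟩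
  have hQTk : QT (nbk nb k) := by
    obtain ⟨R, hR⟩ := hqt
    refine ⟨R, fun x => ?_⟩
    obtain ⟨r, hr, ψ, hψ, hx⟩ := hR x
    exact ⟨r, hr, ψ, isAut_nbk hψ k, hx⟩
  have hcardle : ∀ x, ((nbk nb k x).card : ℝ) ≤ (β k : ℝ) := by
    intro x
    exact_mod_cast (Finset.card_le_card (Finset.erase_subset _ _)).trans (hβle k x)
  have hmin : ∀ x, κ * (β k : ℝ) ≤ ((nbk nb k x).card : ℝ) := by
    classical
    intro x
    refine (hdens x x).trans (Nat.cast_le.2 (Finset.card_le_card ?_))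
    intro z hz
    exact (Finset.mem_filter.1 hz).1
  have hisok : ∀ A : Finset V, ε * (β k : ℝ) * A.card ≤ ∑ x ∈ A, ((nbk nb k x \ A).card : ℝ) := by
    intro A
    obtain ⟨j, rfl⟩ : ∃ j, k = j + 1 := ⟨k - 1, by omega⟩
    have hb : ∀ x, (β j : ℝ) / C ≤ ((bl nb j x).card : ℝ) := by
      intro x
      rw [div_le_iff₀ (by positivity)]
      exact_mod_cast hF3 j x
    have hmain := iso_power hsymm (d := d + 1) (fun x => (hd' x).trans (Nat.le_succ d)) hiso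
      (k := j) (b := (β j : ℝ) / C) (by positivity) hb A
    have hβstep : β (j + 1) ≤ β j * (d + 1) := by
      rw [hβ (j + 1)]
      exact (bl_card_add (bl_one_card hd') _).trans (Nat.mul_le_mul_right _ (hβle j _))
    have hβstep' : (β (j + 1) : ℝ) ≤ (β j : ℝ) * ((d : ℝ) + 1) := by exact_mod_cast hβstep
    push_cast at hmain
    exact num_iso hh (Nat.cast_nonneg d) hCpos (Nat.cast_nonneg _) (Nat.cast_nonneg _)
      (Nat.cast_nonneg _) hε2 hβstep' hmain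
  have hfin : (4608 : ℝ) ≤ (β k : ℝ) * κ ^ 8 * ε ^ 6 := by
    rw [div_le_iff₀ (by positivity)] at hβ2
    linarith
  exact iso_general hHconn (mem_nbk_iff hnb k) hL hQTk (Δ := (β k : ℝ)) hκ0 hκ1 hε0 hε1
    hcardle hmin hisok (ratio_power hκ0 hβpos hdens) hfin

end Vale.Agent.P165
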