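import Vale.Agent.P165.Criterion

namespace Vale.Agent.P165

open Finset SimpleGraph

variable {V : Type*} [DecidableEq V]

theorem one_le_wk_walk {G : SimpleGraph V} {nb : V → Finset V}
    (hnb : ∀ x y, y ∈ nb x ↔ G.Adj x y) {x y : V} (w : G.Walk x y) : 1 ≤ wk nb w.length x y := by
  induction w with
  | nil => simp [wk, ind]
  | @cons u v z h p ih =>
    have e : wk nb (Walk.cons h p).length u z = ∑ t ∈ nb u, wk nb p.length t z := rfl
    rw [e]
    have hv : v ∈ nb u := (hnb u v).2 h
    exact ih.trans (Finset.single_le_sum (f := fun t => wk nb p.length t z)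
      (fun t _ => wk_nonneg nb _ t z) hv)

theorem wk_comp_single (nb : V → Finset V) (j k : ℕ) (x u y : V) :
    wk nb j x u * wk nb k u y ≤ wk nb (j + k) x y := by
  have := wk_comp nb {u} j k x y
  simpa using this

theorem iter_le (nb : V → Finset V) (U : Finset V) (f : V → ℝ) (hf : ∀ x, 0 ≤ f x) (n : ℕ)
    (x : V) (hx : x ∈ U) : ((opT nb U)^[n] f) x ≤ ∑ y ∈ U, wk nb n x y * f y := by
  induction n generalizing x with
  | zero =>
    have h := Finset.single_le_sum (f := fun y => wk nb 0 x y * f y)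
      (fun y _ => mul_nonneg (wk_nonneg nb 0 x y) (hf y)) hx
    have e : wk nb 0 x x = 1 := by simp [wk, ind]
    simp only [e, one_mul] at h
    exact h
  | succ n ih =>
    rw [Function.iterate_succ_apply']
    have e : ∑ y ∈ U, wk nb (n + 1) x y * f y = ∑ z ∈ nb x, ∑ y ∈ U, wk nb n z y * f y := by
      rw [Finset.sum_comm]
      apply Finset.sum_congr rfl
      intro y _
      show (∑ z ∈ nb x, wk nb n z y) * f y = _
      rw [Finset.sum_mul]
    rw [e]
    unfold opT
    refine (Finset.sum_le_sum (fun z hz => ih z (Finset.mem_inter.1 hz).2)).trans ?_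
    apply Finset.sum_le_sum_of_subset_of_nonneg Finset.inter_subset_left
    intro z _ _
    exact Finset.sum_nonneg (fun y _ => mul_nonneg (wk_nonneg nb n z y) (hf y))

theorem iter_nonneg (nb : V → Finset V) (U : Finset V) (f : V → ℝ) (hf : ∀ x, 0 ≤ f x) (n : ℕ)
    (x : V) : 0 ≤ ((opT nb U)^[n] f) x := by
  induction n generalizing x with
  | zero => exact hf x
  | succ n ih =>
    rw [Function.iterate_succ_apply']
    exact Finset.sum_nonneg (fun z _ => ih z)

theorem ip_iter {nb : V → Finset V} (hsymm : ∀ x y, y ∈ nb x → x ∈ nb y) (U : Finset V)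
    (n : ℕ) (f g : V → ℝ) :
    ip U f ((opT nb U)^[n] g) = ip U ((opT nb U)^[n] f) g := by
  induction n generalizing f g with
  | zero => rfl
  | succ n ih =>
    rw [Function.iterate_succ_apply', ip_opT hsymm, ih, ← Function.iterate_succ_apply]

theorem ip_cs (U : Finset V) (f g : V → ℝ) : (ip U f g) ^ 2 ≤ ip U f f * ip U g g := by
  unfold ip
  have := Finset.sum_mul_sq_le_sq_mul_sq U f g
  simpa [sq] using this

/-- quadratic form bound from closed walk counts -/
theorem quad_of_closed {G : SimpleGraph V} (hconn : G.Connected) {nb : V → Finset V}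
    (hnb : ∀ x y, y ∈ nb x ↔ G.Adj x y) (hsymm : ∀ x y, y ∈ nb x → x ∈ nb y) {σ : ℝ}
    (hσ : 0 < σ) (o : V) (N : ℕ) (hwalk : ∀ n ≥ N, wk nb n o o ≤ σ ^ n) (U : Finset V)
    (f : V → ℝ) (hf : ∀ x, 0 ≤ f x) : ip U f (opT nb U f) ≤ σ * ip U f f := by
  have ha : ∀ x, ∃ a, 1 ≤ wk nb a o x := by
    intro x
    obtain ⟨w⟩ := hconn.preconnected o x
    exact ⟨_, one_le_wk_walk hnb w⟩
  have hb : ∀ x, ∃ b, 1 ≤ wk nb b x o := by
    intro x
    obtain ⟨w⟩ := hconn.preconnected x o
    exact ⟨_, one_le_wk_walk hnb w⟩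
  choose a ha using ha
  choose b hb using hb
  have hxy : ∀ n ≥ N, ∀ x y, wk nb n x y ≤ σ ^ (a x + b y) * σ ^ n := by
    intro n hn x y
    have h1 := wk_comp_single nb (a x) n o x y
    have h2 := wk_comp_single nb (a x + n) (b y) o y o
    have h3 := hwalk (a x + n + b y) (by omega)
    have h4 : wk nb n x y ≤ wk nb (a x) o x * wk nb n x y := by
      have := mul_le_mul_of_nonneg_right (ha x) (wk_nonneg nb n x y)
      linarith
    have h5 : wk nb (a x + n) o y ≤ wk nb (a x + n) o y * wk nb (b y) y o := by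
      have := mul_le_mul_of_nonneg_left (hb y) (wk_nonneg nb (a x + n) o y)
      linarith
    have h6 : wk nb n x y ≤ σ ^ (a x + n + b y) := by linarith
    have h7 : σ ^ (a x + n + b y) = σ ^ (a x + b y) * σ ^ n := by ring
    rw [h7] at h6
    exact h6
  obtain ⟨c, hc⟩ : ∃ c, c = ip U f f := ⟨_, rfl⟩
  have hc0 : 0 ≤ c := by rw [hc]; exact Finset.sum_nonneg (fun x _ => mul_self_nonneg _)
  rcases eq_or_lt_of_le hc0 with hcz | hcpos
  · have hf0 : ∀ x ∈ U, f x = 0 := by
      intro x hx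
      rw [hc] at hcz
      have := (Finset.sum_eq_zero_iff_of_nonneg (fun x _ => mul_self_nonneg (f x))).1 hcz.symm x hx
      simpa using this
    have : ip U f (opT nb U f) = 0 := by
      unfold ip
      apply Finset.sum_eq_zero
      intro x hx
      rw [hf0 x hx, zero_mul]
    rw [this, ← hc, ← hcz, mul_zero]
  · -- the powers
    obtain ⟨q, hq⟩ : ∃ q : ℕ → ℝ, ∀ k, q k = ip U f ((opT nb U)^[2 ^ k] f) := ⟨_, fun _ => rfl⟩
    have hq0 : ∀ k, 0 ≤ q k := by
      intro k
      rw [hq]
      exact Finset.sum_nonneg (fun x _ => mul_nonneg (hf x) (iter_nonneg nb U f hf _ x))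
    have hstep : ∀ k, (q k) ^ 2 ≤ c * q (k + 1) := by
      intro k
      have h1 := ip_cs U f ((opT nb U)^[2 ^ k] f)
      have h2 : ip U ((opT nb U)^[2 ^ k] f) ((opT nb U)^[2 ^ k] f) = q (k + 1) := by
        rw [hq, ← ip_iter hsymm, ← Function.iterate_add_apply]
        congr 2
        rw [pow_succ]; ring_nf
      rw [h2, ← hq, ← hc] at h1
      exact h1
    have hpow : ∀ k, (q 0 / c) ^ (2 ^ k) ≤ q k / c := by
      intro k
      induction k with
      | zero => simp
      | succ k ih =>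
        have h0 : 0 ≤ q 0 / c := div_nonneg (hq0 0) hcpos.le
        calc (q 0 / c) ^ (2 ^ (k + 1)) = ((q 0 / c) ^ (2 ^ k)) ^ 2 := by rw [← pow_mul, pow_succ]
          _ ≤ (q k / c) ^ 2 := pow_le_pow_left₀ (pow_nonneg h0 _) ih 2
          _ = (q k) ^ 2 / c / c := by rw [div_pow]; field_simp
          _ ≤ c * q (k + 1) / c / c := by
              apply div_le_div_of_nonneg_right _ hcpos.le
              exact div_le_div_of_nonneg_right (hstep k) hcpos.le
          _ = q (k + 1) / c := by field_simp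
    obtain ⟨K, hK⟩ : ∃ K, K = ∑ x ∈ U, ∑ y ∈ U, f x * f y * σ ^ (a x + b y) := ⟨_, rfl⟩
    have hup : ∀ k, N ≤ 2 ^ k → q k ≤ K * σ ^ (2 ^ k) := by
      intro k hk
      rw [hq, hK, Finset.sum_mul]
      unfold ip
      apply Finset.sum_le_sum
      intro x hx
      rw [Finset.sum_mul]
      refine (mul_le_mul_of_nonneg_left (iter_le nb U f hf _ x hx) (hf x)).trans ?_
      rw [Finset.mul_sum]
      apply Finset.sum_le_sum
      intro y _
      have h1 := hxy (2 ^ k) hk x y
      have h2 : 0 ≤ f x * f y := mul_nonneg (hf x) (hf y)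
      calc f x * (wk nb (2 ^ k) x y * f y) = f x * f y * wk nb (2 ^ k) x y := by ring
        _ ≤ f x * f y * (σ ^ (a x + b y) * σ ^ (2 ^ k)) := mul_le_mul_of_nonneg_left h1 h2
        _ = _ := by ring
    by_contra hcon
    push Not at hcon
    have e0 : q 0 = ip U f (opT nb U f) := by rw [hq]; rfl
    rw [← e0, ← hc] at hcon
    have ht : 1 < q 0 / c / σ := by
      rw [lt_div_iff₀ hσ, lt_div_iff₀ hcpos, one_mul]; exact hcon
    obtain ⟨m, hm⟩ := pow_unbounded_of_one_lt (K / c) ht
    obtain ⟨k, hk⟩ : ∃ k, max N m ≤ 2 ^ k := ⟨max N m, Nat.lt_two_pow_self.le⟩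
    have hk1 : N ≤ 2 ^ k := (le_max_left _ _).trans hk
    have hk2 : m ≤ 2 ^ k := (le_max_right _ _).trans hk
    have h1 : (q 0 / c / σ) ^ m ≤ (q 0 / c / σ) ^ (2 ^ k) := pow_le_pow_right₀ ht.le hk2
    have h2 : (q 0 / c / σ) ^ (2 ^ k) ≤ K / c := by
      rw [div_pow, div_le_iff₀ (by positivity)]
      refine (hpow k).trans ?_
      rw [div_mul_eq_mul_div]
      exact div_le_div_of_nonneg_right (hup k hk1) hcpos.le
    linarith

end Vale.Agent.P165
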