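import Vale.Agent.P165.PowersMain

namespace Vale.Agent.P165

open Finset SimpleGraph

open Classical in
theorem orbit_density' {V : Type*} [DecidableEq V] {nb : V → Finset V}
    (hsymm : ∀ x y, y ∈ nb x → x ∈ nb y) {k r₀ C B : ℕ} (P : (V ≃ V) → Prop)
    (hr₀ : ∀ u y, ∃ ψ : V ≃ V, P ψ ∧ ψ y ∈ bl nb r₀ u)
    (hC' : ∀ x, (bl nb r₀ x).card ≤ C) (hF3 : ∀ x, B ≤ (bl nb k x).card * C)
    (hkr : r₀ ≤ k) (hC1 : 1 ≤ C) (hB : 2 * (C : ℝ) ^ 3 ≤ (B : ℝ)) (x y : V) :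
    1 / (2 * (C : ℝ) ^ 3) * (B : ℝ) ≤
      (((nbk nb k x).filter (fun z => ∃ ψ : V ≃ V, P ψ ∧ ψ y = z)).card : ℝ) := by
  have hC0 : (0 : ℝ) < (C : ℝ) := by exact_mod_cast hC1
  obtain ⟨Z, hZ⟩ : ∃ Z, Z = (bl nb k x).filter (fun z => ∃ ψ : V ≃ V, P ψ ∧ ψ y = z) :=
    ⟨_, rfl⟩
  obtain ⟨Z', hZ'⟩ : ∃ Z', Z' =
    (nbk nb k x).filter (fun z => ∃ ψ : V ≃ V, P ψ ∧ ψ y = z) := ⟨_, rfl⟩
  rw [← hZ']
  have h1 : bl nb (k - r₀) x ⊆ Z.biUnion (bl nb r₀) := by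
    intro u hu
    obtain ⟨ψ, hψ, hmem⟩ := hr₀ u y
    rw [Finset.mem_biUnion]
    refine ⟨ψ y, ?_, bl_symm hsymm hmem⟩
    rw [hZ, Finset.mem_filter]
    refine ⟨?_, ψ, hψ, rfl⟩
    have := bl_trans hu hmem
    have e : k - r₀ + r₀ = k := by omega
    rwa [e] at this
  have h2 : (bl nb (k - r₀) x).card ≤ Z.card * C :=
    (Finset.card_le_card h1).trans (Finset.card_biUnion_le_card_mul _ _ _ (fun u _ => hC' u))
  have h3 : (bl nb k x).card ≤ (bl nb (k - r₀) x).card * C := by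
    have e : k = k - r₀ + r₀ := by omega
    conv_lhs => rw [e]
    exact bl_card_add hC' x
  have h4 : B ≤ Z.card * C * C * C := by
    calc B ≤ (bl nb k x).card * C := hF3 x
      _ ≤ (bl nb (k - r₀) x).card * C * C := Nat.mul_le_mul_right _ h3
      _ ≤ Z.card * C * C * C := Nat.mul_le_mul_right _ (Nat.mul_le_mul_right _ h2)
  have h5 : Z.card ≤ Z'.card + 1 := by
    have : Z ⊆ insert x Z' := by
      intro z hz
      rw [hZ, Finset.mem_filter] at hz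
      rw [Finset.mem_insert]
      by_cases hzx : z = x
      · exact Or.inl hzx
      · right
        rw [hZ', Finset.mem_filter, mem_nbk]
        exact ⟨⟨hzx, hz.1⟩, hz.2⟩
    exact (Finset.card_le_card this).trans (Finset.card_insert_le _ _)
  have h6 : (B : ℝ) ≤ ((Z'.card : ℝ) + 1) * (C : ℝ) ^ 3 := by
    have h7 : (B : ℝ) ≤ (Z.card : ℝ) * C * C * C := by exact_mod_cast h4
    have h8 : (Z.card : ℝ) ≤ (Z'.card : ℝ) + 1 := by exact_mod_cast h5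
    calc (B : ℝ) ≤ (Z.card : ℝ) * C * C * C := h7
      _ = (Z.card : ℝ) * (C : ℝ) ^ 3 := by ring
      _ ≤ _ := mul_le_mul_of_nonneg_right h8 (by positivity)
  rw [one_div, ← div_eq_inv_mul, div_le_iff₀ (by positivity)]
  have h9 : ((Z'.card : ℝ) + 1) * (C : ℝ) ^ 3 = (Z'.card : ℝ) * (C : ℝ) ^ 3 + (C : ℝ) ^ 3 := by ring
  rw [h9] at h6
  have h10 : (Z'.card : ℝ) * (2 * (C : ℝ) ^ 3) = 2 * ((Z'.card : ℝ) * (C : ℝ) ^ 3) := by ring
  rw [h10]
  linarith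

open Classical in
theorem ratio_dens {V : Type*} {nH : V → Finset V} {κ B : ℝ}
    (hκ0 : 0 < κ) (hB0 : 0 < B) (P : (V ≃ V) → Prop) (hP : ∀ ψ, P ψ → IsAut nH ψ)
    (hdens : ∀ x y, κ * B ≤
      (((nH x).filter (fun z => ∃ ψ : V ≃ V, P ψ ∧ ψ y = z)).card : ℝ))
    (s : ℝ) (φ : V → ℝ) (hs : 1 / B ≤ s) (hφ0 : ∀ x, 0 ≤ φ x)
    (hφinv : ∀ ψ : V ≃ V, IsAut nH ψ → ∀ x, φ (ψ x) = φ x)
    (hφsup : ∀ x, s * ∑ z ∈ nH x, φ z ≤ φ x) (x y : V) : κ * φ y ≤ φ x := by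
  have hs0 : 0 < s := lt_of_lt_of_le (by positivity) hs
  obtain ⟨Z', hZ'⟩ : ∃ Z', Z' =
    (nH x).filter (fun z => ∃ ψ : V ≃ V, P ψ ∧ ψ y = z) := ⟨_, rfl⟩
  have hd := hdens x y
  rw [← hZ'] at hd
  have h1 : (Z'.card : ℝ) * φ y ≤ ∑ z ∈ nH x, φ z := by
    calc (Z'.card : ℝ) * φ y = ∑ z ∈ Z', φ z := by
          rw [Finset.sum_congr rfl (g := fun _ => φ y), Finset.sum_const, nsmul_eq_mul]
          intro z hz
          rw [hZ', Finset.mem_filter] at hz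
          obtain ⟨_, ψ, hψ, rfl⟩ := hz
          exact hφinv ψ (hP ψ hψ) y
      _ ≤ ∑ z ∈ nH x, φ z := by
          apply Finset.sum_le_sum_of_subset_of_nonneg _ (fun z _ _ => hφ0 z)
          rw [hZ']; exact Finset.filter_subset _ _
  have h2 := hφsup x
  have h3 : κ * B * φ y ≤ (Z'.card : ℝ) * φ y :=
    mul_le_mul_of_nonneg_right hd (hφ0 y)
  have h4 : 1 ≤ s * B := by
    rw [div_le_iff₀ hB0] at hs; exact hs
  calc κ * φ y = 1 * (κ * φ y) := by ring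
    _ ≤ s * B * (κ * φ y) :=
        mul_le_mul_of_nonneg_right h4 (mul_nonneg hκ0.le (hφ0 y))
    _ = s * (κ * B * φ y) := by ring
    _ ≤ s * ∑ z ∈ nH x, φ z := mul_le_mul_of_nonneg_left (h3.trans h1) hs0.le
    _ ≤ φ x := h2

theorem bl_card_le_pow {V : Type*} [DecidableEq V] {nb : V → Finset V} {d : ℕ}
    (hd : ∀ x, (nb x).card ≤ d) (r : ℕ) (x : V) : (bl nb r x).card ≤ (d + 1) ^ r := by
  induction r generalizing x with
  | zero => simp [bl]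
  | succ r ih =>
    have h1 := bl_card_add (j := r) (k := 1) (fun y => bl_one_card hd y) x
    rw [pow_succ]
    exact h1.trans (Nat.mul_le_mul_right _ (ih x))

/-- uniform version for graphs containing a large power -/
theorem sandwich_main (d r₀ M : ℕ) {h : ℝ} (hh : 0 < h) (hM : 1 ≤ M) :
    ∃ k₀ : ℕ, ∀ {V : Type*} [DecidableEq V] [Infinite V] {G : SimpleGraph V}, G.Connected →
      ∀ {nb : V → Finset V}, (∀ x y, y ∈ nb x ↔ G.Adj x y) → (∀ x, (nb x).card ≤ d) →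
      (∀ A : Finset V, h * A.card ≤ (((A.biUnion nb) \ A).card : ℝ)) →
      ∀ k ≥ k₀, ∀ {H : SimpleGraph V} {nH : V → Finset V}, (∀ x y, y ∈ nH x ↔ H.Adj x y) →
      powerGraph G k ≤ H → QT nH →
      (∀ u y, ∃ ψ : V ≃ V, (IsAut nb ψ ∧ IsAut nH ψ) ∧ ψ y ∈ bl nb r₀ u) →
      (∀ x, (nH x).card ≤ M * (bl nb k x).card) → pc H < pu H := by
  -- constants
  obtain ⟨C, hCdef⟩ : ∃ C : ℕ, C = (d + 1) ^ r₀ := ⟨_, rfl⟩
  have hC1 : 1 ≤ C := by rw [hCdef]; exact Nat.one_le_pow _ _ (by omega)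
  have hCpos : (1 : ℝ) ≤ (C : ℝ) := by exact_mod_cast hC1
  have hMpos : (1 : ℝ) ≤ (M : ℝ) := by exact_mod_cast hM
  have hC3 : (1 : ℝ) ≤ (C : ℝ) ^ 3 := one_le_pow₀ hCpos
  obtain ⟨κ, hκ⟩ : ∃ κ : ℝ, κ = 1 / (2 * (C : ℝ) ^ 3) / M := ⟨_, rfl⟩
  have hκ0 : 0 < κ := by rw [hκ]; positivity
  have hκ1 : κ ≤ 1 := by
    rw [hκ, div_le_one (by positivity)]
    refine le_trans ?_ hMpos
    rw [div_le_one (by positivity)]; linarith
  obtain ⟨ε, hε⟩ : ∃ ε : ℝ, ε = min 1 (h / (2 * ((d : ℝ) + 1) * (C : ℝ) * ((d : ℝ) + 1))) :=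
    ⟨_, rfl⟩
  have hε0 : 0 < ε := by rw [hε]; apply lt_min one_pos; positivity
  have hε1 : ε ≤ 1 := by rw [hε]; exact min_le_left _ _
  have hε2 : ε ≤ h / (2 * ((d : ℝ) + 1) * (C : ℝ) * ((d : ℝ) + 1)) := by
    rw [hε]; exact min_le_right _ _
  obtain ⟨k₁, hk₁⟩ := pow_unbounded_of_one_lt
    (max (2 * (C : ℝ) ^ 3) (4608 / (κ ^ 8 * (ε / M) ^ 6))) (show 1 < 1 + h by linarith)
  refine ⟨max k₁ (r₀ + 1), ?_⟩
  intro V _ _ G hconn nb hnb hd' hvert k hk H nH hnH hle hqt hr₀ hdeg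
  have hsymm := nb_symm hnb
  obtain ⟨o⟩ := hconn.nonempty
  have hL := exh_bl hconn hnb o
  have hiso := iso_edge hvert
  have hC' : ∀ x, (bl nb r₀ x).card ≤ C := fun x => by
    rw [hCdef]; exact bl_card_le_pow hd' r₀ x
  have hQT0 : QT nb := by
    refine ⟨bl nb r₀ o, fun x => ?_⟩
    obtain ⟨ψ, ⟨hψ, _⟩, hmem⟩ := hr₀ o x
    refine ⟨ψ x, hmem, ψ.symm, ?_, by simp⟩
    intro a b
    have := hψ (ψ.symm a) (ψ.symm b)
    simpa using this.symm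
  have hmaxk : ∀ k, ∃ r, ∀ x, (bl nb k x).card ≤ (bl nb k r).card := fun k =>
    exists_max_of_qt hQT0 o (fun x => (bl nb k x).card) (fun ψ hψ x => bl_card_aut hψ k x)
  choose rk hrk using hmaxk
  obtain ⟨β, hβ⟩ : ∃ β : ℕ → ℕ, ∀ k, β k = (bl nb k (rk k)).card := ⟨_, fun _ => rfl⟩
  have hβle : ∀ k x, (bl nb k x).card ≤ β k := fun k x => by rw [hβ]; exact hrk k x
  -- comparison of balls
  have hF3 : ∀ k x, β k ≤ (bl nb k x).card * C := by
    intro k x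
    obtain ⟨ψ, ⟨hψ, _⟩, hmem⟩ := hr₀ (rk k) x
    rw [← bl_card_aut hψ k x, hβ]
    have hsub : bl nb k (rk k) ⊆ bl nb (k + r₀) (ψ x) := by
      intro z hz
      have := bl_trans (bl_symm hsymm hmem) hz
      rwa [add_comm] at this
    exact (Finset.card_le_card hsub).trans (bl_card_add hC' (ψ x))
  have hgrow := bl_growth hh hvert
  have hkk1 : k₁ ≤ k := (le_max_left _ _).trans hk
  have hkr : r₀ + 1 ≤ k := (le_max_right _ _).trans hk
  have hβbig : max (2 * (C : ℝ) ^ 3) (4608 / (κ ^ 8 * (ε / M) ^ 6)) ≤ (β k : ℝ) := by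
    calc max (2 * (C : ℝ) ^ 3) (4608 / (κ ^ 8 * (ε / M) ^ 6)) ≤ (1 + h) ^ k₁ := hk₁.le
      _ ≤ (1 + h) ^ k := pow_le_pow_right₀ (by linarith) hkk1
      _ ≤ ((bl nb k o).card : ℝ) := hgrow k o
      _ ≤ (β k : ℝ) := by exact_mod_cast hβle k o
  have hβ1 : 2 * (C : ℝ) ^ 3 ≤ (β k : ℝ) := (le_max_left _ _).trans hβbig
  have hβ2 : 4608 / (κ ^ 8 * (ε / M) ^ 6) ≤ (β k : ℝ) := (le_max_right _ _).trans hβbig
  have hβpos : (0 : ℝ) < (β k : ℝ) := lt_of_lt_of_le (by positivity) hβ1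
  have hsubH : ∀ x, nbk nb k x ⊆ nH x := by
    intro x y hy
    exact (hnH x y).2 (hle ((mem_nbk_iff hnb k x y).1 hy))
  classical
  have hdens : ∀ x y, κ * (M * β k : ℝ) ≤
      (((nH x).filter (fun z => ∃ ψ : V ≃ V, (IsAut nb ψ ∧ IsAut nH ψ) ∧ ψ y = z)).card : ℝ) := by
    intro x y
    have h1 := orbit_density' hsymm (k := k) (B := β k) (fun ψ => IsAut nb ψ ∧ IsAut nH ψ)
      hr₀ hC' (hF3 k) (by omega) hC1 hβ1 x y
    have h2 : κ * (M * β k : ℝ) = 1 / (2 * (C : ℝ) ^ 3) * (β k : ℝ) := by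
      rw [hκ]; field_simp
    rw [h2]
    refine h1.trans (Nat.cast_le.2 (Finset.card_le_card ?_))
    intro z hz
    rw [Finset.mem_filter] at hz ⊢
    exact ⟨hsubH x hz.1, hz.2⟩
  have hk1 : 1 ≤ k := by omega
  have hHconn : H.Connected := by
    apply hconn.mono
    refine le_trans ?_ hle
    intro x y hxy
    refine ⟨hxy.ne, ?_⟩
    rw [edist_le_iff_walk]
    exact ⟨Walk.cons hxy Walk.nil, by simpa using hk1⟩
  have hcardle : ∀ x, ((nH x).card : ℝ) ≤ (M * β k : ℝ) := by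
    intro x
    have h1 : (nH x).card ≤ M * β k := (hdeg x).trans (Nat.mul_le_mul_left _ (hβle k x))
    exact_mod_cast h1
  have hmin : ∀ x, κ * (M * β k : ℝ) ≤ ((nH x).card : ℝ) := by
    intro x
    refine (hdens x x).trans (Nat.cast_le.2 (Finset.card_le_card ?_))
    intro z hz
    exact (Finset.mem_filter.1 hz).1
  have hisok : ∀ A : Finset V, (ε / M) * (M * β k : ℝ) * A.card ≤
      ∑ x ∈ A, ((nH x \ A).card : ℝ) := by
    intro A
    have h0 : (ε / M) * (M * β k : ℝ) * A.card = ε * (β k : ℝ) * A.card := by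
      have : (M : ℝ) ≠ 0 := by positivity
      field_simp
    rw [h0]
    have h1 : ε * (β k : ℝ) * A.card ≤ ∑ x ∈ A, ((nbk nb k x \ A).card : ℝ) := by
      obtain ⟨j, rfl⟩ : ∃ j, k = j + 1 := ⟨k - 1, by omega⟩
      have hb : ∀ x, (β j : ℝ) / C ≤ ((bl nb j x).card : ℝ) := by
        intro x
        rw [div_le_iff₀ (by positivity)]
        exact_mod_cast hF3 j x
      have hmain := iso_power hsymm (d := d + 1) (fun x => (hd' x).trans (Nat.le_succ d)) hiso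
        (k := j) (b := (β j : ℝ) / C) (by positivity) hb A
      have hβstep : β (j + 1) ≤ β j * (d + 1) := by
        rw [hβ (j + 1)]
        exact (bl_card_add (bl_one_card hd') _).trans (Nat.mul_le_mul_right _ (hβle j _))
      have hβstep' : (β (j + 1) : ℝ) ≤ (β j : ℝ) * ((d : ℝ) + 1) := by exact_mod_cast hβstep
      push_cast at hmain
      exact num_iso hh (Nat.cast_nonneg d) hCpos (Nat.cast_nonneg _) (Nat.cast_nonneg _)
        (Nat.cast_nonneg _) hε2 hβstep' hmain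
    refine h1.trans (Finset.sum_le_sum (fun x _ => Nat.cast_le.2 (Finset.card_le_card ?_)))
    exact Finset.sdiff_subset_sdiff (hsubH x) (Finset.Subset.refl _)
  have hfin : (4608 : ℝ) ≤ (M * β k : ℝ) * κ ^ 8 * (ε / M) ^ 6 := by
    rw [div_le_iff₀ (by positivity)] at hβ2
    have h1 : (β k : ℝ) ≤ M * β k := by nlinarith
    calc (4608 : ℝ) ≤ (β k : ℝ) * (κ ^ 8 * (ε / M) ^ 6) := hβ2
      _ ≤ (M * β k : ℝ) * (κ ^ 8 * (ε / M) ^ 6) :=
          mul_le_mul_of_nonneg_right h1 (by positivity)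
      _ = _ := by ring
  have hεM : ε / M ≤ 1 := by
    rw [div_le_one (by positivity)]; exact hε1.trans hMpos
  have hMβ : (0 : ℝ) < M * β k := by positivity
  exact iso_general hHconn hnH hL hqt (Δ := (M * β k : ℝ)) hκ0 hκ1
    (div_pos hε0 (by positivity)) hεM hcardle hmin hisok
    (ratio_dens hκ0 hMβ _ (fun ψ hψ => hψ.2) hdens) hfin

end Vale.Agent.P165
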