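import Vale.Agent.P165.Diverge

namespace Vale.Agent.P165

open Finset SimpleGraph Topology

variable {V : Type*} [DecidableEq V]

/-- edges of G with both endpoints in T -/
def eIn (nb : V → Finset V) (T : Finset V) : Finset (Sym2 V) :=
  T.biUnion (fun a => ((nb a).filter (fun b => b ∈ T)).image (fun b => s(a, b)))

theorem mem_eIn {nb : V → Finset V} (hsymm : ∀ x y, y ∈ nb x → x ∈ nb y) {T : Finset V} {a b : V} :
    s(a, b) ∈ eIn nb T ↔ b ∈ nb a ∧ a ∈ T ∧ b ∈ T := by
  unfold eIn
  rw [Finset.mem_biUnion]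
  constructor
  · rintro ⟨x, hx, h⟩
    rw [Finset.mem_image] at h
    obtain ⟨y, hy, h⟩ := h
    rw [Finset.mem_filter] at hy
    rw [Sym2.eq_iff] at h
    rcases h with ⟨rfl, rfl⟩ | ⟨rfl, rfl⟩
    · exact ⟨hy.1, hx, hy.2⟩
    · exact ⟨hsymm _ _ hy.1, hy.2, hx⟩
  · rintro ⟨h1, h2, h3⟩
    exact ⟨a, h2, Finset.mem_image.2 ⟨b, Finset.mem_filter.2 ⟨h1, h3⟩, rfl⟩⟩

/-- the Duminil-Copin Tassion functional -/
noncomputable def phi (p : ℝ) (nb : V → Finset V) (T : Finset V) (o : V) : ℝ :=
  ∑ a ∈ T, ∑ _b ∈ (nb a) \ T, p * tau p (eIn nb T) o a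

theorem inside_subset_eIn {nb : V → Finset V} (hsymm : ∀ x y, y ∈ nb x → x ∈ nb y)
    {F : Finset (Sym2 V)} (hF : ∀ x y, s(x, y) ∈ F → y ∈ nb x) (T : Finset V) :
    inside T F ⊆ eIn nb T := by
  intro e he
  rw [mem_inside] at he
  induction e using Sym2.ind with
  | _ a b =>
    rw [mem_eIn hsymm]
    exact ⟨hF a b he.1, he.2 a (by simp), he.2 b (by simp)⟩

omit [DecidableEq V] in
theorem inside_inside (T : Finset V) (S F : Finset (Sym2 V)) [DecidableEq V] (hS : S ⊆ F) :
    inside T (S ∩ inside T F) = inside T S := by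
  ext e
  simp only [mem_inside, Finset.mem_inter]
  constructor
  · rintro ⟨⟨h1, _⟩, h3⟩; exact ⟨h1, h3⟩
  · rintro ⟨h1, h3⟩; exact ⟨⟨h1, hS h1, h3⟩, h3⟩

omit [DecidableEq V] in
theorem inside_of_subset {T : Finset V} {S F : Finset (Sym2 V)} (hS : S ⊆ inside T F) :
    inside T S = S := by
  ext e
  rw [mem_inside]
  exact ⟨fun h => h.1, fun h => ⟨h, (mem_inside.1 (hS h)).2⟩⟩

theorem Pr_inside (p : ℝ) (F : Finset (Sym2 V)) (T : Finset V) (B : Finset (Sym2 V) → Prop) :
    Pr p F (fun S => B (inside T S)) = Pr p (inside T F) B := by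
  unfold Pr
  rw [Ex_restrict p (inside_subset T F)]
  · apply Ex_congr
    intro S hS
    beta_reduce
    rw [inside_of_subset hS]
  · intro S hS
    beta_reduce
    rw [inside_inside T S F hS]

theorem Pr_mem_le {p : ℝ} (h0 : 0 ≤ p) (h1 : p ≤ 1) (F : Finset (Sym2 V)) (e : Sym2 V) :
    Pr p F (fun S => e ∈ S) ≤ p := by
  by_cases he : e ∈ F
  · have := Ex_subset_event p (F := F) (K := {e}) (by simpa using he)
    have h2 : Pr p F (fun S => e ∈ S) = Ex p F (fun S => ind ({e} ⊆ S)) := by
      unfold Pr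
      apply Ex_congr
      intro S _
      apply ind_congr
      simp
    rw [h2, this]; simp
  · have : Pr p F (fun S => e ∈ S) = 0 := by
      unfold Pr
      rw [Ex_congr p (g := fun _ => 0), Ex_const]
      intro S hS
      exact ind_false (fun h => he (hS h))
    rw [this]; exact h0

/-- part one: phi less than one bounds the susceptibility -/
theorem chi_le_of_phi {p : ℝ} (h0 : 0 ≤ p) (h1 : p ≤ 1) {nb : V → Finset V}
    (hsymm : ∀ x y, y ∈ nb x → x ∈ nb y) {F : Finset (Sym2 V)}
    (hF : ∀ x y, s(x, y) ∈ F → y ∈ nb x) (W T : Finset V) {x : V} (hx : x ∈ T) {M : ℝ}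
    (hM : ∀ u, chiW p F W u ≤ M) :
    chiW p F W x ≤ T.card + phi p nb T x * M := by
  have tnn := fun x y => tau_nonneg h0 h1 F x y
  have step : ∀ v ∈ W, tau p F x v ≤ ind (v ∈ T) +
      ∑ a ∈ T, ∑ b ∈ (nb a) \ T, tau p (eIn nb T) x a * (p * tau p F b v) := by
    intro v _
    have e1 : tau p F x v ≤ Pr p F (fun S => Conn (inside T S) x v ∨
        ∃ a ∈ T, ∃ b ∈ (nb a) \ T, DisjOcc (fun R => Conn (inside T R) x a)
          (DisjOcc (fun R => s(a, b) ∈ R) (fun R => Conn R b v)) S) := by
      apply Pr_mono h0 h1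
      intro S hS hc
      rcases conn_exit hx hc with h | ⟨a, b, ha, hb, hab, h⟩
      · exact Or.inl h
      · exact Or.inr ⟨a, ha, b, Finset.mem_sdiff.2 ⟨hF a b (hS hab), hb⟩, h⟩
    refine e1.trans ((Pr_or_le h0 h1 F _ _).trans ?_)
    apply add_le_add
    · by_cases hv : v ∈ T
      · rw [ind_true hv]; exact Pr_le_one h0 h1 _ _
      · rw [ind_false hv]
        have : Pr p F (fun S => Conn (inside T S) x v) = Pr p F (fun _ => False) := by
          apply Pr_congr
          intro S _
          refine ⟨fun h => ?_, fun h => absurd h id⟩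
          have := conn_mem_verts (Finset.Subset.refl _) h
          rw [Finset.mem_insert] at this
          rcases this with h2 | h2
          · exact hv (h2 ▸ hx)
          · obtain ⟨e, he, hve⟩ := mem_verts.1 h2
            exact hv ((mem_inside.1 he).2 v hve)
        rw [this]
        unfold Pr
        rw [Ex_congr p (g := fun _ => 0) (fun S _ => ind_false id), Ex_const]
    · refine (Pr_exists_le h0 h1 F _ _).trans ?_
      apply Finset.sum_le_sum; intro a _
      refine (Pr_exists_le h0 h1 F _ _).trans ?_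
      apply Finset.sum_le_sum; intro b _
      have hAm : Monotone (fun R : Finset (Sym2 V) => Conn (inside T R) x a) := by
        intro R R' h hc
        exact Conn.mono (inside_mono T h) hc
      have hBm : Monotone (fun R : Finset (Sym2 V) => s(a, b) ∈ R) := by
        intro R R' h hc
        exact h hc
      refine (bk h0 h1 F hAm DisjOcc.mono).trans ?_
      have k1 : Pr p F (fun R => Conn (inside T R) x a) ≤ tau p (eIn nb T) x a := by
        have := Pr_inside p F T (fun R => Conn R x a)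
        rw [this]
        exact tau_mono h0 h1 (inside_subset_eIn hsymm hF T) x a
      have k2 : Pr p F (DisjOcc (fun R => s(a, b) ∈ R) (fun R => Conn R b v)) ≤
          p * tau p F b v := by
        refine (bk h0 h1 F hBm (Conn.monotone b v)).trans ?_
        exact mul_le_mul_of_nonneg_right (Pr_mem_le h0 h1 F _) (tnn _ _)
      exact mul_le_mul k1 k2 (Pr_nonneg h0 h1 _ _) (tau_nonneg h0 h1 _ _ _)
  have hM0 : 0 ≤ M := le_trans (Finset.sum_nonneg (fun v _ => tnn x v)) (hM x)
  unfold chiW
  refine (Finset.sum_le_sum step).trans ?_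
  rw [Finset.sum_add_distrib]
  apply add_le_add
  · calc ∑ v ∈ W, ind (v ∈ T) ≤ ∑ v ∈ W ∪ T, ind (v ∈ T) :=
        Finset.sum_le_sum_of_subset_of_nonneg Finset.subset_union_left
          (fun _ _ _ => ind_nonneg _)
      _ = ∑ v ∈ T, ind (v ∈ T) := by
          symm
          apply Finset.sum_subset Finset.subset_union_right
          intro v _ hv
          exact ind_false hv
      _ = ∑ v ∈ T, (1 : ℝ) := Finset.sum_congr rfl (fun v hv => ind_true hv)
      _ ≤ T.card := by simp
  · rw [Finset.sum_comm]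
    unfold phi
    rw [Finset.sum_mul]
    apply Finset.sum_le_sum; intro a _
    rw [Finset.sum_comm, Finset.sum_mul]
    apply Finset.sum_le_sum; intro b _
    have : ∑ v ∈ W, tau p (eIn nb T) x a * (p * tau p F b v) =
        p * tau p (eIn nb T) x a * chiW p F W b := by
      unfold chiW
      rw [Finset.mul_sum]
      apply Finset.sum_congr rfl
      intro v _; ring
    rw [this]
    exact mul_le_mul_of_nonneg_left (hM b) (mul_nonneg h0 (tau_nonneg h0 h1 _ _ _))

/-- edges of G touching Λ -/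
def eTouch (nb : V → Finset V) (L : Finset V) : Finset (Sym2 V) :=
  L.biUnion (fun a => (nb a).image (fun b => s(a, b)))

theorem mem_eTouch {nb : V → Finset V} (hsymm : ∀ x y, y ∈ nb x → x ∈ nb y) {L : Finset V}
    {a b : V} : s(a, b) ∈ eTouch nb L ↔ b ∈ nb a ∧ (a ∈ L ∨ b ∈ L) := by
  unfold eTouch
  rw [Finset.mem_biUnion]
  constructor
  · rintro ⟨x, hx, h⟩
    rw [Finset.mem_image] at h
    obtain ⟨y, hy, h⟩ := h
    rw [Sym2.eq_iff] at h
    rcases h with ⟨rfl, rfl⟩ | ⟨rfl, rfl⟩
    · exact ⟨hy, Or.inl hx⟩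
    · exact ⟨hsymm _ _ hy, Or.inr hx⟩
  · rintro ⟨h1, h2 | h2⟩
    · exact ⟨a, h2, Finset.mem_image.2 ⟨b, h1, rfl⟩⟩
    · exact ⟨b, h2, Finset.mem_image.2 ⟨a, hsymm _ _ h1, Sym2.eq_swap⟩⟩

/-- x is connected to the outside of L -/
def Esc (L : Finset V) (x : V) (S : Finset (Sym2 V)) : Prop := ∃ v, v ∉ L ∧ Conn S x v

omit [DecidableEq V] in
theorem Esc.mono {L : Finset V} {x : V} : Monotone (Esc L x) := by
  rintro S T hST ⟨v, hv, hc⟩
  exact ⟨v, hv, hc.mono hST⟩

open Classical in
/-- the set of vertices of L not connected to the outside of L -/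
noncomputable def calS (L : Finset V) (S : Finset (Sym2 V)) : Finset V :=
  L.filter (fun x => ¬ Esc L x S)

omit [DecidableEq V] in
theorem mem_calS {L : Finset V} {S : Finset (Sym2 V)} {x : V} :
    x ∈ calS L S ↔ x ∈ L ∧ ¬ Esc L x S := by
  simp [calS]

omit [DecidableEq V] in
theorem calS_anti {L : Finset V} {S S' : Finset (Sym2 V)} (h : S' ⊆ S) :
    calS L S ⊆ calS L S' := by
  intro x hx
  rw [mem_calS] at hx ⊢
  exact ⟨hx.1, fun h2 => hx.2 (Esc.mono h h2)⟩

/-- a walk from v outside T to a vertex of T : first part avoids the edges inside T -/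
theorem conn_first_hit {S S' : Finset (Sym2 V)} {T : Finset V}
    (hSS : ∀ e ∈ S, e ∉ S' → ∀ v ∈ e, v ∈ T) {v x : V} (h : Conn S v x) (hx : x ∈ T) :
    ∃ u ∈ T, Conn S' v u := by
  obtain ⟨w⟩ := h
  obtain ⟨u, w', hu, h1, h2⟩ := exists_first_hit (A := (T : Set V)) w (by exact_mod_cast hx)
  refine ⟨u, by exact_mod_cast hu, conn_of_walk w' ?_⟩
  intro e he
  by_contra hne
  have hT := hSS e (walk_edges_mem w' e he) hne
  induction e using Sym2.ind with
  | _ a b =>
    have ha := h2 a (w'.fst_mem_support_of_mem_edges he) (by exact_mod_cast hT a (by simp))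
    have hb := h2 b (w'.snd_mem_support_of_mem_edges he) (by exact_mod_cast hT b (by simp))
    exact (w'.adj_of_mem_edges he).ne (ha.trans hb.symm)

theorem calS_eq_iff {L T : Finset V} {S S' : Finset (Sym2 V)} (hS'S : S' ⊆ S)
    (hSS : ∀ e ∈ S, e ∉ S' → ∀ v ∈ e, v ∈ T) : calS L S = T ↔ calS L S' = T := by
  constructor
  · intro h
    apply Finset.Subset.antisymm
    · intro x hx
      by_contra hxT
      rw [mem_calS] at hx
      have hxS : x ∉ calS L S := by rw [h]; exact hxT
      rw [mem_calS] at hxS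
      push Not at hxS
      obtain ⟨v, hv, hc⟩ := hxS hx.1
      apply hx.2
      refine ⟨v, hv, ?_⟩
      obtain ⟨w⟩ := hc
      apply conn_of_walk w
      intro e he
      by_contra hne
      have hT := hSS e (walk_edges_mem w e he) hne
      induction e using Sym2.ind with
      | _ a b =>
        have haT : a ∈ T := hT a (by simp)
        rw [← h, mem_calS] at haT
        apply haT.2
        refine ⟨v, hv, ?_⟩
        have ha := w.fst_mem_support_of_mem_edges he
        exact conn_of_walk (w.dropUntil a ha) (fun e he =>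
          walk_edges_mem w e (w.edges_dropUntil_subset_edges ha he))
    · rw [← h]; exact calS_anti hS'S
  · intro h
    apply Finset.Subset.antisymm
    · rw [← h]; exact calS_anti hS'S
    · intro x hx
      have hx' := hx
      rw [← h, mem_calS] at hx'
      rw [mem_calS]
      refine ⟨hx'.1, ?_⟩
      rintro ⟨v, hv, hc⟩
      obtain ⟨u, hu, hc'⟩ := conn_first_hit hSS hc.symm hx
      rw [← h, mem_calS] at hu
      exact hu.2 ⟨v, hv, hc'.symm⟩

end Vale.Agent.P165
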