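import Vale.Agent.P165.Walks

namespace Vale.Agent.P165

open Finset

variable {V : Type*} [DecidableEq V]

/-- adjacency operator restricted to U -/
noncomputable def opT (nb : V → Finset V) (U : Finset V) (f : V → ℝ) (x : V) : ℝ :=
  ∑ z ∈ (nb x) ∩ U, f z

noncomputable def ip (U : Finset V) (f g : V → ℝ) : ℝ := ∑ x ∈ U, f x * g x

omit [DecidableEq V] in
theorem ip_comm (U : Finset V) (f g : V → ℝ) : ip U f g = ip U g f := by
  unfold ip
  apply Finset.sum_congr rfl; intro x _; ring

omit [DecidableEq V] in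
theorem ip_lin (U : Finset V) (a b : ℝ) (f g h : V → ℝ) :
    ip U (fun x => a * f x + b * g x) h = a * ip U f h + b * ip U g h := by
  unfold ip
  rw [Finset.mul_sum, Finset.mul_sum, ← Finset.sum_add_distrib]
  apply Finset.sum_congr rfl; intro x _; ring

theorem opT_lin (nb : V → Finset V) (U : Finset V) (a b : ℝ) (f g : V → ℝ) (x : V) :
    opT nb U (fun x => a * f x + b * g x) x = a * opT nb U f x + b * opT nb U g x := by
  unfold opT
  rw [Finset.mul_sum, Finset.mul_sum, ← Finset.sum_add_distrib]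

section
variable {nb : V → Finset V} (hsymm : ∀ x y, y ∈ nb x → x ∈ nb y) (U : Finset V)
include hsymm

theorem ip_opT (f g : V → ℝ) : ip U f (opT nb U g) = ip U (opT nb U f) g := by
  unfold ip opT
  have e1 : ∑ x ∈ U, f x * ∑ z ∈ nb x ∩ U, g z = ∑ x ∈ U, ∑ z ∈ nb x ∩ U, f x * g z := by
    apply Finset.sum_congr rfl; intro x _; rw [Finset.mul_sum]
  have e2 : ∑ z ∈ U, (∑ x ∈ nb z ∩ U, f x) * g z = ∑ z ∈ U, ∑ x ∈ nb z ∩ U, f x * g z := by
    apply Finset.sum_congr rfl; intro x _; rw [Finset.sum_mul]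
  rw [e1, e2]
  apply Finset.sum_comm'
  intro x z
  simp only [Finset.mem_inter]
  constructor
  · rintro ⟨h1, h2, h3⟩; exact ⟨⟨hsymm _ _ h2, h1⟩, h3⟩
  · rintro ⟨⟨h1, h2⟩, h3⟩; exact ⟨h2, hsymm _ _ h1, h3⟩

variable {s : ℝ} (hs : 0 < s)
  (hQ : ∀ f : V → ℝ, (∀ x, 0 ≤ f x) → ip U f (opT nb U f) ≤ s * ip U f f)
include hs hQ

omit hsymm hs in
theorem quad_abs (f : V → ℝ) : |ip U f (opT nb U f)| ≤ s * ip U f f := by
  have h1 : |ip U f (opT nb U f)| ≤ ip U (fun x => |f x|) (opT nb U (fun x => |f x|)) := by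
    unfold ip opT
    refine (Finset.abs_sum_le_sum_abs _ _).trans ?_
    apply Finset.sum_le_sum
    intro x _
    rw [abs_mul]
    exact mul_le_mul_of_nonneg_left (Finset.abs_sum_le_sum_abs _ _) (abs_nonneg _)
  have h2 := hQ (fun x => |f x|) (fun x => abs_nonneg _)
  have h3 : ip U (fun x => |f x|) (fun x => |f x|) = ip U f f := by
    unfold ip
    apply Finset.sum_congr rfl; intro x _; exact abs_mul_abs_self _
  rw [h3] at h2
  exact h1.trans h2

theorem norm_opT_le (f : V → ℝ) :
    ip U (opT nb U f) (opT nb U f) ≤ s ^ 2 * ip U f f := by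
  set T := opT nb U with hT
  set a := ip U f f
  set b := ip U f (T f) with hb
  set c := ip U (T f) (T f) with hc
  set d := ip U (T f) (T (T f)) with hd
  have hc2 : ip U f (T (T f)) = c := ip_opT hsymm U f (T f)
  have hb2 : ip U (T f) f = b := ip_comm U _ _
  have hd2 : ip U (T (T f)) (T f) = d := ip_comm U _ _
  -- u = s f - T f
  have Tlin : ∀ (α β : ℝ) (g h : V → ℝ), T (fun x => α * g x + β * h x) =
      fun x => α * T g x + β * T h x := by
    intro α β g h
    funext x
    exact opT_lin nb U α β g h x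
  have ip_lin' : ∀ (α β : ℝ) (g h k : V → ℝ), ip U k (fun x => α * g x + β * h x) =
      α * ip U k g + β * ip U k h := by
    intro α β g h k
    rw [ip_comm, ip_lin, ip_comm U g, ip_comm U h]
  have expand : ∀ β : ℝ, ip U (fun x => s * f x + β * T f x) (fun x => s * f x + β * T f x) =
      s ^ 2 * a + 2 * s * β * b + β ^ 2 * c := by
    intro β
    rw [ip_lin, ip_lin', ip_lin', hb2]
    ring
  have expandT : ∀ β : ℝ, ip U (fun x => s * f x + β * T f x)
      (T (fun x => s * f x + β * T f x)) =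
      s ^ 2 * b + 2 * s * β * c + β ^ 2 * d := by
    intro β
    rw [Tlin, ip_lin, ip_lin', ip_lin', hc2]
    ring
  have q1 := quad_abs U hQ (fun x => s * f x + (-1) * T f x)
  have q2 := quad_abs U hQ (fun x => s * f x + 1 * T f x)
  have q1' : ip U (fun x => s * f x + (-1) * T f x) (T (fun x => s * f x + (-1) * T f x)) ≥
      - (s * ip U (fun x => s * f x + (-1) * T f x) (fun x => s * f x + (-1) * T f x)) :=
    (abs_le.1 q1).1
  have q2' : ip U (fun x => s * f x + 1 * T f x) (T (fun x => s * f x + 1 * T f x)) ≤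
      s * ip U (fun x => s * f x + 1 * T f x) (fun x => s * f x + 1 * T f x) :=
    (abs_le.1 q2).2
  rw [expand, expandT] at q1' q2'
  have : 2 * s * c ≤ 2 * s * (s ^ 2 * a) := by nlinarith
  have h2s : 0 < 2 * s := by linarith
  exact le_of_mul_le_mul_left this h2s

theorem norm_iter_le (n : ℕ) (f : V → ℝ) :
    ip U ((opT nb U)^[n] f) ((opT nb U)^[n] f) ≤ (s ^ n) ^ 2 * ip U f f := by
  induction n with
  | zero => simp
  | succ n ih =>
    rw [Function.iterate_succ_apply']
    refine (norm_opT_le hsymm U hs hQ _).trans ?_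
    calc s ^ 2 * ip U ((opT nb U)^[n] f) ((opT nb U)^[n] f)
        ≤ s ^ 2 * ((s ^ n) ^ 2 * ip U f f) := mul_le_mul_of_nonneg_left ih (by positivity)
      _ = _ := by rw [pow_succ]; ring

end

/-- walk bound from the quadratic form bound -/
theorem wk_le_of_quad {nb : V → Finset V} (hsymm : ∀ x y, y ∈ nb x → x ∈ nb y) {s D : ℝ}
    (hs : 0 < s) (hD : ∀ x, ((nb x).card : ℝ) ≤ D)
    (hQ : ∀ (U : Finset V) (f : V → ℝ), (∀ x, 0 ≤ f x) → ip U f (opT nb U f) ≤ s * ip U f f)
    (n : ℕ) (x y : V) : wk nb (n + 2) x y ≤ D * s ^ n := by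
  have hD0 : 0 ≤ D := le_trans (Nat.cast_nonneg _) (hD x)
  -- supports
  have hsupp : ∀ k, ∃ K : Finset V, ∀ z, wk nb k z y ≠ 0 → z ∈ K := by
    intro k
    induction k with
    | zero =>
      refine ⟨{y}, ?_⟩
      intro z hz
      by_contra h
      apply hz
      apply ind_false
      rintro rfl
      exact h (Finset.mem_singleton_self _)
    | succ k ih =>
      obtain ⟨K, hK⟩ := ih
      refine ⟨K.biUnion nb, ?_⟩
      intro z hz
      have e : wk nb (k + 1) z y = ∑ w ∈ nb z, wk nb k w y := rfl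
      rw [e] at hz
      obtain ⟨w, hw, hw2⟩ := Finset.exists_ne_zero_of_sum_ne_zero hz
      exact Finset.mem_biUnion.2 ⟨w, hK w hw2, hsymm _ _ hw⟩
  choose K hK using hsupp
  set U := (Finset.range (n + 3)).biUnion K ∪ nb x with hU
  have hKU : ∀ k < n + 3, K k ⊆ U := by
    intro k hk z hz
    rw [hU, Finset.mem_union]
    exact Or.inl (Finset.mem_biUnion.2 ⟨k, Finset.mem_range.2 hk, hz⟩)
  have hstep : ∀ k, k + 1 < n + 3 → opT nb U (fun z => wk nb k z y) = fun z => wk nb (k + 1) z y := by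
    intro k hk
    funext z
    have e : wk nb (k + 1) z y = ∑ w ∈ nb z, wk nb k w y := rfl
    rw [e]
    unfold opT
    apply Finset.sum_subset Finset.inter_subset_left
    intro w hw hwU
    by_contra hne
    exact hwU (Finset.mem_inter.2 ⟨hw, hKU k (by omega) (hK k w hne)⟩)
  have hiter : ∀ k, k < n + 2 → (opT nb U)^[k] (fun z => wk nb 1 z y) =
      fun z => wk nb (k + 1) z y := by
    intro k
    induction k with
    | zero => intro _; rfl
    | succ k ih =>
      intro hk
      rw [Function.iterate_succ_apply', ih (by omega), hstep (k + 1) (by omega)]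
  have hN := norm_iter_le hsymm U hs (hQ U) n (fun z => wk nb 1 z y)
  rw [hiter n (by omega)] at hN
  -- norm of the first function
  have h1 : ip U (fun z => wk nb 1 z y) (fun z => wk nb 1 z y) ≤ D := by
    unfold ip
    have hle : ∀ z ∈ U, wk nb 1 z y * wk nb 1 z y ≤ ind (z ∈ nb y) := by
      intro z _
      by_cases hz : z ∈ nb y
      · rw [ind_true hz]
        have a1 := wk_one_le nb z y
        have a2 := wk_nonneg nb 1 z y
        nlinarith
      · have : wk nb 1 z y = 0 := by
          have e : wk nb 1 z y = ∑ w ∈ nb z, wk nb 0 w y := rfl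
          rw [e]
          apply Finset.sum_eq_zero
          intro w hw
          apply ind_false
          rintro rfl
          exact hz (hsymm _ _ hw)
        rw [this, ind_false hz]; simp
    refine (Finset.sum_le_sum hle).trans ?_
    calc ∑ z ∈ U, ind (z ∈ nb y) ≤ ∑ z ∈ U ∪ nb y, ind (z ∈ nb y) :=
          Finset.sum_le_sum_of_subset_of_nonneg Finset.subset_union_left
            (fun _ _ _ => ind_nonneg _)
      _ = ∑ z ∈ nb y, ind (z ∈ nb y) := by
          symm
          apply Finset.sum_subset Finset.subset_union_right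
          intro v _ hv
          exact ind_false hv
      _ = ∑ z ∈ nb y, (1 : ℝ) := Finset.sum_congr rfl (fun v hv => ind_true hv)
      _ = ((nb y).card : ℝ) := by simp
      _ ≤ D := hD y
  have hN' : ip U (fun z => wk nb (n + 1) z y) (fun z => wk nb (n + 1) z y) ≤ (s ^ n) ^ 2 * D :=
    hN.trans (mul_le_mul_of_nonneg_left h1 (by positivity))
  -- Cauchy Schwarz
  have e : wk nb (n + 2) x y = ∑ z ∈ nb x, wk nb (n + 1) z y := rfl
  have hsub : nb x ⊆ U := Finset.subset_union_right
  have hcs : (∑ z ∈ nb x, wk nb (n + 1) z y) ^ 2 ≤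
      (nb x).card * ∑ z ∈ nb x, wk nb (n + 1) z y ^ 2 := sq_sum_le_card_mul_sum_sq
  have h2 : ∑ z ∈ nb x, wk nb (n + 1) z y ^ 2 ≤ (s ^ n) ^ 2 * D := by
    refine le_trans ?_ hN'
    unfold ip
    calc ∑ z ∈ nb x, wk nb (n + 1) z y ^ 2 ≤ ∑ z ∈ U, wk nb (n + 1) z y ^ 2 :=
          Finset.sum_le_sum_of_subset_of_nonneg hsub (fun _ _ _ => sq_nonneg _)
      _ = _ := by
          apply Finset.sum_congr rfl; intro z _; ring
  have h3 : (∑ z ∈ nb x, wk nb (n + 1) z y) ^ 2 ≤ (D * s ^ n) ^ 2 := by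
    refine hcs.trans ?_
    calc ((nb x).card : ℝ) * ∑ z ∈ nb x, wk nb (n + 1) z y ^ 2
        ≤ D * ((s ^ n) ^ 2 * D) := by
          apply mul_le_mul (hD x) h2 (Finset.sum_nonneg (fun _ _ => sq_nonneg _)) hD0
      _ = _ := by ring
  rw [e]
  exact le_of_sq_le_sq h3 (by positivity) |> fun h => h

end Vale.Agent.P165
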