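import Vale.Agent.P165.DCT

namespace Vale.Agent.P165

open Finset SimpleGraph Topology

theorem Ex_map {α β : Type*} [DecidableEq α] [DecidableEq β] (g : α ↪ β) (p : ℝ) (F : Finset α)
    (f : Finset β → ℝ) : Ex p (F.map g) f = Ex p F (fun S => f (S.map g)) := by
  induction F using Finset.induction_on generalizing f with
  | empty => simp
  | insert a F ha ih =>
    rw [Finset.map_insert, Ex_insert p (by simpa using ha), Ex_insert p ha, ih, ih]
    congr 2
    apply Ex_congr
    intro S _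
    rw [Finset.map_insert]

variable {V : Type*} [DecidableEq V]

/-- action of a permutation of V on pairs -/
def symEmb (φ : V ≃ V) : Sym2 V ↪ Sym2 V := ⟨Sym2.map φ, Sym2.map.injective φ.injective⟩

omit [DecidableEq V] in
@[simp] theorem symEmb_mk (φ : V ≃ V) (x y : V) : symEmb φ s(x, y) = s(φ x, φ y) := rfl

omit [DecidableEq V] in
theorem mem_map_symEmb {φ : V ≃ V} {S : Finset (Sym2 V)} {x y : V} :
    s(φ x, φ y) ∈ S.map (symEmb φ) ↔ s(x, y) ∈ S := by
  rw [← symEmb_mk, Finset.mem_map']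

omit [DecidableEq V] in
theorem map_symEmb_symm (φ : V ≃ V) (S : Finset (Sym2 V)) :
    (S.map (symEmb φ)).map (symEmb φ.symm) = S := by
  ext e
  simp only [Finset.mem_map]
  constructor
  · rintro ⟨e1, ⟨e2, h2, rfl⟩, rfl⟩
    induction e2 using Sym2.ind with
    | _ a b => simpa using h2
  · intro h
    induction e using Sym2.ind with
    | _ a b => exact ⟨s(φ a, φ b), ⟨s(a, b), h, rfl⟩, by simp⟩

omit [DecidableEq V] in
theorem conn_map_of (φ : V ≃ V) {S : Finset (Sym2 V)} {x y : V} (h : Conn S x y) :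
    Conn (S.map (symEmb φ)) (φ x) (φ y) := by
  let f : (SimpleGraph.fromEdgeSet (S : Set (Sym2 V))) →g
      (SimpleGraph.fromEdgeSet ((S.map (symEmb φ) : Finset (Sym2 V)) : Set (Sym2 V))) :=
    { toFun := φ
      map_rel' := by
        intro a b hab
        rw [sym2_adj_fromEdgeSet] at hab ⊢
        refine ⟨?_, fun h => hab.2 (φ.injective h)⟩
        have : s(a, b) ∈ S := by exact_mod_cast hab.1
        exact_mod_cast mem_map_symEmb.2 this }
  exact Reachable.map f h

omit [DecidableEq V] in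
theorem conn_map (φ : V ≃ V) {S : Finset (Sym2 V)} {x y : V} :
    Conn (S.map (symEmb φ)) (φ x) (φ y) ↔ Conn S x y := by
  constructor
  · intro h
    have := conn_map_of φ.symm h
    rw [map_symEmb_symm] at this
    simpa using this
  · exact conn_map_of φ

omit [DecidableEq V] in
theorem esc_map (φ : V ≃ V) {L : Finset V} {S : Finset (Sym2 V)} {x : V} :
    Esc (L.map φ.toEmbedding) (φ x) (S.map (symEmb φ)) ↔ Esc L x S := by
  constructor
  · rintro ⟨v, hv, hc⟩
    refine ⟨φ.symm v, ?_, ?_⟩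
    · intro h
      apply hv
      rw [Finset.mem_map]
      exact ⟨φ.symm v, h, by simp⟩
    · rw [← conn_map φ]; simpa using hc
  · rintro ⟨v, hv, hc⟩
    refine ⟨φ v, ?_, (conn_map φ).2 hc⟩
    intro h
    rw [Finset.mem_map] at h
    obtain ⟨w, hw, h⟩ := h
    exact hv (φ.injective h ▸ hw)

section
variable {nb : V → Finset V} {φ : V ≃ V} (hφ : ∀ x y, φ y ∈ nb (φ x) ↔ y ∈ nb x)
include hφ

theorem nb_map (x : V) : nb (φ x) = (nb x).map φ.toEmbedding := by
  ext y
  rw [Finset.mem_map]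
  constructor
  · intro h
    exact ⟨φ.symm y, by rw [← hφ]; simpa using h, by simp⟩
  · rintro ⟨z, hz, rfl⟩
    exact (hφ x z).2 hz

theorem eIn_map (hsymm : ∀ x y, y ∈ nb x → x ∈ nb y) (T : Finset V) :
    eIn nb (T.map φ.toEmbedding) = (eIn nb T).map (symEmb φ) := by
  ext e
  induction e using Sym2.ind with
  | _ a b =>
    obtain ⟨a', rfl⟩ := φ.surjective a
    obtain ⟨b', rfl⟩ := φ.surjective b
    rw [mem_map_symEmb, mem_eIn hsymm, mem_eIn hsymm, hφ]
    simp

theorem eTouch_map (hsymm : ∀ x y, y ∈ nb x → x ∈ nb y) (T : Finset V) :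
    eTouch nb (T.map φ.toEmbedding) = (eTouch nb T).map (symEmb φ) := by
  ext e
  induction e using Sym2.ind with
  | _ a b =>
    obtain ⟨a', rfl⟩ := φ.surjective a
    obtain ⟨b', rfl⟩ := φ.surjective b
    rw [mem_map_symEmb, mem_eTouch hsymm, mem_eTouch hsymm, hφ]
    simp

theorem tau_map (hsymm : ∀ x y, y ∈ nb x → x ∈ nb y) (p : ℝ) (T : Finset V) (x y : V) :
    tau p (eIn nb (T.map φ.toEmbedding)) (φ x) (φ y) = tau p (eIn nb T) x y := by
  unfold tau Pr
  rw [eIn_map hφ hsymm, Ex_map]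
  apply Ex_congr
  intro S _
  exact ind_congr (conn_map φ)

theorem theta_map (hsymm : ∀ x y, y ∈ nb x → x ∈ nb y) (p : ℝ) (L : Finset V) (x : V) :
    theta p nb (L.map φ.toEmbedding) (φ x) = theta p nb L x := by
  unfold theta Pr
  rw [eTouch_map hφ hsymm, Ex_map]
  apply Ex_congr
  intro S _
  exact ind_congr (esc_map φ)

theorem phi_map (hsymm : ∀ x y, y ∈ nb x → x ∈ nb y) (p : ℝ) (T : Finset V) (x : V) :
    phi p nb (T.map φ.toEmbedding) (φ x) = phi p nb T x := by
  unfold phi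
  rw [Finset.sum_map]
  apply Finset.sum_congr rfl
  intro a _
  have h1 : nb (φ.toEmbedding a) \ T.map φ.toEmbedding = (nb a \ T).map φ.toEmbedding := by
    have : nb (φ.toEmbedding a) = (nb a).map φ.toEmbedding := nb_map hφ a
    rw [this, ← Finset.map_sdiff]
  rw [h1, Finset.sum_map]
  apply Finset.sum_congr rfl
  intro b _
  have := tau_map hφ hsymm p T x a
  simp only [Equiv.coe_toEmbedding]
  rw [this]

end

/-- quasi-transitivity in terms of nb -/
def QT (nb : V → Finset V) : Prop :=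
  ∃ R : Finset V, ∀ x, ∃ r ∈ R, ∃ φ : V ≃ V, (∀ x y, φ y ∈ nb (φ x) ↔ y ∈ nb x) ∧ φ r = x

/-- sharpness: if the susceptibility is unbounded, some vertex has phi at least one for all sets -/
theorem exists_phi_ge {nb : V → Finset V} (hsymm : ∀ x y, y ∈ nb x → x ∈ nb y) (hqt : QT nb)
    {p : ℝ} (h0 : 0 ≤ p) (h1 : p ≤ 1) (o : V)
    (hub : ∀ M : ℝ, ∃ (F : Finset (Sym2 V)) (W : Finset V), (∀ x y, s(x, y) ∈ F → y ∈ nb x) ∧
      M < chiW p F W o) :
    ∃ x, ∀ T : Finset V, x ∈ T → 1 ≤ phi p nb T x := by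
  by_contra hcon
  push Not at hcon
  choose T hT1 hT2 using hcon
  obtain ⟨R, hR⟩ := hqt
  have hRne : R.Nonempty := by
    obtain ⟨r, hr, _⟩ := hR o
    exact ⟨r, hr⟩
  -- uniform bounds over the representatives
  obtain ⟨r₁, hr₁, hmax1⟩ := Finset.exists_max_image R (fun r => phi p nb (T r) r) hRne
  obtain ⟨r₂, hr₂, hmax2⟩ := Finset.exists_max_image R (fun r => (T r).card) hRne
  set c := phi p nb (T r₁) r₁ with hc
  have hc1 : c < 1 := hT2 r₁
  set K := ((T r₂).card : ℝ) with hK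
  obtain ⟨F, W, hF, hM⟩ := hub (K / (1 - c))
  have hbdd : BddAbove (Set.range (fun u => chiW p F W u)) := by
    refine ⟨W.card, ?_⟩
    rintro _ ⟨u, rfl⟩
    simp only [chiW]
    calc ∑ v ∈ W, tau p F u v ≤ ∑ _v ∈ W, (1 : ℝ) :=
          Finset.sum_le_sum (fun v _ => tau_le_one h0 h1 F u v)
      _ = W.card := by simp
  set M := ⨆ u, chiW p F W u with hMdef
  have hMu : ∀ u, chiW p F W u ≤ M := fun u => le_ciSup hbdd u
  have hM0 : 0 ≤ M :=
    le_trans (Finset.sum_nonneg (fun v _ => tau_nonneg h0 h1 F o v)) (hMu o)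
  have hbound : ∀ x, chiW p F W x ≤ K + c * M := by
    intro x
    obtain ⟨r, hr, φ, hφ, rfl⟩ := hR x
    have hx : φ r ∈ (T r).map φ.toEmbedding := by
      rw [Finset.mem_map]; exact ⟨r, hT1 r, rfl⟩
    have := chi_le_of_phi h0 h1 hsymm hF W ((T r).map φ.toEmbedding) hx hMu
    rw [phi_map hφ hsymm, Finset.card_map] at this
    have k1 : ((T r).card : ℝ) ≤ K := Nat.cast_le.2 (hmax2 r hr)
    have k2 : phi p nb (T r) r * M ≤ c * M := mul_le_mul_of_nonneg_right (hmax1 r hr) hM0
    linarith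
  have : Nonempty V := ⟨o⟩
  have hMle : M ≤ K + c * M := ciSup_le hbound
  have hpos : 0 < 1 - c := by linarith
  have : M ≤ K / (1 - c) := by
    rw [le_div_iff₀ hpos]; linarith
  have := hMu o
  linarith

end Vale.Agent.P165
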