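import Vale.Agent.P165.Sym

namespace Vale.Agent.P165

open Finset SimpleGraph MeasureTheory ProbabilityTheory unitInterval

section
variable {ι : Type*} [DecidableEq ι] (u : Set ι) (q : I)

open Classical in
/-- the restriction of a random set to a finite set -/
noncomputable def rst (F : Finset ι) (ω : Set ι) : Finset ι := F.filter (fun e => e ∈ ω)

omit [DecidableEq ι] in
theorem mem_rst {F : Finset ι} {ω : Set ι} {e : ι} : e ∈ rst F ω ↔ e ∈ F ∧ e ∈ ω := by
  simp [rst]

theorem setBernoulli_cylinder {F : Finset ι} (hF : ∀ e ∈ F, e ∈ u) {S : Finset ι} (hS : S ⊆ F) :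
    setBernoulli u q {ω | rst F ω = S} =
      ENNReal.ofReal ((q : ℝ) ^ S.card * (1 - (q : ℝ)) ^ (F \ S).card) := by
  have e1 : (fun P : ι → Prop => {i | P i}) ⁻¹' {ω : Set ι | rst F ω = S} =
      Set.pi (F : Set ι) (fun i => {P : Prop | P ↔ i ∈ S}) := by
    ext P
    simp only [Set.mem_preimage, Set.mem_ofPred_eq, Set.mem_pi, Finset.mem_coe]
    constructor
    · intro h i hi
      rw [← h, mem_rst]
      simp [hi]
    · intro h
      ext i
      rw [mem_rst]
      constructor
      · rintro ⟨h1, h2⟩
        exact (h i h1).1 h2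
      · intro h1
        exact ⟨hS h1, (h i (hS h1)).2 h1⟩
  rw [setBernoulli_apply', e1, Measure.infinitePi_pi]
  · have e2 : ∀ i ∈ F, ((toNNReal q • Measure.dirac (i ∈ u) +
        toNNReal (σ q) • Measure.dirac False) : Measure Prop) {P : Prop | P ↔ i ∈ S} =
        if i ∈ S then ENNReal.ofReal q else ENNReal.ofReal (1 - q) := by
      intro i hi
      have hiu := hF i hi
      have c1 : (toNNReal q : ENNReal) = ENNReal.ofReal (q : ℝ) := by
        rw [ENNReal.ofReal]
        congr 1
        ext
        rw [Real.coe_toNNReal _ q.2.1]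
        rfl
      have c2 : (toNNReal (σ q) : ENNReal) = ENNReal.ofReal (1 - (q : ℝ)) := by
        rw [ENNReal.ofReal]
        congr 1
        ext
        rw [Real.coe_toNNReal _ (by linarith [q.2.2])]
        rfl
      by_cases hiS : i ∈ S
      · simp [hiS, hiu, c1]
      · simp [hiS, hiu, c2]
    rw [Finset.prod_congr rfl e2, Finset.prod_ite]
    have f1 : F.filter (fun i => i ∈ S) = S := by
      ext i; simp only [Finset.mem_filter]
      exact ⟨fun h => h.2, fun h => ⟨hS h, h⟩⟩
    have f2 : F.filter (fun i => i ∉ S) = F \ S := by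
      ext i; simp [Finset.mem_filter, Finset.mem_sdiff]
    rw [f1, f2, Finset.prod_const, Finset.prod_const, ENNReal.ofReal_mul (pow_nonneg q.2.1 _),
      ENNReal.ofReal_pow q.2.1, ENNReal.ofReal_pow (by linarith [q.2.2])]
  · intro i _
    exact MeasurableSpace.measurableSet_top

theorem measurable_rst_eq (F S : Finset ι) : MeasurableSet {ω : Set ι | rst F ω = S} := by
  by_cases hS : S ⊆ F
  · have : {ω : Set ι | rst F ω = S} = ⋂ i ∈ F, {ω : Set ι | i ∈ ω ↔ i ∈ S} := by
      ext ω
      simp only [Set.mem_ofPred_eq, Set.mem_iInter]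
      constructor
      · intro h i hi
        rw [← h, mem_rst]
        simp [hi]
      · intro h
        ext i
        rw [mem_rst]
        constructor
        · rintro ⟨h1, h2⟩
          exact (h i h1).1 h2
        · intro h1
          exact ⟨hS h1, (h i (hS h1)).2 h1⟩
    rw [this]
    apply Finset.measurableSet_biInter
    intro i _
    by_cases hi : i ∈ S
    · simpa [hi] using measurableSet_mem i
    · have := (measurableSet_mem i).compl
      convert this using 1
      ext ω
      simp [hi]
  · have : {ω : Set ι | rst F ω = S} = ∅ := by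
      ext ω
      simp only [Set.mem_ofPred_eq, Set.mem_empty_iff_false, iff_false]
      rintro rfl
      exact hS (fun e he => (mem_rst.1 he).1)
    rw [this]
    exact MeasurableSet.empty

omit [DecidableEq ι] in
theorem event_eq_biUnion (F : Finset ι) (A : Finset ι → Prop) [DecidablePred A] :
    {ω : Set ι | A (rst F ω)} = ⋃ S ∈ F.powerset.filter A, {ω : Set ι | rst F ω = S} := by
  ext ω
  simp only [Set.mem_ofPred_eq, Set.mem_iUnion, Finset.mem_filter, Finset.mem_powerset]
  constructor
  · intro h
    exact ⟨rst F ω, ⟨fun e he => (mem_rst.1 he).1, h⟩, rfl⟩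
  · rintro ⟨S, ⟨_, h2⟩, h3⟩
    rw [h3]; exact h2

theorem measurable_event (F : Finset ι) (A : Finset ι → Prop) :
    MeasurableSet {ω : Set ι | A (rst F ω)} := by
  classical
  rw [event_eq_biUnion F A]
  apply Finset.measurableSet_biUnion
  intro S _
  exact measurable_rst_eq F S

theorem setBernoulli_event {F : Finset ι} (hF : ∀ e ∈ F, e ∈ u) (A : Finset ι → Prop) :
    (setBernoulli u q).real {ω | A (rst F ω)} = Pr (q : ℝ) F A := by
  classical
  rw [event_eq_biUnion F A, measureReal_biUnion_finset]
  · unfold Pr Ex
    rw [← Finset.sum_filter_add_sum_filter_not F.powerset A]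
    have z : ∑ x ∈ F.powerset.filter (fun x => ¬ A x),
        (q : ℝ) ^ x.card * (1 - (q : ℝ)) ^ (F \ x).card * ind (A x) = 0 := by
      apply Finset.sum_eq_zero
      intro S hS
      rw [Finset.mem_filter] at hS
      rw [ind_false hS.2, mul_zero]
    rw [z, add_zero]
    apply Finset.sum_congr rfl
    intro S hS
    rw [Finset.mem_filter, Finset.mem_powerset] at hS
    beta_reduce
    rw [ind_true hS.2, mul_one, measureReal_def, setBernoulli_cylinder u q hF hS.1,
      ENNReal.toReal_ofReal]
    have : 0 ≤ 1 - (q : ℝ) := by linarith [q.2.2]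
    have := q.2.1
    positivity
  · intro S _ T _ hST
    rw [Function.onFun, Set.disjoint_left]
    intro ω h1 h2
    exact hST (h1.symm.trans h2)
  · intro S _
    exact measurable_rst_eq F S

end

end Vale.Agent.P165
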