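import Vale.Agent.P165.Chi

namespace Vale.Agent.P165

open Finset SimpleGraph

variable {V : Type*} [DecidableEq V]

/-- number of walks of length n from x to y -/
noncomputable def wk (nb : V → Finset V) : ℕ → V → V → ℝ
  | 0, x, y => ind (x = y)
  | (n + 1), x, y => ∑ z ∈ nb x, wk nb n z y

omit [DecidableEq V] in
theorem wk_nonneg (nb : V → Finset V) (n : ℕ) (x y : V) : 0 ≤ wk nb n x y := by
  induction n generalizing x with
  | zero => exact ind_nonneg _
  | succ n ih => exact Finset.sum_nonneg (fun z _ => ih z)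

omit [DecidableEq V] in
theorem wk_one_le (nb : V → Finset V) (x y : V) : wk nb 1 x y ≤ 1 := by
  classical
  have : wk nb 1 x y = ∑ z ∈ nb x, ind (z = y) := rfl
  rw [this]
  by_cases hy : y ∈ nb x
  · rw [Finset.sum_eq_single y]
    · exact ind_le_one _
    · intro z _ hz
      exact ind_false hz
    · intro h; exact absurd hy h
  · rw [Finset.sum_eq_zero]
    · norm_num
    · intro z hz
      apply ind_false
      rintro rfl
      exact hy hz

theorem wk_comp (nb : V → Finset V) (U : Finset V) (j k : ℕ) (x y : V) :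
    ∑ u ∈ U, wk nb j x u * wk nb k u y ≤ wk nb (j + k) x y := by
  induction j generalizing x with
  | zero =>
    rw [zero_add]
    by_cases hx : x ∈ U
    · rw [Finset.sum_eq_single x]
      · have : wk nb 0 x x = 1 := ind_true rfl
        rw [this, one_mul]
      · intro u _ hu
        have : wk nb 0 x u = 0 := ind_false (fun h => hu h.symm)
        rw [this, zero_mul]
      · intro h; exact absurd hx h
    · rw [Finset.sum_eq_zero]
      · exact wk_nonneg nb k x y
      · intro u hu
        have : wk nb 0 x u = 0 := ind_false (fun h => hx (h ▸ hu))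
        rw [this, zero_mul]
  | succ j ih =>
    have e1 : ∑ u ∈ U, wk nb (j + 1) x u * wk nb k u y =
        ∑ z ∈ nb x, ∑ u ∈ U, wk nb j z u * wk nb k u y := by
      rw [Finset.sum_comm]
      apply Finset.sum_congr rfl
      intro u _
      have : wk nb (j + 1) x u = ∑ z ∈ nb x, wk nb j z u := rfl
      rw [this, Finset.sum_mul]
    rw [e1]
    have e2 : wk nb (j + 1 + k) x y = ∑ z ∈ nb x, wk nb (j + k) z y := by
      have : j + 1 + k = (j + k) + 1 := by ring
      rw [this]; rfl
    rw [e2]
    exact Finset.sum_le_sum (fun z _ => ih z)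

theorem card_off_lt {F : Finset (Sym2 V)} {x z : V} (h : s(x, z) ∈ F) :
    (off x F).card < F.card := by
  apply Finset.card_lt_card
  rw [Finset.ssubset_iff_of_subset (off_subset x F)]
  exact ⟨s(x, z), h, fun h2 => (mem_off.1 h2).2 (by simp)⟩

/-- the union bound over paths -/
theorem tau_le_walks {p : ℝ} (h0 : 0 ≤ p) (h1 : p ≤ 1) (nb : V → Finset V) (n : ℕ)
    (F : Finset (Sym2 V)) (hn : F.card ≤ n) (hF : ∀ x y, s(x, y) ∈ F → y ∈ nb x) (x y : V) :
    tau p F x y ≤ ∑ k ∈ Finset.range (n + 1), wk nb k x y * p ^ k := by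
  induction n generalizing F x with
  | zero =>
    have hF0 : F = ∅ := Finset.card_eq_zero.1 (Nat.le_zero.1 hn)
    subst hF0
    simp only [zero_add, Finset.range_one, Finset.sum_singleton, pow_zero, mul_one]
    unfold tau Pr
    rw [Ex_empty]
    apply ind_mono
    intro h
    have := conn_mem_verts (Finset.Subset.refl _) h
    simpa [verts, eq_comm] using this
  | succ n ih =>
    by_cases hxy : x = y
    · subst hxy
      refine (tau_le_one h0 h1 F x x).trans ?_
      have : wk nb 0 x x * p ^ 0 = 1 := by
        have : wk nb 0 x x = 1 := ind_true rfl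
        rw [this]; simp
      rw [← this]
      apply Finset.single_le_sum (f := fun k => wk nb k x x * p ^ k)
      · intro k _
        exact mul_nonneg (wk_nonneg nb k x x) (pow_nonneg h0 k)
      · simp
    · have step : tau p F x y ≤ ∑ z ∈ (nb x).filter (fun z => s(x, z) ∈ F),
          p * tau p (off x F) z y := by
        have e1 : tau p F x y ≤ Pr p F (fun S => ∃ z ∈ (nb x).filter (fun z => s(x, z) ∈ F),
            ({s(x, z)} ⊆ S ∧ Conn (off x S) z y)) := by
          apply Pr_mono h0 h1
          intro S hS hc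
          obtain ⟨z, hz1, hz2, hz3⟩ := conn_first_step hc hxy
          refine ⟨z, ?_, by simpa using hz1, hz3⟩
          rw [Finset.mem_filter]
          exact ⟨hF x z (hS hz1), hS hz1⟩
        refine e1.trans ((Pr_exists_le h0 h1 F _ _).trans ?_)
        apply Finset.sum_le_sum
        intro z hz
        rw [Finset.mem_filter] at hz
        have := Pr_star p (F := F) (K := {s(x, z)}) (o := x) (by simpa using hz.2) (by simp)
          (fun S => Conn S z y)
        rw [this]
        simp [tau]
      refine step.trans ?_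
      have hbd : ∀ z ∈ (nb x).filter (fun z => s(x, z) ∈ F), p * tau p (off x F) z y ≤
          ∑ k ∈ Finset.range (n + 1), wk nb k z y * p ^ (k + 1) := by
        intro z hz
        rw [Finset.mem_filter] at hz
        have hc : (off x F).card ≤ n := by
          have := card_off_lt hz.2
          omega
        have := ih (off x F) hc (fun a b hab => hF a b (off_subset x F hab)) z
        calc p * tau p (off x F) z y ≤ p * ∑ k ∈ Finset.range (n + 1), wk nb k z y * p ^ k :=
              mul_le_mul_of_nonneg_left this h0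
          _ = _ := by
              rw [Finset.mul_sum]
              apply Finset.sum_congr rfl
              intro k _; ring
      refine (Finset.sum_le_sum hbd).trans ?_
      have hsub : ∑ z ∈ (nb x).filter (fun z => s(x, z) ∈ F),
          ∑ k ∈ Finset.range (n + 1), wk nb k z y * p ^ (k + 1) ≤
          ∑ z ∈ nb x, ∑ k ∈ Finset.range (n + 1), wk nb k z y * p ^ (k + 1) := by
        apply Finset.sum_le_sum_of_subset_of_nonneg (Finset.filter_subset _ _)
        intro z _ _
        apply Finset.sum_nonneg
        intro k _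
        exact mul_nonneg (wk_nonneg nb k z y) (pow_nonneg h0 _)
      refine hsub.trans ?_
      rw [Finset.sum_comm, Finset.sum_range_succ' _ (n + 1)]
      have e2 : ∀ k ∈ Finset.range (n + 1), ∑ z ∈ nb x, wk nb k z y * p ^ (k + 1) =
          wk nb (k + 1) x y * p ^ (k + 1) := by
        intro k _
        rw [← Finset.sum_mul]; rfl
      rw [Finset.sum_congr rfl e2]
      have : 0 ≤ wk nb 0 x y * p ^ 0 := mul_nonneg (wk_nonneg nb 0 x y) (by simp)
      linarith

/-- geometric sum bound -/
theorem geom_le {z : ℝ} (hz0 : 0 ≤ z) (hz1 : z < 1) (n : ℕ) :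
    ∑ k ∈ Finset.range n, z ^ k ≤ 1 / (1 - z) := by
  have h : 0 < 1 - z := by linarith
  rw [le_div_iff₀ h]
  have := geom_sum_mul_neg z n
  rw [this]
  have : 0 ≤ z ^ n := pow_nonneg hz0 n
  linarith

section
variable {B : ℕ → ℝ} {p' D z : ℝ} (hB0 : B 0 = 0) (hB1 : B 1 ≤ p') (hz0 : 0 ≤ z) (hz1 : z < 1)
  (hD : 0 ≤ D) (hp' : 0 ≤ p') (hB : ∀ n, B (n + 2) ≤ D * z ^ n)
include hB0 hB1 hz0 hz1 hD hp' hB

theorem series_one (n : ℕ) : ∑ k ∈ Finset.range n, B k ≤ p' + D * (1 / (1 - z)) := by
  have hz : 0 < 1 - z := by linarith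
  have hDz : 0 ≤ D * (1 / (1 - z)) := by positivity
  rcases n with _ | _ | n
  · simp only [Finset.range_zero, Finset.sum_empty]; linarith
  · simp only [zero_add, Finset.range_one, Finset.sum_singleton, hB0]; linarith
  · rw [Finset.sum_range_succ', Finset.sum_range_succ']
    have : ∑ k ∈ Finset.range n, B (k + 1 + 1) ≤ D * (1 / (1 - z)) := by
      calc ∑ k ∈ Finset.range n, B (k + 1 + 1) ≤ ∑ k ∈ Finset.range n, D * z ^ k :=
            Finset.sum_le_sum (fun k _ => hB k)
        _ = D * ∑ k ∈ Finset.range n, z ^ k := by rw [Finset.mul_sum]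
        _ ≤ _ := mul_le_mul_of_nonneg_left (geom_le hz0 hz1 n) hD
    simp only [zero_add] at *
    rw [hB0]
    linarith

theorem series_shift_one (n : ℕ) : ∑ k ∈ Finset.range n, B (k + 1) ≤ p' + D * (1 / (1 - z)) := by
  have := series_one hB0 hB1 hz0 hz1 hD hp' hB (n + 1)
  rw [Finset.sum_range_succ', hB0, add_zero] at this
  exact this

theorem series_two (n : ℕ) : ∑ j ∈ Finset.range n, ∑ k ∈ Finset.range n, B (j + k) ≤
    2 * p' + D * (2 / (1 - z) + 1 / (1 - z) ^ 2) := by
  have hz : 0 < 1 - z := by linarith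
  have hDz : 0 ≤ D * (1 / (1 - z)) := by positivity
  have hDz2 : 0 ≤ D * (1 / (1 - z) ^ 2) := by positivity
  have hexp : 2 * p' + D * (2 / (1 - z) + 1 / (1 - z) ^ 2) =
      (p' + D * (1 / (1 - z))) + (p' + D * (1 / (1 - z))) + D * (1 / (1 - z) ^ 2) := by
    ring
  rw [hexp]
  have s1 := series_one hB0 hB1 hz0 hz1 hD hp' hB n
  have s2 := series_shift_one hB0 hB1 hz0 hz1 hD hp' hB n
  rcases n with _ | _ | n
  · simp only [Finset.range_zero, Finset.sum_empty]; linarith
  · simp only [zero_add, Finset.range_one, Finset.sum_singleton, hB0]; linarith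
  · rw [Finset.sum_range_succ', Finset.sum_range_succ']
    have : ∑ j ∈ Finset.range n, ∑ k ∈ Finset.range (n + 1 + 1), B (j + 1 + 1 + k) ≤
        D * (1 / (1 - z) ^ 2) := by
      have b1 : ∀ j ∈ Finset.range n, ∑ k ∈ Finset.range (n + 1 + 1), B (j + 1 + 1 + k) ≤
          D * z ^ j * (1 / (1 - z)) := by
        intro j _
        calc ∑ k ∈ Finset.range (n + 1 + 1), B (j + 1 + 1 + k)
            ≤ ∑ k ∈ Finset.range (n + 1 + 1), D * z ^ j * z ^ k := by
              apply Finset.sum_le_sum
              intro k _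
              have : j + 1 + 1 + k = (j + k) + 2 := by ring
              rw [this]
              refine (hB (j + k)).trans (le_of_eq ?_)
              rw [pow_add]; ring
          _ = D * z ^ j * ∑ k ∈ Finset.range (n + 1 + 1), z ^ k := by rw [Finset.mul_sum]
          _ ≤ _ := mul_le_mul_of_nonneg_left (geom_le hz0 hz1 _) (by positivity)
      calc ∑ j ∈ Finset.range n, ∑ k ∈ Finset.range (n + 1 + 1), B (j + 1 + 1 + k)
          ≤ ∑ j ∈ Finset.range n, D * z ^ j * (1 / (1 - z)) := Finset.sum_le_sum b1
        _ = D * (1 / (1 - z)) * ∑ j ∈ Finset.range n, z ^ j := by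
            rw [Finset.mul_sum]
            apply Finset.sum_congr rfl
            intro j _; ring
        _ ≤ D * (1 / (1 - z)) * (1 / (1 - z)) :=
            mul_le_mul_of_nonneg_left (geom_le hz0 hz1 _) hDz
        _ = _ := by
            have hz' : (1 - z) ≠ 0 := ne_of_gt hz
            field_simp
    have e1 : ∑ k ∈ Finset.range (n + 1 + 1), B (0 + 1 + k) =
        ∑ k ∈ Finset.range (n + 1 + 1), B (k + 1) := by
      apply Finset.sum_congr rfl
      intro k _; congr 1; ring
    have e2 : ∑ k ∈ Finset.range (n + 1 + 1), B (0 + k) =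
        ∑ k ∈ Finset.range (n + 1 + 1), B k := by
      apply Finset.sum_congr rfl
      intro k _; congr 1; ring
    rw [e1, e2]
    linarith
end

end Vale.Agent.P165
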